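import Vale.Agent.P146.H45.QLI

/-!
P146, plan R2, row F2: the left side of (F2*) in the `Y`-form: the main term is
`(1 - ρ⁴c⁴) E |M2 Ñ1|²` with the nonlinear part `Ñ1` of the first field.
-/

open Finset Matrix MeasureTheory ProbabilityTheory

set_option linter.unusedSectionVars false

namespace Vale.Agent.P146.H45

open Vale.Agent.P157.Lv Vale.Agent.P146.H546

section abs
variable {ι : Type} [Fintype ι] [DecidableEq ι]
variable {L : Type*} [NormedAddCommGroup L] [InnerProductSpace ℝ L]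

/-- **Mehler part**, `Y`-form. -/
theorem ql_mainY {M1 M2 : Matrix ι ι ℝ} (h1 : M1ᵀ = M1) (h2 : M2ᵀ = M2) {v1 v2 : ι → ℝ}
    (u1 : ∑ i, v1 i ^ 2 = 1) (u2 : ∑ i, v2 i ^ 2 = 1) {l1 l2 c ρ : ℝ} (e1 : M1 *ᵥ v1 = l1 • v1)
    (e2 : M2 *ᵥ v2 = l2 • v2) (hc : ∑ i, v1 i * v2 i = c) {p q : L}
    (hpq : |inner ℝ p q| ≤ |ρ * c| ^ 3 * (‖p‖ * ‖q‖)) :
    (1 - ρ ^ 4 * c ^ 4) * n2 (mv M2 fun i => v1 i • p) ≤
      QL (ρ ^ 2) M1 M2 (fun i => v1 i • p) (fun i => v2 i • q) := by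
  have f1 : mv M2 (fun i => v1 i • p) = fun k => (M2 *ᵥ v1) k • p := funext fun k =>
    mv_smul_vec M2 v1 p k
  have f2 : mv M1 (fun i => v2 i • q) = fun k => (M1 *ᵥ v2) k • q := funext fun k =>
    mv_smul_vec M1 v2 q k
  have f3 : mv M1 (fun i => v1 i • p) = fun k => (M1 *ᵥ v1) k • p := funext fun k =>
    mv_smul_vec M1 v1 p k
  have f4 : mv M2 (fun i => v2 i • q) = fun k => (M2 *ᵥ v2) k • q := funext fun k =>
    mv_smul_vec M2 v2 q k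
  have g1 : (l2 * c) ^ 2 ≤ ∑ k, (M2 *ᵥ v1) k ^ 2 := by
    have h := Finset.sum_mul_sq_le_sq_mul_sq univ v2 (M2 *ᵥ v1)
    have h3 : ∑ i, v2 i * (M2 *ᵥ v1) i = l2 * c := by
      have : v2 ⬝ᵥ (M2 *ᵥ v1) = (M2 *ᵥ v2) ⬝ᵥ v1 := by
        rw [Matrix.dotProduct_mulVec, ← Matrix.mulVec_transpose, h2]
      have h4 : ∑ i, v2 i * (M2 *ᵥ v1) i = v2 ⬝ᵥ (M2 *ᵥ v1) := rfl
      rw [h4, this, e2, smul_dotProduct, smul_eq_mul, ← hc]
      congr 1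
      exact sum_congr rfl fun i _ => mul_comm _ _
    rw [h3, u2, one_mul] at h
    exact h
  have g2 : (l1 * c) ^ 2 ≤ ∑ k, (M1 *ᵥ v2) k ^ 2 := by
    have h := Finset.sum_mul_sq_le_sq_mul_sq univ v1 (M1 *ᵥ v2)
    have h3 : ∑ i, v1 i * (M1 *ᵥ v2) i = l1 * c := by
      have : v1 ⬝ᵥ (M1 *ᵥ v2) = (M1 *ᵥ v1) ⬝ᵥ v2 := by
        rw [Matrix.dotProduct_mulVec, ← Matrix.mulVec_transpose, h1]
      have h4 : ∑ i, v1 i * (M1 *ᵥ v2) i = v1 ⬝ᵥ (M1 *ᵥ v2) := rfl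
      rw [h4, this, e1, smul_dotProduct, smul_eq_mul, ← hc]
      rfl
    rw [h3, u1, one_mul] at h
    exact h
  have g3 : ∑ i, (M1 *ᵥ v1) i * (M2 *ᵥ v2) i = l1 * l2 * c := by
    rw [e1, e2]
    simp only [Pi.smul_apply, smul_eq_mul]
    rw [← hc, mul_sum]
    exact sum_congr rfl fun i _ => by ring
  unfold QL
  rw [f1, f2, f3, f4, n2_smul_vec, n2_smul_vec, ip_smul_vec, g3]
  set P := ‖p‖
  set Q := ‖q‖
  set X := ∑ k, (M2 *ᵥ v1) k ^ 2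
  have hP : 0 ≤ P := norm_nonneg _
  have hQ : 0 ≤ Q := norm_nonneg _
  have k1 : (l2 * c) ^ 2 * P ^ 2 ≤ X * P ^ 2 := mul_le_mul_of_nonneg_right g1 (sq_nonneg _)
  have k2 : (l1 * c) ^ 2 * Q ^ 2 ≤ (∑ k, (M1 *ᵥ v2) k ^ 2) * Q ^ 2 :=
    mul_le_mul_of_nonneg_right g2 (sq_nonneg _)
  have k3 : l1 * l2 * c * inner ℝ p q ≤ |l1| * |l2| * (|ρ| ^ 3 * c ^ 4) * (P * Q) := by
    refine (le_abs_self _).trans ?_
    rw [abs_mul, abs_mul, abs_mul]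
    refine (mul_le_mul_of_nonneg_left hpq (by positivity)).trans (le_of_eq ?_)
    have : |c| ^ 4 = c ^ 4 := by
      rw [← abs_pow]
      exact abs_of_nonneg (by positivity)
    rw [← this, abs_mul]
    ring
  have k4 : 0 ≤ c ^ 2 * (|ρ| ^ 2 * c ^ 2 * (|l2| * P) - |ρ| * (|l1| * Q)) ^ 2 := by positivity
  have k5 : |l1| ^ 2 = l1 ^ 2 := sq_abs _
  have k6 : |l2| ^ 2 = l2 ^ 2 := sq_abs _
  have k7 : c ^ 2 * (|ρ| ^ 2 * c ^ 2 * (|l2| * P) - |ρ| * (|l1| * Q)) ^ 2 =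
      (|ρ| ^ 2) ^ 2 * c ^ 6 * |l2| ^ 2 * P ^ 2 + |ρ| ^ 2 * (c ^ 2 * |l1| ^ 2 * Q ^ 2) -
        2 * (|l1| * |l2| * (|ρ| ^ 3 * c ^ 4) * (P * Q)) := by ring
  rw [k7, k5, k6, sq_abs] at k4
  have k8 := mul_le_mul_of_nonneg_left k2 (sq_nonneg ρ)
  have k9 : 0 ≤ ρ ^ 4 * c ^ 4 := by positivity
  have k10 := mul_le_mul_of_nonneg_left k1 k9
  nlinarith [k10, k8, k3, k4]

end abs

variable {ι : Type} [Fintype ι] [DecidableEq ι]
variable {a d : ι → (ι → ℝ) → ℝ} {H K : ι → ι → (ι → ℝ) → ℝ} {ρ σ : ℝ}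

/-- **The left side of (F2*)**, `Y`-form. -/
theorem ql_intY (ha : H329.GF a H) (hd : H329.GF d K) (hρ : ρ ^ 2 + σ ^ 2 = 1)
    {M1 M2 L1 L2 : Matrix ι ι ℝ} (h1 : M1ᵀ = M1) (h2 : M2ᵀ = M2) {v1 v2 : ι → ℝ}
    (u1 : ∑ i, v1 i ^ 2 = 1) (u2 : ∑ i, v2 i ^ 2 = 1) {l1 l2 c : ℝ} (e1 : M1 *ᵥ v1 = l1 • v1)
    (e2 : M2 *ᵥ v2 = l2 • v2) (hc : ∑ i, v1 i * v2 i = c) {t1 t2 d1 d2 : ℝ}
    (ht1 : 0 ≤ t1) (ht2 : 0 ≤ t2) (hd1 : 0 ≤ d1) (hd2 : 0 ≤ d2)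
    (n1 : ∫ y, ∑ i, H329.nl a H i y ^ 2 ∂(gI ι) ≤ t1 ^ 2)
    (n2' : ∫ y, ∑ i, H329.nl d K i y ^ 2 ∂(gI ι) ≤ t2 ^ 2)
    (s1 : ∫ y, ∑ i, (H329.nl a H i y - v1 i * H329.al v1 a H y) ^ 2 ∂(gI ι) ≤ d1 ^ 2)
    (s2 : ∫ y, ∑ i, (H329.nl d K i y - v2 i * H329.al v2 d K y) ^ 2 ∂(gI ι) ≤ d2 ^ 2)
    (m1 : ∫ y, H329.al v1 a H y ^ 2 ∂(gI ι) ≤ t1 ^ 2)
    (m2 : ∫ y, H329.al v2 d K y ^ 2 ∂(gI ι) ≤ t2 ^ 2) (hc1 : ρ ^ 4 * c ^ 4 ≤ 1) :
    (1 - ρ ^ 4 * c ^ 4) * (∫ y, ∑ k, mw M2 (fun i => H329.nl a H i y) k ^ 2 ∂(gI ι)) +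
        qlin ρ M1 M2 (Matrix.of (H329.MH H) - L1) (Matrix.of (H329.MH K) - L2) -
        2 * (2 * (fb M2 ^ 2 * (d1 * t1)) + ρ ^ 2 * (fb M1 ^ 2 * (d2 * t2)) +
          fb M1 * fb M2 * (d1 * t2 + d2 * t1)) ≤
      ∫ w : ι ⊕ ι → ℝ, qlp (ρ ^ 2) M1 M2 (fun i => res a L1 i (yq 1 0 w))
        (fun i => res d L2 i (yq ρ σ w)) ∂(gI (ι ⊕ ι)) := by
  have h10 : (1 : ℝ) ^ 2 + (0 : ℝ) ^ 2 = 1 := by norm_num
  have ea : ∀ i, EG fun w : ι ⊕ ι → ℝ => res a L1 i (yq 1 0 w) := fun i =>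
    eg_yq (eg_res ha.eg L1 i) 1 0
  have ed : ∀ i, EG fun w : ι ⊕ ι → ℝ => res d L2 i (yq ρ σ w) := fun i =>
    eg_yq (eg_res hd.eg L2 i) ρ σ
  have na : ∀ i, EG fun w : ι ⊕ ι → ℝ => H329.nl a H i (yq 1 0 w) := fun i =>
    eg_yq (ha.eg_nl i) 1 0
  have nd : ∀ i, EG fun w : ι ⊕ ι → ℝ => H329.nl d K i (yq ρ σ w) := fun i =>
    eg_yq (hd.eg_nl i) ρ σ
  have c1 : ∀ i, EG fun w : ι ⊕ ι → ℝ => yq 1 0 w i := fun i => eg_yq (EG.coord i) 1 0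
  have c2 : ∀ i, EG fun w : ι ⊕ ι → ℝ => yq ρ σ w i := fun i => eg_yq (EG.coord i) ρ σ
  have ela : EG (H329.al v1 a H) := by
    have := H329.eg_comp_dv (H329.cce_of (oe_ap ha v1).cont (oe_ap ha v1).bdd) v1
    exact this
  have eld : EG (H329.al v2 d K) := by
    have := H329.eg_comp_dv (H329.cce_of (oe_ap hd v2).cont (oe_ap hd v2).bdd) v2
    exact this
  have la : EG fun w : ι ⊕ ι → ℝ => H329.al v1 a H (yq 1 0 w) := eg_yq ela 1 0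
  have ld : EG fun w : ι ⊕ ι → ℝ => H329.al v2 d K (yq ρ σ w) := eg_yq eld ρ σ
  rw [int_qlp (ρ ^ 2) M1 M2 ea ed]
  have r1 : (fun i => el (fun w : ι ⊕ ι → ℝ => res a L1 i (yq 1 0 w))) =
      fun i => mv (Matrix.of (H329.MH H) - L1) (fun j => el fun w : ι ⊕ ι → ℝ => yq 1 0 w j) i +
        el (fun w : ι ⊕ ι → ℝ => H329.nl a H i (yq 1 0 w)) := by
    funext i
    rw [← el_mw _ c1, ← el_add (eg_mw _ c1 i) (na i)]
    congr 1
    funext w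
    exact res_nl L1 i (yq 1 0 w)
  have r2 : (fun i => el (fun w : ι ⊕ ι → ℝ => res d L2 i (yq ρ σ w))) =
      fun i => mv (Matrix.of (H329.MH K) - L2) (fun j => el fun w : ι ⊕ ι → ℝ => yq ρ σ w j) i +
        el (fun w : ι ⊕ ι → ℝ => H329.nl d K i (yq ρ σ w)) := by
    funext i
    rw [← el_mw _ c2, ← el_add (eg_mw _ c2 i) (nd i)]
    congr 1
    funext w
    exact res_nl L2 i (yq ρ σ w)
  have y11 : ∀ i j, inner ℝ (el fun w : ι ⊕ ι → ℝ => yq 1 0 w i)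
      (el fun w : ι ⊕ ι → ℝ => yq 1 0 w j) = if i = j then (1 : ℝ) else 0 := fun i j => by
    rw [inner_el (c1 i) (c1 j), int_yq h10 (F := fun y : ι → ℝ => y i * y j)
      ((EG.coord i).mul (EG.coord j)).meas, int_coord' i j]
    by_cases h : i = j
    · simp [h]
    · simp [h, Ne.symm h]
  have y22 : ∀ i j, inner ℝ (el fun w : ι ⊕ ι → ℝ => yq ρ σ w i)
      (el fun w : ι ⊕ ι → ℝ => yq ρ σ w j) = if i = j then (1 : ℝ) else 0 := fun i j => by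
    rw [inner_el (c2 i) (c2 j), int_yq hρ (F := fun y : ι → ℝ => y i * y j)
      ((EG.coord i).mul (EG.coord j)).meas, int_coord' i j]
    by_cases h : i = j
    · simp [h]
    · simp [h, Ne.symm h]
  have z1 : ∀ (w : ι ⊕ ι → ℝ) i, yq 1 0 w i = w (Sum.inl i) := fun w i => by
    rw [yq_apply]; ring
  have y12 : ∀ i j, inner ℝ (el fun w : ι ⊕ ι → ℝ => yq 1 0 w i)
      (el fun w : ι ⊕ ι → ℝ => yq ρ σ w j) = if i = j then ρ else 0 := fun i j => by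
    rw [inner_el (c1 i) (c2 j)]
    simp only [z1]
    exact int_yy i j
  have p11 : ∀ i j, inner ℝ (el fun w : ι ⊕ ι → ℝ => yq 1 0 w i)
      (el fun w : ι ⊕ ι → ℝ => H329.nl a H j (yq 1 0 w)) = 0 := fun i j => by
    rw [inner_el (c1 i) (na j)]
    simp only [z1]
    exact perp12 ha h10 i j
  have p12 : ∀ i j, inner ℝ (el fun w : ι ⊕ ι → ℝ => yq 1 0 w i)
      (el fun w : ι ⊕ ι → ℝ => H329.nl d K j (yq ρ σ w)) = 0 := fun i j => by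
    rw [inner_el (c1 i) (nd j)]
    simp only [z1]
    exact perp12 hd hρ i j
  have p21 : ∀ i j, inner ℝ (el fun w : ι ⊕ ι → ℝ => yq ρ σ w i)
      (el fun w : ι ⊕ ι → ℝ => H329.nl a H j (yq 1 0 w)) = 0 := fun i j => by
    rw [inner_el (c2 i) (na j)]
    exact perp21 ha i j
  have p22 : ∀ i j, inner ℝ (el fun w : ι ⊕ ι → ℝ => yq ρ σ w i)
      (el fun w : ι ⊕ ι → ℝ => H329.nl d K j (yq ρ σ w)) = 0 := fun i j => by
    rw [inner_el (c2 i) (nd j), int_yq hρ (F := fun y : ι → ℝ => y i * H329.nl d K j y)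
      ((EG.coord i).mul (hd.eg_nl j)).meas]
    exact H329.stein_nl hd j i
  rw [r1, r2, ql_split y11 y22 y12 p11 p12 p21 p22]
  set N1 : ι → Lp ℝ 2 (gI (ι ⊕ ι)) := fun i =>
    el (fun w : ι ⊕ ι → ℝ => H329.nl a H i (yq 1 0 w)) with hN1
  set N2 : ι → Lp ℝ 2 (gI (ι ⊕ ι)) := fun i =>
    el (fun w : ι ⊕ ι → ℝ => H329.nl d K i (yq ρ σ w)) with hN2
  set p : Lp ℝ 2 (gI (ι ⊕ ι)) := el (fun w : ι ⊕ ι → ℝ => H329.al v1 a H (yq 1 0 w)) with hp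
  set q : Lp ℝ 2 (gI (ι ⊕ ι)) := el (fun w : ι ⊕ ι → ℝ => H329.al v2 d K (yq ρ σ w)) with hq
  have hpn : ‖p‖ ^ 2 = ∫ y, H329.al v1 a H y ^ 2 ∂(gI ι) := by
    rw [hp, norm_el_sq la, int_yq h10 (F := fun y => H329.al v1 a H y ^ 2) (ela.pow 2).meas]
  have hqn : ‖q‖ ^ 2 = ∫ y, H329.al v2 d K y ^ 2 ∂(gI ι) := by
    rw [hq, norm_el_sq ld, int_yq hρ (F := fun y => H329.al v2 d K y ^ 2) (eld.pow 2).meas]
  have hN1n : n2 N1 = ∫ y, ∑ i, H329.nl a H i y ^ 2 ∂(gI ι) := by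
    have h := n2_el na
    rw [hN1, h, int_yq h10 (F := fun y => ∑ i, H329.nl a H i y ^ 2)
      (EG.sum _ fun i _ => (ha.eg_nl i).pow 2).meas]
  have hN2n : n2 N2 = ∫ y, ∑ i, H329.nl d K i y ^ 2 ∂(gI ι) := by
    have h := n2_el nd
    rw [hN2, h, int_yq hρ (F := fun y => ∑ i, H329.nl d K i y ^ 2)
      (EG.sum _ fun i _ => (hd.eg_nl i).pow 2).meas]
  have hMN : n2 (mv M2 N1) = ∫ y, ∑ k, mw M2 (fun i => H329.nl a H i y) k ^ 2 ∂(gI ι) := by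
    have e : mv M2 N1 = fun k => el fun w : ι ⊕ ι → ℝ =>
        mw M2 (fun i => H329.nl a H i (yq 1 0 w)) k := funext fun k => (el_mw M2 na k).symm
    rw [e, n2_el fun k => eg_mw M2 na k, int_yq h10
      (F := fun y => ∑ k, mw M2 (fun i => H329.nl a H i y) k ^ 2)
      (EG.sum _ fun k _ => (eg_mw M2 ha.eg_nl k).pow 2).meas]
  have hD1 : n2 (fun i => N1 i - v1 i • p) =
      ∫ y, ∑ i, (H329.nl a H i y - v1 i * H329.al v1 a H y) ^ 2 ∂(gI ι) := by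
    have e : ∀ i, N1 i - v1 i • p = el (fun w : ι ⊕ ι → ℝ =>
        H329.nl a H i (yq 1 0 w) - v1 i * H329.al v1 a H (yq 1 0 w)) := fun i => by
      rw [el_sub (na i) (la.const_mul _), el_smul _ la]
    have e' : (fun i => N1 i - v1 i • p) = fun i => el (fun w : ι ⊕ ι → ℝ =>
        H329.nl a H i (yq 1 0 w) - v1 i * H329.al v1 a H (yq 1 0 w)) := funext e
    rw [e', n2_el fun i => (na i).sub (la.const_mul _),
      int_yq h10 (F := fun y => ∑ i, (H329.nl a H i y - v1 i * H329.al v1 a H y) ^ 2)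
        (EG.sum _ fun i _ => ((ha.eg_nl i).sub (ela.const_mul _)).pow 2).meas]
  have hD2 : n2 (fun i => N2 i - v2 i • q) =
      ∫ y, ∑ i, (H329.nl d K i y - v2 i * H329.al v2 d K y) ^ 2 ∂(gI ι) := by
    have e : ∀ i, N2 i - v2 i • q = el (fun w : ι ⊕ ι → ℝ =>
        H329.nl d K i (yq ρ σ w) - v2 i * H329.al v2 d K (yq ρ σ w)) := fun i => by
      rw [el_sub (nd i) (ld.const_mul _), el_smul _ ld]
    have e' : (fun i => N2 i - v2 i • q) = fun i => el (fun w : ι ⊕ ι → ℝ =>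
        H329.nl d K i (yq ρ σ w) - v2 i * H329.al v2 d K (yq ρ σ w)) := funext e
    rw [e', n2_el fun i => (nd i).sub (ld.const_mul _),
      int_yq hρ (F := fun y => ∑ i, (H329.nl d K i y - v2 i * H329.al v2 d K y) ^ 2)
        (EG.sum _ fun i _ => ((hd.eg_nl i).sub (eld.const_mul _)).pow 2).meas]
  have hpq : |inner ℝ p q| ≤ |ρ * c| ^ 3 * (‖p‖ * ‖q‖) := by
    have g1 : ∀ w : ι ⊕ ι → ℝ, H329.al v1 a H (yq 1 0 w) = ap v1 a H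
        (H329.dv (Sum.elim (fun i => 1 * v1 i) fun i => 0 * v1 i) w) := fun w => by
      rw [al_ap, dv_yq]
    have g2 : ∀ w : ι ⊕ ι → ℝ, H329.al v2 d K (yq ρ σ w) = ap v2 d K
        (H329.dv (Sum.elim (fun i => ρ * v2 i) fun i => σ * v2 i) w) := fun w => by
      rw [al_ap, dv_yq]
    have hr : ∑ k, (Sum.elim (fun i => 1 * v1 i) (fun i => 0 * v1 i) : ι ⊕ ι → ℝ) k *
        (Sum.elim (fun i => ρ * v2 i) (fun i => σ * v2 i) : ι ⊕ ι → ℝ) k = ρ * c := by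
      simp only [Fintype.sum_sum_type, Sum.elim_inl, Sum.elim_inr, zero_mul, sum_const_zero,
        add_zero]
      rw [← hc, mul_sum]
      exact sum_congr rfl fun i _ => by ring
    have b := meh_forms (unit_yq h10 u1) (unit_yq hρ u2) hr (oe_ap ha v1) (oe_ap hd v2)
      (by
        have := int_dv_ap ha u1
        rw [← int_yq h10 (F := fun y => H329.dv v1 y * ap v1 a H (H329.dv v1 y))
          ((H329.eg_dv v1).mul ela).meas] at this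
        simpa only [dv_yq] using this)
      (by
        have := int_dv_ap hd u2
        rw [← int_yq hρ (F := fun y => H329.dv v2 y * ap v2 d K (H329.dv v2 y))
          ((H329.eg_dv v2).mul eld).meas] at this
        simpa only [dv_yq] using this)
    simp only [← g1, ← g2] at b
    rw [hp, hq, inner_el la ld]
    have w1 : √(∫ w : ι ⊕ ι → ℝ, H329.al v1 a H (yq 1 0 w) ^ 2 ∂(gI (ι ⊕ ι))) = ‖p‖ := by
      rw [← norm_el_sq la, Real.sqrt_sq (norm_nonneg _)]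
    have w2 : √(∫ w : ι ⊕ ι → ℝ, H329.al v2 d K (yq ρ σ w) ^ 2 ∂(gI (ι ⊕ ι))) = ‖q‖ := by
      rw [← norm_el_sq ld, Real.sqrt_sq (norm_nonneg _)]
    rw [w1, w2, hp, hq] at b
    exact b
  have main := ql_mainY h1 h2 u1 u2 e1 e2 hc hpq
  have b1 : nr N1 ≤ t1 := nr_le_of_sq ht1 (by rw [hN1n]; exact n1)
  have b2 : nr (fun i => v1 i • p) ≤ t1 :=
    nr_le_of_sq ht1 (by rw [n2_smul_vec, u1, one_mul, hpn]; exact m1)
  have b3 : nr (fun i => N1 i - v1 i • p) ≤ d1 := nr_le_of_sq hd1 (by rw [hD1]; exact s1)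
  have rep := ql_repl (M1 := M1) (M2 := M2) (κ := ρ ^ 2) (N1 := N1) (N2 := N2)
    (m1 := fun i => v1 i • p) (m2 := fun i => v2 i • q) (t1 := t1) (t2 := t2) (d1 := d1)
    (d2 := d2) (sq_nonneg ρ) b1
    (nr_le_of_sq ht2 (by rw [hN2n]; exact n2')) b2
    (nr_le_of_sq ht2 (by rw [n2_smul_vec, u2, one_mul, hqn]; exact m2)) b3
    (nr_le_of_sq hd2 (by rw [hD2]; exact s2))
  have rep' := (abs_le.1 rep).1
  -- the main term
  have hm : n2 (mv M2 N1) - n2 (mv M2 fun i => v1 i • p) ≤ 2 * (fb M2 ^ 2 * (d1 * t1)) := by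
    refine (le_abs_self _).trans ((abs_n2_sub_le _ _).trans ?_)
    rw [← mv_sub_right]
    have a1 := (nr_mv_le M2 (fun i => N1 i - v1 i • p)).trans
      (mul_le_mul_of_nonneg_left b3 (fb_nonneg M2))
    have a2 := (nr_mv_le M2 N1).trans (mul_le_mul_of_nonneg_left b1 (fb_nonneg M2))
    have a3 := (nr_mv_le M2 fun i => v1 i • p).trans
      (mul_le_mul_of_nonneg_left b2 (fb_nonneg M2))
    calc _ ≤ (fb M2 * d1) * (fb M2 * t1 + fb M2 * t1) :=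
          mul_le_mul a1 (add_le_add a2 a3) (add_nonneg (nr_nonneg _) (nr_nonneg _))
            (mul_nonneg (fb_nonneg M2) hd1)
      _ = _ := by ring
  have hk : 0 ≤ 1 - ρ ^ 4 * c ^ 4 := by linarith
  have hk1 : 1 - ρ ^ 4 * c ^ 4 ≤ 1 := by
    have : 0 ≤ ρ ^ 4 * c ^ 4 := by positivity
    linarith
  have hm2 : (1 - ρ ^ 4 * c ^ 4) * n2 (mv M2 N1) ≤
      (1 - ρ ^ 4 * c ^ 4) * n2 (mv M2 fun i => v1 i • p) + 2 * (fb M2 ^ 2 * (d1 * t1)) := by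
    have h3 : 0 ≤ 2 * (fb M2 ^ 2 * (d1 * t1)) := by
      have := mul_nonneg hd1 ht1
      positivity
    have h4 := mul_le_mul_of_nonneg_left hm hk
    have h5 : (1 - ρ ^ 4 * c ^ 4) * (2 * (fb M2 ^ 2 * (d1 * t1))) ≤
        1 * (2 * (fb M2 ^ 2 * (d1 * t1))) := mul_le_mul_of_nonneg_right hk1 h3
    linarith
  rw [← hMN]
  unfold qlin
  linarith

end Vale.Agent.P146.H45
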