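import Vale.Agent.P146.H45.F2L
import Vale.Agent.P146.H45.QLY
import Vale.Agent.P146.H326.J1

/-!
P146, plan R2, row F2: the left side of (F2*) at a fixed bulk in the `Y`-form (785): main term
`(1 - a²) E |M2 Ñ1|²`, `a = <M1, M2> / (|M1| |M2|)`, `Ñ1` = nonlinear part of the first field.
-/

open MeasureTheory ProbabilityTheory

namespace Vale.Agent.P146.H45

open Vale.Agent.P157.Lv Vale.Agent.P146.H425 Vale.Agent.P146.H325 Vale.Agent.P146.H332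
  Vale.Agent.P146.H712 Vale.Agent.P146.R1 Vale.Agent.P146.R1C Vale.Agent.P146.H706
  Vale.Agent.P146.R1S Vale.Agent.P146.H191 Vale.Agent.P146.H522 Matrix

set_option linter.unusedSectionVars false

variable {n : ℕ} {k x : ℝ} {q : Par}

/-- `E |M Ñ|²`, `Ñ` the nonlinear part of the column as a function of its row -/
noncomputable def Ny (k : ℝ) (A : (Pair n → ℝ) → Matrix (Fin n) (Fin n) ℝ)
    (H : Fin n → (Pair n → ℝ) → Matrix (Fin n) (Fin n) ℝ) (s : ℝ) (b : Fin n)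
    (M : Fin n → Fin n → ℝ) (z : Pair n → ℝ) : ℝ :=
  ∫ y, ∑ k', mw (Matrix.of M) (fun i => H329.nl (fa1 A s b z) (fh1 k H s b z) i y) k' ^ 2
    ∂(gI (Fin n))

lemma Ny_nonneg (A : (Pair n → ℝ) → Matrix (Fin n) (Fin n) ℝ)
    (H : Fin n → (Pair n → ℝ) → Matrix (Fin n) (Fin n) ℝ) (s : ℝ) (b : Fin n)
    (M : Fin n → Fin n → ℝ) (z : Pair n → ℝ) : 0 ≤ Ny k A H s b M z :=
  integral_nonneg fun _ => Finset.sum_nonneg fun _ _ => sq_nonneg _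

/-- the error of the `Y`-form at a bulk -/
noncomputable def f2errY (S : CS n k x) (q : Par) (b : Fin n) (M1 M2 : Fin n → Fin n → ℝ)
    (v1 v2 : Fin n → ℝ) (w : K4 (Pair n) → ℝ) : ℝ :=
  2 * (2 * (H546.fb (Matrix.of M2) ^ 2 *
      (√(Nd k (S.A q.s1) (S.H q.s1) q.s1 b v1 (P2 q w)) *
        √(Na k (S.A q.s1) (S.H q.s1) q.s1 b (P2 q w)))) +
    q.s1 / q.s2 * (H546.fb (Matrix.of M1) ^ 2 *
      (√(Nd k (S.A q.s2) (S.H q.s2) q.s2 b v2 (P3 q w)) *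
        √(Na k (S.A q.s2) (S.H q.s2) q.s2 b (P3 q w)))) +
    H546.fb (Matrix.of M1) * H546.fb (Matrix.of M2) *
      (√(Nd k (S.A q.s1) (S.H q.s1) q.s1 b v1 (P2 q w)) *
        √(Na k (S.A q.s2) (S.H q.s2) q.s2 b (P3 q w)) +
      √(Nd k (S.A q.s2) (S.H q.s2) q.s2 b v2 (P3 q w)) *
        √(Na k (S.A q.s1) (S.H q.s1) q.s1 b (P2 q w))))

/-- **(F2-L), `Y`-form.** -/
theorem f2lY (S : CS n k x) (hq : q.OkS) (h1 : 0 < q.s1) (β : ℝ) {b : Fin n} {M1 M2 : MF n}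
    (i1 : ∀ i j, Ind (lf (row b)) fun w => M1 w i j)
    (i2 : ∀ i j, Ind (lf (row b)) fun w => M2 w i j) (c1 : ∀ w i, M1 w i b = 0)
    (c2 : ∀ w i, M2 w i b = 0) (w : K4 (Pair n) → ℝ) (sy1 : ∀ i j, M1 w i j = M1 w j i)
    (sy2 : ∀ i j, M2 w i j = M2 w j i) {v1 v2 : Fin n → ℝ} (u1 : ∑ i, v1 i ^ 2 = 1)
    (u2 : ∑ i, v2 i ^ 2 = 1) {l1 l2 c : ℝ} (e1 : Matrix.of (M1 w) *ᵥ v1 = l1 • v1)
    (e2 : Matrix.of (M2 w) *ᵥ v2 = l2 • v2) (hc : ∑ i, v1 i * v2 i = c) :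
    (1 - (q.s1 / q.s2) ^ 2 * c ^ 4) * Ny k (S.A q.s1) (S.H q.s1) q.s1 b (M2 w) (P2 q w) +
        f2lin S q β b (M1 w) (M2 w) w - f2errY S q b (M1 w) (M2 w) v1 v2 w ≤
      Av (lf (row b)) (f2q S q.s1 q.s2 β (q.s1 / q.s2) (k2 q) (k3 q) b M1 M2) w := by
  have h2 : 0 < q.s2 := h1.trans_le hq.h12
  have hr2 : 0 < √q.s2 := Real.sqrt_pos.2 h2
  have hκ : (√q.s1 / √q.s2) ^ 2 = q.s1 / q.s2 := by
    rw [div_pow, Real.sq_sqrt h1.le, Real.sq_sqrt h2.le]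
  have hρ : (√q.s1 / √q.s2) ^ 2 + (√(q.s2 - q.s1) / √q.s2) ^ 2 = 1 := by
    rw [div_pow, div_pow, Real.sq_sqrt h1.le, Real.sq_sqrt h2.le,
      Real.sq_sqrt (sub_nonneg.2 hq.h12)]
    field_simp
    ring
  rw [Av_f2q S hq h2 β i1 i2 c1 c2 w]
  have t1 : (Matrix.of (M1 w))ᵀ = Matrix.of (M1 w) := by
    ext i j; exact sy1 j i
  have t2 : (Matrix.of (M2 w))ᵀ = Matrix.of (M2 w) := by
    ext i j; exact sy2 j i
  have h4 : (√q.s1 / √q.s2) ^ 4 = (q.s1 / q.s2) ^ 2 := by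
    rw [← hκ]; ring
  have hc2 : c ^ 2 ≤ 1 := by
    have h := Finset.sum_mul_sq_le_sq_mul_sq Finset.univ v1 v2
    rw [hc, u1, u2] at h
    simpa using h
  have hc1 : (√q.s1 / √q.s2) ^ 4 * c ^ 4 ≤ 1 := by
    rw [h4]
    have a1 : q.s1 / q.s2 ≤ 1 := (div_le_one h2).2 hq.h12
    have a0 : 0 ≤ q.s1 / q.s2 := div_nonneg h1.le h2.le
    have a2 : (q.s1 / q.s2) ^ 2 ≤ 1 := pow_le_one₀ a0 a1
    have a3 : c ^ 4 ≤ 1 := by
      have := pow_le_one₀ (sq_nonneg c) hc2 (n := 2)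
      calc c ^ 4 = (c ^ 2) ^ 2 := by ring
        _ ≤ 1 := this
    exact mul_le_one₀ a2 (by positivity) a3
  have g1 := gf_a1 (rowIn_S S h1) q.s1 b (P2 q w)
  have g2 := gf_a1 (rowIn_S S h2) q.s2 b (P3 q w)
  have key := ql_intY g1 g2 hρ (L1 := (k * √q.s1 / β) • Matrix.of (M1 w))
    (L2 := (k * √q.s2 / β) • Matrix.of (M2 w)) t1 t2 u1 u2 e1 e2 hc (Real.sqrt_nonneg _)
    (Real.sqrt_nonneg _) (Real.sqrt_nonneg _) (Real.sqrt_nonneg _)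
    (by rw [Real.sq_sqrt (Na_nonneg q.s1 b (P2 q w))]; exact le_rfl)
    (by rw [Real.sq_sqrt (Na_nonneg q.s2 b (P3 q w))]; exact le_rfl)
    (by rw [Real.sq_sqrt (Nd_nonneg q.s1 b v1 (P2 q w))]; exact le_rfl)
    (by rw [Real.sq_sqrt (Nd_nonneg q.s2 b v2 (P3 q w))]; exact le_rfl)
    (by rw [Real.sq_sqrt (Na_nonneg q.s1 b (P2 q w))]; exact Nt_le (rowIn_S S h1) q.s1 b u1 _)
    (by rw [Real.sq_sqrt (Na_nonneg q.s2 b (P3 q w))]; exact Nt_le (rowIn_S S h2) q.s2 b u2 _)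
    hc1
  refine le_trans (le_of_eq ?_) key
  unfold f2lin f2errY Ny MJ
  rw [h4, hκ]

/-! ### the correlation of the top vectors and the correlation of the matrices -/

lemma quad_nonneg {P : Matrix (Fin n) (Fin n) ℝ} (h : P.PosSemidef) (v : Fin n → ℝ) :
    0 ≤ ∑ i, ∑ j, v i * P i j * v j := by
  have h1 := h.dotProduct_mulVec_nonneg v
  have e : star v ⬝ᵥ (P *ᵥ v) = ∑ i, ∑ j, v i * P i j * v j := by
    simp only [dotProduct, mulVec, Pi.star_apply, star_trivial, Finset.mul_sum]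
    exact Finset.sum_congr rfl fun i _ => Finset.sum_congr rfl fun j _ => by ring
  rw [e] at h1
  exact h1

/-- `l1 l2 c² ≤ <M1, M2>` -/
theorem cc_le {M1 M2 P1 P2 : Matrix (Fin n) (Fin n) ℝ} {v1 v2 : Fin n → ℝ} {l1 l2 c : ℝ}
    (hl1 : 0 ≤ l1) (hl2 : 0 ≤ l2) (e1 : M1 = l1 • vecMulVec v1 v1 + P1)
    (e2 : M2 = l2 • vecMulVec v2 v2 + P2) (p1 : P1.PosSemidef) (p2 : P2.PosSemidef)
    (hc : ∑ i, v1 i * v2 i = c) : l1 * l2 * c ^ 2 ≤ ∑ i, ∑ j, M1 i j * M2 i j := by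
  have q1 := quad_nonneg p1 v2
  have q2 := quad_nonneg p2 v1
  have sm : ∀ {P : Matrix (Fin n) (Fin n) ℝ}, P.PosSemidef → ∀ i j, P i j = P j i := by
    intro P hP i j
    have := hP.isHermitian.apply j i
    simpa using this
  have q3 : 0 ≤ ∑ i, ∑ j, P1 i j * P2 i j :=
    psd_mul_nonneg (sm p1) (fun v => quad_nonneg p1 v) (sm p2) (fun v => quad_nonneg p2 v)
  have q4 : ∑ i, ∑ j, M1 i j * M2 i j = l1 * l2 * c ^ 2 +
      l1 * (∑ i, ∑ j, v1 i * P2 i j * v1 j) + l2 * (∑ i, ∑ j, v2 i * P1 i j * v2 j) +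
      ∑ i, ∑ j, P1 i j * P2 i j := by
    have e3 : c ^ 2 = ∑ i, ∑ j, (v1 i * v2 i) * (v1 j * v2 j) := by
      rw [← hc, _root_.sq, Finset.sum_mul_sum]
    rw [e3, Finset.mul_sum, Finset.mul_sum, Finset.mul_sum, ← Finset.sum_add_distrib,
      ← Finset.sum_add_distrib, ← Finset.sum_add_distrib]
    refine Finset.sum_congr rfl fun i _ => ?_
    rw [Finset.mul_sum, Finset.mul_sum, Finset.mul_sum, ← Finset.sum_add_distrib,
      ← Finset.sum_add_distrib, ← Finset.sum_add_distrib]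
    refine Finset.sum_congr rfl fun j _ => ?_
    rw [e1, e2]
    simp only [Matrix.add_apply, Matrix.smul_apply, vecMulVec_apply, smul_eq_mul]
    ring
  rw [q4]
  have := mul_nonneg hl1 q2
  have := mul_nonneg hl2 q1
  linarith

/-- `c⁴ ≤ a² + 8 ε`, `a = <M1, M2> / (|M1| |M2|)` -/
theorem c4_le {l1 l2 N1 N2 c I ε : ℝ} (hN1 : 0 < N1) (hN2 : 0 < N2) (hε : 0 ≤ ε)
    (hε1 : ε ≤ 1 / 8) (h1 : (1 - ε) * N1 ≤ l1) (h2 : (1 - ε) * N2 ≤ l2)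
    (hI : l1 * l2 * c ^ 2 ≤ I) (hI1 : I ≤ N1 * N2) : c ^ 4 ≤ (I / (N1 * N2)) ^ 2 + 8 * ε := by
  have hN : 0 < N1 * N2 := mul_pos hN1 hN2
  set a := I / (N1 * N2) with ha
  have ha1 : a ≤ 1 := (div_le_one hN).2 hI1
  have he : 0 < 1 - ε := by linarith
  have k1 : (1 - ε) ^ 2 * c ^ 2 ≤ a := by
    rw [ha, le_div_iff₀ hN]
    have h3 : (1 - ε) * N1 * ((1 - ε) * N2) ≤ l1 * l2 :=
      mul_le_mul h1 h2 (by positivity) ((mul_nonneg he.le hN1.le).trans h1)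
    have h4 := mul_le_mul_of_nonneg_right h3 (sq_nonneg c)
    nlinarith
  have k0 : 0 ≤ (1 - ε) ^ 2 * c ^ 2 := by positivity
  have ha0 : 0 ≤ a := k0.trans k1
  have k2 : ((1 - ε) ^ 2 * c ^ 2) ^ 2 ≤ a ^ 2 := pow_le_pow_left₀ k0 k1 2
  have k3 : a ^ 2 ≤ 1 := pow_le_one₀ ha0 ha1
  -- `(1-ε)⁴ c⁴ ≤ a²`, `c⁴ ≤ a² (1-ε)^{-4} ≤ a² (1 + 8ε)`
  have k4 : (1 - ε) ^ 4 * c ^ 4 ≤ a ^ 2 := by
    calc (1 - ε) ^ 4 * c ^ 4 = ((1 - ε) ^ 2 * c ^ 2) ^ 2 := by ring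
      _ ≤ _ := k2
  have k5 : 1 ≤ (1 - ε) ^ 4 * (1 + 8 * ε) := by
    have b1 : 1 - 4 * ε ≤ (1 - ε) ^ 4 := by
      have h := one_add_mul_le_pow (a := -ε) (by linarith) 4
      norm_num at h
      have e : 1 + -ε = 1 - ε := by ring
      rw [e] at h
      linarith
    have b2 : 1 ≤ (1 - 4 * ε) * (1 + 8 * ε) := by nlinarith
    exact b2.trans (mul_le_mul_of_nonneg_right b1 (by linarith))
  have k6 : c ^ 4 ≤ (1 + 8 * ε) * a ^ 2 := by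
    have hc4 : 0 ≤ c ^ 4 := by positivity
    calc c ^ 4 = 1 * c ^ 4 := by ring
      _ ≤ ((1 - ε) ^ 4 * (1 + 8 * ε)) * c ^ 4 := mul_le_mul_of_nonneg_right k5 hc4
      _ = (1 + 8 * ε) * ((1 - ε) ^ 4 * c ^ 4) := by ring
      _ ≤ _ := mul_le_mul_of_nonneg_left k4 (by linarith)
  nlinarith [mul_le_mul_of_nonneg_left k3 (by linarith : (0 : ℝ) ≤ 8 * ε)]

/-- **(F2-L), `Y`-form with `a = <M1, M2> / (|M1| |M2|)`**, locked matrices. -/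
theorem f2lA (S : CS n k x) (hq : q.OkS) (h1 : 0 < q.s1) (β : ℝ) {b : Fin n} {M1 M2 : MF n}
    (i1 : ∀ i j, Ind (lf (row b)) fun w => M1 w i j)
    (i2 : ∀ i j, Ind (lf (row b)) fun w => M2 w i j) (c1 : ∀ w i, M1 w i b = 0)
    (c2 : ∀ w i, M2 w i b = 0) (w : K4 (Pair n) → ℝ) {v1 v2 : Fin n → ℝ} {l1 l2 ε : ℝ}
    {R1 R2 : Matrix (Fin n) (Fin n) ℝ} (u1 : ∑ i, v1 i ^ 2 = 1) (u2 : ∑ i, v2 i ^ 2 = 1)
    (e1 : Matrix.of (M1 w) = l1 • vecMulVec v1 v1 + R1)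
    (e2 : Matrix.of (M2 w) = l2 • vecMulVec v2 v2 + R2) (p1 : R1.PosSemidef)
    (p2 : R2.PosSemidef) (o1 : R1 * vecMulVec v1 v1 = 0) (o2 : R2 * vecMulVec v2 v2 = 0)
    (f1 : 0 < nf (Matrix.of (M1 w))) (f2 : 0 < nf (Matrix.of (M2 w))) (hε : 0 ≤ ε)
    (hε1 : ε ≤ 1 / 8) (g1 : (1 - ε) * nf (Matrix.of (M1 w)) ≤ l1)
    (g2 : (1 - ε) * nf (Matrix.of (M2 w)) ≤ l2) :
    (1 - ((∑ i, ∑ j, M1 w i j * M2 w i j) /
          (nf (Matrix.of (M1 w)) * nf (Matrix.of (M2 w)))) ^ 2 - 8 * ε) *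
          Ny k (S.A q.s1) (S.H q.s1) q.s1 b (M2 w) (P2 q w) +
        f2lin S q β b (M1 w) (M2 w) w - f2errY S q b (M1 w) (M2 w) v1 v2 w ≤
      Av (lf (row b)) (f2q S q.s1 q.s2 β (q.s1 / q.s2) (k2 q) (k3 q) b M1 M2) w := by
  have h2 : 0 < q.s2 := h1.trans_le hq.h12
  have he : 0 < 1 - ε := by linarith
  have hl1 : 0 ≤ l1 := (mul_nonneg he.le f1.le).trans g1
  have hl2 : 0 ≤ l2 := (mul_nonneg he.le f2.le).trans g2
  -- eigenvectors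
  have eig : ∀ {M R : Matrix (Fin n) (Fin n) ℝ} {v : Fin n → ℝ} {l : ℝ},
      (∑ i, v i ^ 2 = 1) → M = l • vecMulVec v v + R → R * vecMulVec v v = 0 →
        M *ᵥ v = l • v := by
    intro M R v l hu hM hR
    have a1 : vecMulVec v v *ᵥ v = v := by
      funext i
      simp only [mulVec, dotProduct, vecMulVec_apply]
      calc ∑ j, v i * v j * v j = v i * ∑ j, v j ^ 2 := by
            rw [Finset.mul_sum]
            exact Finset.sum_congr rfl fun j _ => by ring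
        _ = v i := by rw [hu, mul_one]
    have a2 : R *ᵥ v = 0 := by
      calc R *ᵥ v = R *ᵥ (vecMulVec v v *ᵥ v) := by rw [a1]
        _ = (R * vecMulVec v v) *ᵥ v := by rw [mulVec_mulVec]
        _ = 0 := by rw [hR, zero_mulVec]
    rw [hM, add_mulVec, smul_mulVec, a1, a2, add_zero]
  have sym : ∀ {M R : Matrix (Fin n) (Fin n) ℝ} {v : Fin n → ℝ} {l : ℝ},
      R.PosSemidef → M = l • vecMulVec v v + R → ∀ i j, M i j = M j i := by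
    intro M R v l hR hM i j
    have hs : R i j = R j i := by
      have := hR.isHermitian.apply j i
      simpa using this
    rw [hM]
    simp only [Matrix.add_apply, Matrix.smul_apply, vecMulVec_apply, smul_eq_mul, hs]
    ring
  have E1 := eig u1 e1 o1
  have E2 := eig u2 e2 o2
  have S1 : ∀ i j, M1 w i j = M1 w j i := fun i j => sym p1 e1 i j
  have S2 : ∀ i j, M2 w i j = M2 w j i := fun i j => sym p2 e2 i j
  set c := ∑ i, v1 i * v2 i with hc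
  have key := f2lY S hq h1 β i1 i2 c1 c2 w S1 S2 u1 u2 E1 E2 hc.symm
  have cc := cc_le hl1 hl2 e1 e2 p1 p2 hc.symm
  have csM : (∑ i, ∑ j, Matrix.of (M1 w) i j * Matrix.of (M2 w) i j) ≤
      nf (Matrix.of (M1 w)) * nf (Matrix.of (M2 w)) := by
    have h := Finset.sum_mul_sq_le_sq_mul_sq (Finset.univ : Finset (Fin n × Fin n))
      (fun p => Matrix.of (M1 w) p.1 p.2) (fun p => Matrix.of (M2 w) p.1 p.2)
    rw [Fintype.sum_prod_type, Fintype.sum_prod_type, Fintype.sum_prod_type] at h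
    have h3 := Real.abs_le_sqrt h
    refine (le_abs_self _).trans (h3.trans (le_of_eq ?_))
    rw [Real.sqrt_mul (Finset.sum_nonneg fun _ _ => Finset.sum_nonneg fun _ _ => sq_nonneg _)]
    rfl
  have c4 := c4_le f1 f2 hε hε1 g1 g2 cc csM
  have hny := Ny_nonneg (k := k) (S.A q.s1) (S.H q.s1) q.s1 b (M2 w) (P2 q w)
  have a1 : q.s1 / q.s2 ≤ 1 := (div_le_one h2).2 hq.h12
  have a0 : 0 ≤ q.s1 / q.s2 := div_nonneg h1.le h2.le
  have a2 : (q.s1 / q.s2) ^ 2 ≤ 1 := pow_le_one₀ a0 a1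
  have a3 : (q.s1 / q.s2) ^ 2 * c ^ 4 ≤ c ^ 4 := by
    have : 0 ≤ c ^ 4 := by positivity
    nlinarith
  have fin : (1 - ((∑ i, ∑ j, M1 w i j * M2 w i j) /
          (nf (Matrix.of (M1 w)) * nf (Matrix.of (M2 w)))) ^ 2 - 8 * ε) ≤
      1 - (q.s1 / q.s2) ^ 2 * c ^ 4 := by
    have c4' : c ^ 4 ≤ ((∑ i, ∑ j, M1 w i j * M2 w i j) /
          (nf (Matrix.of (M1 w)) * nf (Matrix.of (M2 w)))) ^ 2 + 8 * ε := c4
    linarith
  have := mul_le_mul_of_nonneg_right fin hny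
  linarith

end Vale.Agent.P146.H45
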