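import Vale.Agent.P146.H45.Row1

/-!
P146, plan R2, row F2: **the left side of (F2*)** in the letters of the position system (`Nv`, `mv`,
`dt` of `H350.F2Mat`): a lower bound of the average over the row `b` of all four blocks, pointwise
in the bulk, for the positions `k2 q`, `k3 q` and the coefficient `κ = s1 / s2`.
-/

open MeasureTheory ProbabilityTheory

namespace Vale.Agent.P146.H45

open Vale.Agent.P157.Lv Vale.Agent.P146.H425 Vale.Agent.P146.H325 Vale.Agent.P146.H332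
  Vale.Agent.P146.H712 Vale.Agent.P146.R1 Vale.Agent.P146.R1C Vale.Agent.P146.H706
  Vale.Agent.P146.R1S Vale.Agent.P146.H191 Matrix

set_option linter.unusedSectionVars false

variable {n : ℕ} {k x : ℝ} {q : Par}

/-- the quadratic form of (F2*), coefficient `κ`, weight one -/
noncomputable def f2q (S : CS n k x) (s1 s2 β κ : ℝ) (a1 a2 : Fin 4 → ℝ) (b : Fin n)
    (M1 M2 : MF n) (w : K4 (Pair n) → ℝ) : ℝ :=
  H350.dt (H350.mv (M2 w) (H350.Nv S s1 a1 β b M1 w))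
      (H350.mv (M2 w) (H350.Nv S s1 a1 β b M1 w)) +
    κ * H350.dt (H350.mv (M1 w) (H350.Nv S s2 a2 β b M2 w))
      (H350.mv (M1 w) (H350.Nv S s2 a2 β b M2 w)) -
    2 * H350.dt (H350.mv (M1 w) (H350.Nv S s1 a1 β b M1 w))
      (H350.mv (M2 w) (H350.Nv S s2 a2 β b M2 w))

/-- the rest at one position as a function of the position -/
noncomputable def nz (S : CS n k x) (s β : ℝ) (b : Fin n) (M : Fin n → Fin n → ℝ)
    (z : Pair n → ℝ) (i : Fin n) : ℝ :=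
  cz (S.A s) b z i - k * ∑ e ∈ row b, M i (oth b e) / β * z e

lemma Nv_nz (S : CS n k x) (s β : ℝ) (a : Fin 4 → ℝ) (b : Fin n) (M : MF n)
    (w : K4 (Pair n) → ℝ) : H350.Nv S s a β b M w = nz S s β b (M w) (H712.lp a w) := rfl

lemma f2q_qlp (S : CS n k x) (s1 s2 β κ : ℝ) (a1 a2 : Fin 4 → ℝ) (b : Fin n)
    (M1 M2 : MF n) (w : K4 (Pair n) → ℝ) : f2q S s1 s2 β κ a1 a2 b M1 M2 w =
      qlp κ (Matrix.of (M1 w)) (Matrix.of (M2 w)) (nz S s1 β b (M1 w) (H712.lp a1 w))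
        (nz S s2 β b (M2 w) (H712.lp a2 w)) := by
  unfold f2q qlp H350.dt
  rw [Nv_nz, Nv_nz]
  simp only [_root_.sq]
  rfl

lemma eg_nz (S : CS n k x) (s β : ℝ) (b : Fin n) (M : Fin n → Fin n → ℝ) (i : Fin n) :
    EG fun z => nz S s β b M z i :=
  (eg_cz (fun i j => S.eg_A s i j) b i).sub
    ((EG.sum _ fun e _ => (EG.coord e).const_mul _).const_mul k)

/-- the rest in the standard row -/
lemma nz_put (S : CS n k x) (s β : ℝ) {b : Fin n} {M : Fin n → Fin n → ℝ}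
    (hM : ∀ i, M i b = 0) (z : Pair n → ℝ) (y : Fin n → ℝ) (i : Fin n) :
    nz S s β b M (put b (√s • y) z) i =
      res (fa1 (S.A s) s b z) ((k * √s / β) • Matrix.of M) i y := by
  have e1 : ∑ e ∈ row b, M i (oth b e) / β * put b (√s • y) z e =
      ∑ j, M i j / β * (√s * y j) := by
    rw [← sum_row_all b (G := fun j => M i j / β * (√s * y j)) (by simp [hM])]
    refine Finset.sum_congr rfl fun e he => ?_
    unfold put
    rw [if_pos he]
    rfl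
  unfold nz res
  rw [e1]
  have e2 : k * ∑ j, M i j / β * (√s * y j) =
      ∑ j, ((k * √s / β) • Matrix.of M) i j * y j := by
    rw [Finset.mul_sum]
    refine Finset.sum_congr rfl fun j _ => ?_
    simp only [Matrix.smul_apply, Matrix.of_apply, smul_eq_mul]
    ring
  rw [e2]
  rfl

lemma eg_qlp_two (κ : ℝ) (M1 M2 : Matrix (Fin n) (Fin n) ℝ) {γ : Type} [Fintype γ]
    {f g : Fin n → (γ → ℝ) → ℝ} (hf : ∀ i, EG (f i)) (hg : ∀ i, EG (g i)) :
    EG fun w => qlp κ M1 M2 (fun i => f i w) (fun i => g i w) := by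
  unfold qlp
  exact ((EG.sum _ fun k _ => (eg_mw M2 hf k).pow 2).add
    ((EG.sum _ fun k _ => (eg_mw M1 hg k).pow 2).const_mul κ)).sub
    ((EG.sum _ fun k _ => (eg_mw M1 hf k).mul (eg_mw M2 hg k)).const_mul 2)

/-- **the average over the row = the standard two-position row** -/
theorem Av_f2q (S : CS n k x) (hq : q.OkS) (h2 : 0 < q.s2) (β : ℝ) {b : Fin n} {M1 M2 : MF n}
    (i1 : ∀ i j, Ind (lf (row b)) fun w => M1 w i j)
    (i2 : ∀ i j, Ind (lf (row b)) fun w => M2 w i j) (c1 : ∀ w i, M1 w i b = 0)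
    (c2 : ∀ w i, M2 w i b = 0) (w : K4 (Pair n) → ℝ) :
    Av (lf (row b)) (f2q S q.s1 q.s2 β (q.s1 / q.s2) (k2 q) (k3 q) b M1 M2) w =
      ∫ u : Fin n ⊕ Fin n → ℝ, qlp ((√q.s1 / √q.s2) ^ 2) (Matrix.of (M1 w)) (Matrix.of (M2 w))
        (fun i => res (fa1 (S.A q.s1) q.s1 b (P2 q w))
          ((k * √q.s1 / β) • Matrix.of (M1 w)) i (yq 1 0 u))
        (fun i => res (fa1 (S.A q.s2) q.s2 b (P3 q w))
          ((k * √q.s2 / β) • Matrix.of (M2 w)) i
            (yq (√q.s1 / √q.s2) (√(q.s2 - q.s1) / √q.s2) u)) ∂(gI (Fin n ⊕ Fin n)) := by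
  have hs1 : 0 ≤ q.s1 := hq.h0.trans (hq.h01.trans hq.h1)
  have hr2 : 0 < √q.s2 := Real.sqrt_pos.2 h2
  have hκ : (√q.s1 / √q.s2) ^ 2 = q.s1 / q.s2 := by
    rw [div_pow, Real.sq_sqrt hs1, Real.sq_sqrt h2.le]
  rw [hκ]
  set κ := q.s1 / q.s2
  set m1 := M1 w with hm1
  set m2 := M2 w with hm2
  -- freeze the matrices
  have e1 : Av (lf (row b)) (f2q S q.s1 q.s2 β κ (k2 q) (k3 q) b M1 M2) w =
      Av (lf (row b)) (fun w' => qlp κ (Matrix.of m1) (Matrix.of m2)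
        (nz S q.s1 β b m1 (P2 q w')) (nz S q.s2 β b m2 (P3 q w'))) w := by
    unfold Av
    refine integral_congr_ae (Filter.Eventually.of_forall fun u => ?_)
    have j1 : M1 (sw (lf (row b)) w u) = m1 := by
      funext i j; exact i1 i j w u
    have j2 : M2 (sw (lf (row b)) w u) = m2 := by
      funext i j; exact i2 i j w u
    simp only
    rw [f2q_qlp, j1, j2]
    have p1 : P2 q (sw (lf (row b)) w u) = H712.lp (k2 q) (sw (lf (row b)) w u) :=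
      p2_lp _ _ _ _
    have p2 : P3 q (sw (lf (row b)) w u) = H712.lp (k3 q) (sw (lf (row b)) w u) :=
      p3_lp _ _ _ _ _
    rw [p1, p2]
  rw [e1]
  have eg : EG fun w : Pair n ⊕ Pair n → ℝ => qlp κ (Matrix.of m1) (Matrix.of m2)
      (nz S q.s1 β b m1 fun e => w (Sum.inl e)) (nz S q.s2 β b m2 fun e => w (Sum.inr e)) := by
    refine eg_qlp_two κ _ _ (f := fun i (w : Pair n ⊕ Pair n → ℝ) =>
      nz S q.s1 β b m1 (fun e => w (Sum.inl e)) i) (g := fun i w =>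
      nz S q.s2 β b m2 (fun e => w (Sum.inr e)) i) (fun i => ?_) (fun i => ?_)
    · have := eg_prod (κ := Pair n) (eg_nz S q.s1 β b m1 i) (EG.const 1)
      simpa using this
    · have := eg_prod (κ := Pair n) (EG.const 1) (eg_nz S q.s2 β b m2 i)
      simpa using this
  rw [Av_lf_P23_row_s hq (Φ := fun z1 z2 => qlp κ (Matrix.of m1) (Matrix.of m2)
    (nz S q.s1 β b m1 z1) (nz S q.s2 β b m2 z2)) eg b w]
  -- the two-position row
  have r1 := rowIn_S S (s := q.s1)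
  have egr : EG fun u : Fin n ⊕ Fin n → ℝ => qlp κ (Matrix.of m1) (Matrix.of m2)
        (fun i => res (fa1 (S.A q.s1) q.s1 b (P2 q w)) ((k * √q.s1 / β) • Matrix.of m1) i
          (yq 1 0 u))
        (fun i => res (fa1 (S.A q.s2) q.s2 b (P3 q w)) ((k * √q.s2 / β) • Matrix.of m2) i
            (yq (√q.s1 / √q.s2) (√(q.s2 - q.s1) / √q.s2) u)) := by
    refine eg_qlp_two κ _ _ (fun i => eg_yq (eg_res (fun i => ?_) _ i) 1 0)
      (fun i => eg_yq (eg_res (fun i => ?_) _ i) _ _)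
    · exact H546.eg_scale (eg_put (eg_cz (fun i j => S.eg_A q.s1 i j) b i) b (P2 q w)) (√q.s1)
    · exact H546.eg_scale (eg_put (eg_cz (fun i j => S.eg_A q.s2 i j) b i) b (P3 q w)) (√q.s2)
  rw [Vale.Agent.P146.H332.int_sum egr]
  refine integral_congr_ae (Filter.Eventually.of_forall fun y => ?_)
  simp only
  refine integral_congr_ae (Filter.Eventually.of_forall fun y' => ?_)
  simp only
  have y1 : yq (ι := Fin n) 1 0 (Sum.elim y y') = y := by
    funext i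
    rw [yq_apply]
    simp
  have y2 : √q.s1 • y + √(q.s2 - q.s1) • y' =
      √q.s2 • yq (√q.s1 / √q.s2) (√(q.s2 - q.s1) / √q.s2) (Sum.elim y y') := by
    funext i
    simp only [Pi.add_apply, Pi.smul_apply, smul_eq_mul, yq_apply, Sum.elim_inl, Sum.elim_inr]
    field_simp
  rw [y1, y2]
  congr 1
  · funext i
    exact nz_put S q.s1 β (fun i => c1 w i) (P2 q w) y i
  · funext i
    exact nz_put S q.s2 β (fun i => c2 w i) (P3 q w) _ i

/-- the error of (F2-L) at a bulk -/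
noncomputable def f2err (S : CS n k x) (q : Par) (b : Fin n) (M1 M2 : Fin n → Fin n → ℝ)
    (v1 v2 : Fin n → ℝ) (w : K4 (Pair n) → ℝ) : ℝ :=
  2 * (H546.fb (Matrix.of M2) ^ 2 *
      (√(Nd k (S.A q.s1) (S.H q.s1) q.s1 b v1 (P2 q w)) *
        √(Na k (S.A q.s1) (S.H q.s1) q.s1 b (P2 q w))) +
    q.s1 / q.s2 * (H546.fb (Matrix.of M1) ^ 2 *
      (√(Nd k (S.A q.s2) (S.H q.s2) q.s2 b v2 (P3 q w)) *
        √(Na k (S.A q.s2) (S.H q.s2) q.s2 b (P3 q w)))) +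
    H546.fb (Matrix.of M1) * H546.fb (Matrix.of M2) *
      (√(Nd k (S.A q.s1) (S.H q.s1) q.s1 b v1 (P2 q w)) *
        √(Na k (S.A q.s2) (S.H q.s2) q.s2 b (P3 q w)) +
      √(Nd k (S.A q.s2) (S.H q.s2) q.s2 b v2 (P3 q w)) *
        √(Na k (S.A q.s1) (S.H q.s1) q.s1 b (P2 q w))))

/-- the linear residual of (F2-L) at a bulk -/
noncomputable def f2lin (S : CS n k x) (q : Par) (β : ℝ) (b : Fin n) (M1 M2 : Fin n → Fin n → ℝ)
    (w : K4 (Pair n) → ℝ) : ℝ :=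
  qlin (√q.s1 / √q.s2) (Matrix.of M1) (Matrix.of M2)
    (MJ k (S.H q.s1) q.s1 b (P2 q w) - (k * √q.s1 / β) • Matrix.of M1)
    (MJ k (S.H q.s2) q.s2 b (P3 q w) - (k * √q.s2 / β) • Matrix.of M2)

/-- **(F2-L): the left side of (F2*) at a fixed bulk.** -/
theorem f2l (S : CS n k x) (hq : q.OkS) (h1 : 0 < q.s1) (β : ℝ) {b : Fin n} {M1 M2 : MF n}
    (i1 : ∀ i j, Ind (lf (row b)) fun w => M1 w i j)
    (i2 : ∀ i j, Ind (lf (row b)) fun w => M2 w i j) (c1 : ∀ w i, M1 w i b = 0)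
    (c2 : ∀ w i, M2 w i b = 0) (w : K4 (Pair n) → ℝ) (sy1 : ∀ i j, M1 w i j = M1 w j i)
    (sy2 : ∀ i j, M2 w i j = M2 w j i) {v1 v2 : Fin n → ℝ} (u1 : ∑ i, v1 i ^ 2 = 1)
    (u2 : ∑ i, v2 i ^ 2 = 1) {l1 l2 c : ℝ} (e1 : Matrix.of (M1 w) *ᵥ v1 = l1 • v1)
    (e2 : Matrix.of (M2 w) *ᵥ v2 = l2 • v2) (hc : ∑ i, v1 i * v2 i = c) :
    c ^ 2 * (1 - (q.s1 / q.s2) ^ 2 * c ^ 4) * l2 ^ 2 *
          Nt k (S.A q.s1) (S.H q.s1) q.s1 b v1 (P2 q w) +
        f2lin S q β b (M1 w) (M2 w) w - f2err S q b (M1 w) (M2 w) v1 v2 w ≤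
      Av (lf (row b)) (f2q S q.s1 q.s2 β (q.s1 / q.s2) (k2 q) (k3 q) b M1 M2) w := by
  have h2 : 0 < q.s2 := h1.trans_le hq.h12
  have hr2 : 0 < √q.s2 := Real.sqrt_pos.2 h2
  have hκ : (√q.s1 / √q.s2) ^ 2 = q.s1 / q.s2 := by
    rw [div_pow, Real.sq_sqrt h1.le, Real.sq_sqrt h2.le]
  have hρ : (√q.s1 / √q.s2) ^ 2 + (√(q.s2 - q.s1) / √q.s2) ^ 2 = 1 := by
    rw [div_pow, div_pow, Real.sq_sqrt h1.le, Real.sq_sqrt h2.le,
      Real.sq_sqrt (sub_nonneg.2 hq.h12)]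
    field_simp
    ring
  rw [Av_f2q S hq h2 β i1 i2 c1 c2 w]
  have t1 : (Matrix.of (M1 w))ᵀ = Matrix.of (M1 w) := by
    ext i j; exact sy1 j i
  have t2 : (Matrix.of (M2 w))ᵀ = Matrix.of (M2 w) := by
    ext i j; exact sy2 j i
  have key := ql_row (rowIn_S S h1) (rowIn_S S h2) (s1 := q.s1) (s2 := q.s2) hρ b (P2 q w)
    (P3 q w) ((k * √q.s1 / β) • Matrix.of (M1 w)) ((k * √q.s2 / β) • Matrix.of (M2 w)) t1 t2
    u1 u2 e1 e2 hc
  refine le_trans (le_of_eq ?_) key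
  have h4 : (√q.s1 / √q.s2) ^ 4 = (q.s1 / q.s2) ^ 2 := by
    rw [← hκ]; ring
  unfold f2lin f2err
  rw [h4, hκ]

end Vale.Agent.P146.H45
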