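import Vale.Agent.P146.H45.F2LY
import Vale.Agent.P146.H329.Nr1

/-!
P146, plan R2, row F2: the numbers `Na`, `Nt`, `Nd` of the one-row field are bounded by the bulk
numbers of `H329.Nr1` (the two one-row fields are equal).
-/

open MeasureTheory ProbabilityTheory

namespace Vale.Agent.P146.H45

open Vale.Agent.P157.Lv Vale.Agent.P146.H425 Vale.Agent.P146.H325 Vale.Agent.P146.H332
  Vale.Agent.P146.H712 Vale.Agent.P146.R1 Vale.Agent.P146.R1C Vale.Agent.P146.H706
  Vale.Agent.P146.R1S Vale.Agent.P146.H191 Vale.Agent.P146.Cum Vale.Agent.P146.H522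
  Vale.Agent.P146.H633 Matrix

set_option linter.unusedSectionVars false

variable {n : ℕ} {k x s Γ η : ℝ} {b : Fin n}

lemma fa1_us (S : CS n k x) (s : ℝ) (b : Fin n) (z : Pair n → ℝ) :
    fa1 (S.A s) s b z = H329.us S s b z := rfl

lemma fh1_js (S : CS n k x) (hs : 0 < s) (b : Fin n) (z : Pair n → ℝ) :
    fh1 k (S.H s) s b z = H329.js S s b z := by
  funext i j y
  unfold fh1 H329.js j1 H329.jr hz
  by_cases h : i = b ∨ j = b
  · rw [if_pos h]
    rcases h with h | h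
    · subst h
      simp [H329.H_row' S hs]
    · subst h
      simp [S.H_row hs]
  · rw [if_neg h]

/-- the bound of the nonlinear part, in bulk numbers -/
noncomputable def TNa (S : CS n k x) (Γ s : ℝ) (b : Fin n) (z : Pair n → ℝ) : ℝ :=
  36 * Γ ^ 6 * k ^ 6 * (2 * QA S s b b z + 2 * KA S s b b z)

/-- the bound of the transversal nonlinear part, in bulk numbers -/
noncomputable def TNd (S : CS n k x) (Γ η s : ℝ) (b : Fin n) (z : Pair n → ℝ) : ℝ :=
  36 * Γ ^ 6 * k ^ 6 * ((η⁻¹) ^ 3 * (36 * ThA S s b b z) +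
    3 * η * (2 * QA S s b b z + 2 * KA S s b b z))

lemma Na_le (S : CS n k x) (hFn : Fn k SkS (uu x s S.F) (S.mu s) Γ) (hs : 0 < s)
    (hs1 : s ≤ 1) (b : Fin n) (z : Pair n → ℝ) :
    Na k (S.A s) (S.H s) s b z ≤ TNa S Γ s b z := by
  unfold Na
  rw [fa1_us, fh1_js S hs]
  exact H329.na1_row S hFn hs hs1 b z

lemma Nd_le (S : CS n k x) {z : Pair n → ℝ} {v : Fin n → ℝ} (h : Bv S s b b z v)
    (hFn : Fn k SkS (uu x s S.F) (S.mu s) Γ) (hs : 0 < s) (hs1 : s ≤ 1) (hη : 0 < η) :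
    Nd k (S.A s) (S.H s) s b v z ≤ TNd S Γ η s b z := by
  unfold Nd
  rw [fa1_us, fh1_js S hs]
  exact H329.bk_d S h hFn hs hs1 hη

end Vale.Agent.P146.H45
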