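import Vale.Agent.P146.H45.Br

/-!
P146, plan R2, row F2: **the linear residual of (F2*) at a fixed bulk** is bounded from below by the
matrices `P = M - β E_row H` (the row Mis) in the weights `M²`.
-/

open MeasureTheory ProbabilityTheory

namespace Vale.Agent.P146.H45

open Vale.Agent.P157.Lv Vale.Agent.P146.H425 Vale.Agent.P146.H325 Vale.Agent.P146.H332
  Vale.Agent.P146.H712 Vale.Agent.P146.R1 Vale.Agent.P146.R1C Vale.Agent.P146.H706
  Vale.Agent.P146.R1S Vale.Agent.P146.H191 Vale.Agent.P146.Cum Vale.Agent.P146.H522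
  Vale.Agent.P146.H633 Matrix

set_option linter.unusedSectionVars false

section alg

variable {ι : Type} [Fintype ι]

lemma dt_fr (X : Matrix ι ι ℝ) : H546.dt X X = H332.fr X := by
  unfold H546.dt H332.fr
  simp only [_root_.sq]

lemma dt_young (X Y : Matrix ι ι ℝ) : 2 * |H546.dt X Y| ≤ H332.fr X + H332.fr Y := by
  have h : ∀ c : ℝ, c ^ 2 = 1 → 2 * (c * H546.dt X Y) ≤ H332.fr X + H332.fr Y := by
    intro c hc
    unfold H546.dt H332.fr
    simp only [Finset.mul_sum, ← Finset.sum_add_distrib]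
    refine Finset.sum_le_sum fun i _ => Finset.sum_le_sum fun j _ => ?_
    have e : X i j ^ 2 + Y i j ^ 2 - 2 * (c * (X i j * Y i j)) = (c * X i j - Y i j) ^ 2 := by
      have : (c * X i j - Y i j) ^ 2 = c ^ 2 * X i j ^ 2 - 2 * (c * (X i j * Y i j)) +
        Y i j ^ 2 := by ring
      rw [this, hc]; ring
    nlinarith [sq_nonneg (c * X i j - Y i j)]
  rcases le_total 0 (H546.dt X Y) with h0 | h0
  · rw [abs_of_nonneg h0]; have := h 1 (by norm_num); linarith
  · rw [abs_of_nonpos h0]; have := h (-1) (by norm_num); linarith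

lemma qlin_ge {ρ : ℝ} (hρ : |ρ| ≤ 1) (M1 M2 L1 L2 : Matrix ι ι ℝ) :
    -(H332.fr (M1 * L1) + H332.fr (M2 * L2)) ≤ qlin ρ M1 M2 L1 L2 := by
  unfold qlin
  rw [dt_fr, dt_fr]
  have h1 : 0 ≤ H332.fr (M2 * L1) := Finset.sum_nonneg fun _ _ =>
    Finset.sum_nonneg fun _ _ => sq_nonneg _
  have h2 : 0 ≤ H332.fr (M1 * L2) := Finset.sum_nonneg fun _ _ =>
    Finset.sum_nonneg fun _ _ => sq_nonneg _
  have h3 := dt_young (M1 * L1) (M2 * L2)
  have h4 : ρ * H546.dt (M1 * L1) (M2 * L2) ≤ |H546.dt (M1 * L1) (M2 * L2)| := by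
    refine (le_abs_self _).trans ?_
    rw [abs_mul]
    exact mul_le_of_le_one_left (abs_nonneg _) hρ
  nlinarith [mul_nonneg (sq_nonneg ρ) h2]

/-- the sharper form: only the commutator of the two matrices is signed -/
lemma qlin_comm (ρ : ℝ) (M1 M2 L1 L2 : Matrix ι ι ℝ) (t1 : M1ᵀ = M1) (t2 : M2ᵀ = M2) :
    qlin ρ M1 M2 L1 L2 = H332.fr (M2 * L1 - ρ • (M1 * L2)) +
      2 * (ρ * H546.dt L1 ((M2 * M1 - M1 * M2) * L2)) := by
  have e1 : ∀ (A B X Y : Matrix ι ι ℝ), Aᵀ = A → H546.dt (A * X) (B * Y) =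
      H546.dt X ((A * B) * Y) := by
    intro A B X Y hA
    have e2 : ∀ U V : Matrix ι ι ℝ, H546.dt U V = (Uᵀ * V).trace := by
      intro U V
      unfold H546.dt
      simp only [Matrix.trace, Matrix.diag_apply, Matrix.mul_apply, Matrix.transpose_apply]
      exact Finset.sum_comm
    rw [e2, e2, Matrix.transpose_mul, hA]
    congr 1
    simp only [Matrix.mul_assoc]
  have e3 : H332.fr (M2 * L1 - ρ • (M1 * L2)) = H546.dt (M2 * L1) (M2 * L1) +
      ρ ^ 2 * H546.dt (M1 * L2) (M1 * L2) - 2 * (ρ * H546.dt (M2 * L1) (M1 * L2)) := by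
    unfold H546.dt H332.fr
    simp only [Finset.mul_sum, ← Finset.sum_add_distrib, ← Finset.sum_sub_distrib,
      Matrix.sub_apply, Matrix.smul_apply, smul_eq_mul]
    exact Finset.sum_congr rfl fun i _ => Finset.sum_congr rfl fun j _ => by ring
  have e4 : H546.dt L1 ((M2 * M1 - M1 * M2) * L2) = H546.dt (M2 * L1) (M1 * L2) -
      H546.dt (M1 * L1) (M2 * L2) := by
    rw [e1 M2 M1 L1 L2 t2, e1 M1 M2 L1 L2 t1, Matrix.sub_mul]
    unfold H546.dt
    simp only [← Finset.sum_sub_distrib, Matrix.sub_apply]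
    exact Finset.sum_congr rfl fun i _ => Finset.sum_congr rfl fun j _ => by ring
  unfold qlin
  rw [e3, e4]
  ring

lemma fr_mul_ip {M P : Matrix ι ι ℝ} (hM : Mᵀ = M) (hP : Pᵀ = P) :
    H332.fr (M * P) = H332.ip (M * M) (P * P) := by
  have e2 : ∀ U V : Matrix ι ι ℝ, H332.ip U V = (Uᵀ * V).trace := by
    intro U V
    unfold H332.ip
    simp only [Matrix.trace, Matrix.diag_apply, Matrix.mul_apply, Matrix.transpose_apply]
    exact Finset.sum_comm
  have e3 : H332.fr (M * P) = H332.ip (M * P) (M * P) := by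
    unfold H332.fr H332.ip
    simp only [_root_.sq]
  rw [e3, e2, e2, Matrix.transpose_mul, Matrix.transpose_mul, hM, hP, Matrix.mul_assoc P M,
    Matrix.trace_mul_comm]
  simp only [Matrix.mul_assoc]

end alg

variable {n : ℕ} {k x s β : ℝ} {b : Fin n} {q : Par}

/-- the residual `P = M - β E_row H` at a bulk -/
noncomputable def Pz (S : CS n k x) (s β : ℝ) (b : Fin n) (M : Fin n → Fin n → ℝ)
    (z : Pair n → ℝ) : Matrix (Fin n) (Fin n) ℝ :=
  Matrix.of M - β • Matrix.of (H329.mhr S s b z)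

lemma MJ_Pz (S : CS n k x) (hs : 0 < s) (hβ : β ≠ 0) (b : Fin n) (M : Fin n → Fin n → ℝ)
    (z : Pair n → ℝ) : MJ k (S.H s) s b z - (k * √s / β) • Matrix.of M =
      -((k * √s / β) • Pz S s β b M z) := by
  ext i j
  unfold MJ Pz
  rw [fh1_js S hs]
  simp only [Matrix.sub_apply, Matrix.of_apply, Matrix.smul_apply, Matrix.neg_apply, smul_eq_mul]
  rw [H329.MH_js S hs]
  field_simp
  ring

lemma fr_smul' {ι : Type} [Fintype ι] (c : ℝ) (X : Matrix ι ι ℝ) :
    H332.fr (c • X) = c ^ 2 * H332.fr X := by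
  unfold H332.fr
  simp only [Finset.mul_sum, Matrix.smul_apply, smul_eq_mul, mul_pow]

lemma fr_neg' {ι : Type} [Fintype ι] (X : Matrix ι ι ℝ) : H332.fr (-X) = H332.fr X := by
  unfold H332.fr
  simp

/-- **The linear residual from below.** -/
theorem f2lin_ge (S : CS n k x) (hq : q.OkS) (h1 : 0 < q.s1) (hβ : β ≠ 0) (b : Fin n)
    (M1 M2 : Fin n → Fin n → ℝ) (w : K4 (Pair n) → ℝ) :
    -(k ^ 2 / β ^ 2 * (q.s1 * H332.fr (Matrix.of M1 * Pz S q.s1 β b M1 (P2 q w)) +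
        q.s2 * H332.fr (Matrix.of M2 * Pz S q.s2 β b M2 (P3 q w)))) ≤
      f2lin S q β b M1 M2 w := by
  have h2 : 0 < q.s2 := h1.trans_le hq.h12
  unfold f2lin
  rw [MJ_Pz S h1 hβ, MJ_Pz S h2 hβ]
  refine le_trans (le_of_eq ?_) (qlin_ge ?_ _ _ _ _)
  · rw [Matrix.mul_neg, Matrix.mul_neg, fr_neg', fr_neg', Matrix.mul_smul, Matrix.mul_smul,
      fr_smul', fr_smul', div_pow, div_pow, mul_pow, mul_pow, Real.sq_sqrt h1.le,
      Real.sq_sqrt h2.le]
    ring
  · rw [abs_of_nonneg (by positivity), div_le_one (Real.sqrt_pos.2 h2)]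
    exact Real.sqrt_le_sqrt hq.h12

end Vale.Agent.P146.H45
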