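import Vale.Agent.P146.H45.Lin
import Vale.Agent.P146.H364.Pb

/-!
P146, plan R2, row F2: the linear residual of (F2*) in the letters `Cb`, `Pb` of the row Mis, and
its sum over the sites in a law.
-/

open MeasureTheory ProbabilityTheory

namespace Vale.Agent.P146.H45

open Vale.Agent.P157.Lv Vale.Agent.P146.H425 Vale.Agent.P146.H325
  Vale.Agent.P146.H712 Vale.Agent.P146.R1 Vale.Agent.P146.R1C Vale.Agent.P146.H706
  Vale.Agent.P146.R1S Vale.Agent.P146.H191 Vale.Agent.P146.Cum Vale.Agent.P146.H522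
  Vale.Agent.P146.H633 Vale.Agent.P146.H364 Matrix
open Vale.Agent.P146.H332

set_option linter.unusedSectionVars false

variable {n : ℕ} {k x s β : ℝ} {b : Fin n} {q : Par}

lemma Pz_2 (S : CS n k x) (hq : q.OkS) (h1 : 0 < q.s1) (b : Fin n) (w : K4 (Pair n) → ℝ) :
    Pz S q.s1 β b (Cb S q.s1 (k2 q) b w) (P2 q w) = Matrix.of (Pb S q.s1 (k2 q) b β w) := by
  ext i j
  unfold Pz Pb Mb H329.mhr
  simp only [Matrix.sub_apply, Matrix.of_apply, Matrix.smul_apply, smul_eq_mul]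
  have e : (fun w : K4 (Pair n) → ℝ => S.H q.s1 b (H712.lp (k2 q) w) i j) =
      fun w => S.H q.s1 b (P2 q w) i j := by
    funext w
    have p1 : P2 q w = H712.lp (k2 q) w := p2_lp _ _ _ _
    rw [p1]
  rw [e, Av_lf_P2_s hq (f := fun z => S.H q.s1 b z i j) (S.eg_H h1 b i j) (row b) w]

lemma Pz_3 (S : CS n k x) (hq : q.OkS) (h2 : 0 < q.s2) (b : Fin n) (w : K4 (Pair n) → ℝ) :
    Pz S q.s2 β b (Cb S q.s2 (k3 q) b w) (P3 q w) = Matrix.of (Pb S q.s2 (k3 q) b β w) := by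
  ext i j
  unfold Pz Pb Mb H329.mhr
  simp only [Matrix.sub_apply, Matrix.of_apply, Matrix.smul_apply, smul_eq_mul]
  have e : (fun w : K4 (Pair n) → ℝ => S.H q.s2 b (H712.lp (k3 q) w) i j) =
      fun w => S.H q.s2 b (P3 q w) i j := by
    funext w
    have p1 : P3 q w = H712.lp (k3 q) w := p3_lp _ _ _ _ _
    rw [p1]
  rw [e, Av_lf_P3_s hq (f := fun z => S.H q.s2 b z i j) (S.eg_H h2 b i j) (row b) w]

lemma Pb_T (hs : 0 < s) (a : Fin 4 → ℝ) {S : CS n k x} (w : K4 (Pair n) → ℝ) :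
    (Matrix.of (Pb S s a b β w))ᵀ = Matrix.of (Pb S s a b β w) := by
  ext i j
  exact (frz_Pb hs).sy w j i

/-- the number of the linear residual at one site and one position: `tr(C_b² P_b²)` -/
noncomputable def linb (S : CS n k x) (s β : ℝ) (a : Fin 4 → ℝ) (b : Fin n)
    (w : K4 (Pair n) → ℝ) : ℝ :=
  ip (Matrix.of (Cb S s a b w) * Matrix.of (Cb S s a b w))
    (Matrix.of (Pb S s a b β w) * Matrix.of (Pb S s a b β w))

/-- **The linear residual from below, in the letters of Mis.** -/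
theorem f2lin_ge' (S : CS n k x) (hq : q.OkS) (h1 : 0 < q.s1) (hβ : β ≠ 0) (b : Fin n)
    (w : K4 (Pair n) → ℝ) :
    -(k ^ 2 / β ^ 2 * (q.s1 * linb S q.s1 β (k2 q) b w + q.s2 * linb S q.s2 β (k3 q) b w)) ≤
      f2lin S q β b (Cb S q.s1 (k2 q) b w) (Cb S q.s2 (k3 q) b w) w := by
  have h2 : 0 < q.s2 := h1.trans_le hq.h12
  have h := f2lin_ge S hq h1 hβ b (Cb S q.s1 (k2 q) b w) (Cb S q.s2 (k3 q) b w) w
  rw [Pz_2 S hq h1, Pz_3 S hq h2, fr_mul_ip (Cb_T w) (Pb_T h1 _ w),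
    fr_mul_ip (Cb_T w) (Pb_T h2 _ w)] at h
  exact h

lemma eg_linb (S : CS n k x) (hs : 0 < s) (β : ℝ) (a : Fin 4 → ℝ) (b : Fin n) :
    EG (linb S s β a b) := by
  unfold linb ip
  have e1 : ∀ i j, EG fun w => (Matrix.of (Cb S s a b w) * Matrix.of (Cb S s a b w)) i j := by
    intro i j
    simp only [Matrix.mul_apply, Matrix.of_apply]
    exact EG.sum _ fun l _ => (eg_Cb i l).mul (eg_Cb l j)
  have e2 : ∀ i j, EG fun w =>
      (Matrix.of (Pb S s a b β w) * Matrix.of (Pb S s a b β w)) i j := by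
    intro i j
    simp only [Matrix.mul_apply, Matrix.of_apply]
    exact EG.sum _ fun l _ => ((frz_Pb hs).eg i l).mul ((frz_Pb hs).eg l j)
  exact EG.sum _ fun i _ => EG.sum _ fun j _ => (e1 i j).mul (e2 i j)

end Vale.Agent.P146.H45
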