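import Vale.Agent.P146.H561.F2Size
import Vale.Agent.P146.H350.Chi
import Vale.Agent.P146.H508.Rho

/-!
P146, plan R2, row F2: **the unfreezing of the left side**, the deterministic part: the weight
`tr (Y C1²) h(C1) |C2|² a (1 - a²) / (1 - a + κ)` is Lipschitz in the three matrices.
-/

open MeasureTheory ProbabilityTheory

namespace Vale.Agent.P146.H45

open Vale.Agent.P157.Lv Vale.Agent.P146.H425 Vale.Agent.P146.H325
  Vale.Agent.P146.H712 Vale.Agent.P146.R1 Vale.Agent.P146.R1C Vale.Agent.P146.H706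
  Vale.Agent.P146.R1S Vale.Agent.P146.H191 Vale.Agent.P146.H522 Vale.Agent.P146.H561 Matrix
open Vale.Agent.P146.H332

set_option linter.unusedSectionVars false

/-! ### numbers -/

/-- `a (1 - a²) / (1 - a + κ)` -/
noncomputable def pp (κ a : ℝ) : ℝ := 1 / (1 - a + κ) * (a * (1 - a ^ 2))

lemma pp_abs {κ a : ℝ} (hκ : 0 < κ) (ha : |a| ≤ 1) : |pp κ a| ≤ 2 := by
  obtain ⟨h1, h2⟩ := abs_le.1 ha
  have hp : 0 < 1 - a + κ := by linarith
  unfold pp
  rw [one_div_mul_eq_div, abs_div, abs_of_pos hp, div_le_iff₀ hp, abs_mul,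
    abs_of_nonneg (by nlinarith : (0 : ℝ) ≤ 1 - a ^ 2)]
  have h3 : |a| * (1 - a ^ 2) ≤ 1 * (1 - a ^ 2) :=
    mul_le_mul_of_nonneg_right ha (by nlinarith)
  nlinarith

lemma pp_nonneg {κ a : ℝ} (hκ : 0 < κ) (h0 : 0 ≤ a) (h1 : a ≤ 1) : 0 ≤ pp κ a := by
  have hp : 0 < 1 - a + κ := by linarith
  unfold pp
  have : 0 ≤ 1 - a ^ 2 := by nlinarith
  positivity

lemma pp_lip {κ a b : ℝ} (hκ : 0 < κ) (ha : |a| ≤ 1) (hb : |b| ≤ 1) :
    |pp κ a - pp κ b| ≤ 4 / κ * |a - b| := by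
  obtain ⟨a1, a2⟩ := abs_le.1 ha
  obtain ⟨b1, b2⟩ := abs_le.1 hb
  have hp : 0 < 1 - a + κ := by linarith
  have hq : 0 < 1 - b + κ := by linarith
  have e : pp κ a - pp κ b = 1 / (1 - a + κ) * ((a - b) *
      ((1 - (a ^ 2 + a * b + b ^ 2)) + pp κ b)) := by
    unfold pp
    field_simp
    ring
  have hg : 1 / (1 - a + κ) ≤ 1 / κ := one_div_le_one_div_of_le hκ (by linarith)
  have hg0 : 0 < 1 / (1 - a + κ) := one_div_pos.2 hp
  rw [e, abs_mul, abs_mul, abs_of_pos hg0]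
  have h3 : |1 - (a ^ 2 + a * b + b ^ 2)| ≤ 2 := by
    rw [abs_le]
    constructor <;> nlinarith [sq_nonneg (a + b), sq_nonneg (a - b)]
  have h4 : |1 - (a ^ 2 + a * b + b ^ 2) + pp κ b| ≤ 4 := by
    refine (abs_add_le _ _).trans ?_
    have := pp_abs hκ hb
    linarith
  calc 1 / (1 - a + κ) * (|a - b| * |1 - (a ^ 2 + a * b + b ^ 2) + pp κ b|)
      ≤ 1 / κ * (|a - b| * 4) := by
        refine mul_le_mul hg (mul_le_mul_of_nonneg_left h4 (abs_nonneg _)) (by positivity)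
          (by positivity)
    _ = 4 / κ * |a - b| := by ring

/-! ### matrices -/

section mat

variable {m : Type} [Fintype m] [DecidableEq m]

/-- the scalar weight of the left side without the factor `tr (Y A²)` -/
noncomputable def Psi (κ e : ℝ) (A C : Matrix m m ℝ) : ℝ := hh e A * (fr C * pp κ (aa A C))

lemma Psi_abs {κ e : ℝ} (hκ : 0 < κ) (he : 0 < e) (A C : Matrix m m ℝ) :
    |Psi κ e A C| ≤ 2 / e ^ 2 * fr C := by
  unfold Psi
  have h1 := hh_le he A
  have h2 := hh_nonneg e A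
  have h3 := H332.fr_nonneg C
  have h4 := pp_abs hκ (aa_abs A C)
  rw [abs_mul, abs_mul, abs_of_nonneg h2, abs_of_nonneg h3]
  calc hh e A * (fr C * |pp κ (aa A C)|) ≤ 1 / e ^ 2 * (fr C * 2) :=
        mul_le_mul h1 (mul_le_mul_of_nonneg_left h4 h3) (by positivity) (by positivity)
    _ = _ := by ring

lemma Psi_nonneg {κ e : ℝ} (hκ : 0 < κ) {A C : Matrix m m ℝ} (h : 0 ≤ aa A C) :
    0 ≤ Psi κ e A C :=
  mul_nonneg (hh_nonneg e A) (mul_nonneg (H332.fr_nonneg C) (pp_nonneg hκ h (aa_le A C)))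

lemma fr_sub_le (A B : Matrix m m ℝ) : |fr A - fr B| ≤ nf (A - B) * (nf A + nf B) := by
  rw [← nf_sq A, ← nf_sq B]
  have e : nf A ^ 2 - nf B ^ 2 = (nf A - nf B) * (nf A + nf B) := by ring
  rw [e, abs_mul, abs_of_nonneg (add_nonneg (nf_nonneg A) (nf_nonneg B))]
  exact mul_le_mul_of_nonneg_right (nf_sub_le A B) (add_nonneg (nf_nonneg A) (nf_nonneg B))

end mat

variable {n : ℕ}

lemma fro_nf (X : Matrix (Fin n) (Fin n) ℝ) : H191.fro (fun i j => X i j) = nf X := rfl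

lemma aa_aq {A C : Matrix (Fin n) (Fin n) ℝ} (hA : 1 ≤ nf A) (hC : 1 ≤ nf C) :
    H350.aq (fun i j => A i j) (fun i j => C i j) = aa A C := by
  unfold H350.aq aa
  rw [H350.mq_eq (A := fun i j => A i j) hA, H350.mq_eq (A := fun i j => C i j) hC]
  rfl

lemma aa_lip {A C A' C' : Matrix (Fin n) (Fin n) ℝ} (hA : 1 ≤ nf A) (hC : 1 ≤ nf C)
    (hA' : 1 ≤ nf A') (hC' : 1 ≤ nf C') :
    |aa A' C' - aa A C| ≤ 2 * (nf (A' - A) / nf A) + 2 * (nf (C' - C) / nf C) := by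
  have h := H350.aq_lip (fun i j => A i j) (fun i j => C i j) (fun i j => A' i j)
    (fun i j => C' i j)
  rw [aa_aq hA hC, aa_aq hA' hC', H350.mq_eq (A := fun i j => A i j) hA,
    H350.mq_eq (A := fun i j => C i j) hC] at h
  exact h

/-- **The scalar weight is Lipschitz.** -/
theorem Psi_lip {κ e : ℝ} (hκ : 0 < κ) (he : 0 < e) {A C A' C' : Matrix (Fin n) (Fin n) ℝ}
    (hA : 1 ≤ nf A) (hC : 1 ≤ nf C) (hA' : 1 ≤ nf A') (hC' : 1 ≤ nf C') :
    |Psi κ e A' C' - Psi κ e A C| ≤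
      4 / (e ^ 2 * √e) * (nf (A' - A) * fr C') + 2 / e ^ 2 * (nf (C' - C) * (nf C' + nf C)) +
      8 / (κ * e ^ 2) * (fr C * (nf (A' - A) / nf A + nf (C' - C) / nf C)) := by
  have hse : 0 < √e := Real.sqrt_pos.2 he
  have e0 : Psi κ e A' C' - Psi κ e A C = (hh e A' - hh e A) * (fr C' * pp κ (aa A' C')) +
      hh e A * ((fr C' - fr C) * pp κ (aa A' C')) +
      hh e A * (fr C * (pp κ (aa A' C') - pp κ (aa A C))) := by
    unfold Psi
    ring
  have a1 := pp_abs hκ (aa_abs A' C')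
  have f1 := H332.fr_nonneg C'
  have f2 := H332.fr_nonneg C
  have hh1 := hh_le he A
  have hh1' := hh_le he A'
  have hh0 := hh_nonneg e A
  have hh0' := hh_nonneg e A'
  have n1 := nf_nonneg (A' - A)
  have n2 := nf_nonneg (C' - C)
  have n3 := nf_nonneg C
  have n4 := nf_nonneg C'
  have t1 : |(hh e A' - hh e A) * (fr C' * pp κ (aa A' C'))| ≤
      4 / (e ^ 2 * √e) * (nf (A' - A) * fr C') := by
    rw [abs_mul, abs_mul, abs_of_nonneg f1]
    have h2 : |hh e A' - hh e A| ≤ 2 / (e ^ 2 * √e) * nf (A' - A) := by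
      refine (hh_lip he A' A).trans ?_
      calc 1 / √e * nf (A' - A) * (hh e A' + hh e A) ≤
            1 / √e * nf (A' - A) * (1 / e ^ 2 + 1 / e ^ 2) :=
            mul_le_mul_of_nonneg_left (add_le_add hh1' hh1) (by positivity)
        _ = _ := by field_simp; ring
    calc _ ≤ 2 / (e ^ 2 * √e) * nf (A' - A) * (fr C' * 2) :=
          mul_le_mul h2 (mul_le_mul_of_nonneg_left a1 f1) (by positivity) (by positivity)
      _ = _ := by ring
  have t2 : |hh e A * ((fr C' - fr C) * pp κ (aa A' C'))| ≤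
      2 / e ^ 2 * (nf (C' - C) * (nf C' + nf C)) := by
    rw [abs_mul, abs_mul, abs_of_nonneg hh0]
    calc _ ≤ 1 / e ^ 2 * (nf (C' - C) * (nf C' + nf C) * 2) :=
          mul_le_mul hh1 (mul_le_mul (fr_sub_le C' C) a1 (abs_nonneg _) (by positivity))
            (by positivity) (by positivity)
      _ = _ := by ring
  have t3 : |hh e A * (fr C * (pp κ (aa A' C') - pp κ (aa A C)))| ≤
      8 / (κ * e ^ 2) * (fr C * (nf (A' - A) / nf A + nf (C' - C) / nf C)) := by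
    rw [abs_mul, abs_mul, abs_of_nonneg hh0, abs_of_nonneg f2]
    have h3 : |pp κ (aa A' C') - pp κ (aa A C)| ≤
        4 / κ * (2 * (nf (A' - A) / nf A) + 2 * (nf (C' - C) / nf C)) :=
      (pp_lip hκ (aa_abs A' C') (aa_abs A C)).trans
        (mul_le_mul_of_nonneg_left (aa_lip hA hC hA' hC') (by positivity))
    calc _ ≤ 1 / e ^ 2 * (fr C * (4 / κ * (2 * (nf (A' - A) / nf A) +
            2 * (nf (C' - C) / nf C)))) :=
          mul_le_mul hh1 (mul_le_mul_of_nonneg_left h3 f2) (by positivity) (by positivity)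
      _ = _ := by field_simp; ring
  rw [e0]
  refine (abs_add_le _ _).trans (add_le_add ((abs_add_le _ _).trans (add_le_add t1 t2)) t3)

end Vale.Agent.P146.H45
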