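import Vale.Agent.P146.H45.Lt

/-!
P146, plan R2, row F2: **the unfreezing of the left side** at a point and in the law.
-/

open MeasureTheory ProbabilityTheory

namespace Vale.Agent.P146.H45

open Vale.Agent.P146.H325 hiding qf
open Vale.Agent.P157.Lv Vale.Agent.P146.H425
  Vale.Agent.P146.H712 Vale.Agent.P146.R1 Vale.Agent.P146.R1C Vale.Agent.P146.H706
  Vale.Agent.P146.R1S Vale.Agent.P146.H191 Vale.Agent.P146.H522 Vale.Agent.P146.H561
  Vale.Agent.P146.H508.Rho Matrix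
open Vale.Agent.P146.H332

set_option linter.unusedSectionVars false

variable {n : ℕ}

lemma fro_of (X : Fin n → Fin n → ℝ) : H191.fro X = nf (Matrix.of X) := rfl

lemma fro_sub_of (X Z : Fin n → Fin n → ℝ) :
    H191.fro (fun i j => X i j - Z i j) = nf (Matrix.of X - Matrix.of Z) := rfl

lemma qf_sub_form (Y Z A B : Fin n → Fin n → ℝ) :
    qf (fun i j => Y i j - Z i j) A B = qf Y A B - qf Z A B := by
  unfold qf
  rw [← Finset.sum_sub_distrib]
  refine Finset.sum_congr rfl fun i _ => ?_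
  rw [← Finset.sum_sub_distrib]
  exact Finset.sum_congr rfl fun j _ => by ring

/-- the constant of the matrix touches -/
noncomputable def cLt (K κ e : ℝ) : ℝ := 16 * K ^ 4 / (κ * (e ^ 2 * √e))

lemma cLt_le {K κ e X : ℝ} (hκ : 0 < κ) (hκ1 : κ ≤ 1) (he : 0 < e) (heK : √e ≤ K)
    (hX : 0 ≤ X) : 4 * K ^ 3 / e ^ 2 * X + 4 * K ^ 4 / (e ^ 2 * √e) * X +
      8 * K ^ 3 / (κ * e ^ 2) * X ≤ cLt K κ e * X := by
  have hse : 0 < √e := Real.sqrt_pos.2 he
  have hK : 0 < K := hse.trans_le heK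
  obtain ⟨r, hr⟩ : ∃ r, r = √e := ⟨_, rfl⟩
  unfold cLt
  rw [← hr] at hse heK ⊢
  have e1 : 4 * K ^ 3 / e ^ 2 * X + 4 * K ^ 4 / (e ^ 2 * r) * X +
      8 * K ^ 3 / (κ * e ^ 2) * X = (K ^ 3 * X) * (4 * (κ * r) + 4 * (κ * K) + 8 * r) /
        (κ * (e ^ 2 * r)) := by
    field_simp
  have e2 : 16 * K ^ 4 / (κ * (e ^ 2 * r)) * X = (K ^ 3 * X) * (16 * K) /
        (κ * (e ^ 2 * r)) := by
    ring
  rw [e1, e2]
  refine div_le_div_of_nonneg_right (mul_le_mul_of_nonneg_left ?_ (by positivity))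
    (by positivity)
  have h1 : κ * r ≤ 1 * r := mul_le_mul_of_nonneg_right hκ1 hse.le
  have h2 : κ * K ≤ 1 * K := mul_le_mul_of_nonneg_right hκ1 hK.le
  linarith

/-- **The difference of the two weights at a point.** -/
theorem lt_pt {κ e K : ℝ} (hκ : 0 < κ) (hκ1 : κ ≤ 1) (he : 0 < e) (heK : √e ≤ K)
    {Y Z C1 C2 M1 M2 : Fin n → Fin n → ℝ} (hZ : Ps Z) (sZ : ∀ i j, Z i j = Z j i)
    (c1 : 1 ≤ H191.fro C1) (c2 : 1 ≤ H191.fro C2) (m1 : 1 ≤ H191.fro M1)
    (m2 : 1 ≤ H191.fro M2) (kc1 : H191.fro C1 ≤ K) (kc2 : H191.fro C2 ≤ K)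
    (km1 : H191.fro M1 ≤ K) (km2 : H191.fro M2 ≤ K) :
    |qf Y C1 C1 * Psi κ e (Matrix.of C1) (Matrix.of C2) -
        qf Z M1 M1 * Psi κ e (Matrix.of M1) (Matrix.of M2)| ≤
      2 * K ^ 4 / e ^ 2 * H191.fro (fun i j => Y i j - Z i j) +
      cLt K κ e * (H191.fro Z * (H191.fro (fun i j => C1 i j - M1 i j) +
        H191.fro (fun i j => C2 i j - M2 i j))) := by
  have hse : 0 < √e := Real.sqrt_pos.2 he
  have hK : 0 < K := hse.trans_le heK
  set P0 := Psi κ e (Matrix.of C1) (Matrix.of C2) with hP0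
  set P1 := Psi κ e (Matrix.of M1) (Matrix.of M2) with hP1
  obtain ⟨y, hy⟩ : ∃ y, y = H191.fro (fun i j => Y i j - Z i j) := ⟨_, rfl⟩
  obtain ⟨z, hz⟩ : ∃ z, z = H191.fro Z := ⟨_, rfl⟩
  obtain ⟨d1, hd1⟩ : ∃ d1, d1 = H191.fro (fun i j => C1 i j - M1 i j) := ⟨_, rfl⟩
  obtain ⟨d2, hd2⟩ : ∃ d2, d2 = H191.fro (fun i j => C2 i j - M2 i j) := ⟨_, rfl⟩
  have y0 : 0 ≤ y := by rw [hy]; exact H191.fro_nonneg _
  have z0 : 0 ≤ z := by rw [hz]; exact H191.fro_nonneg _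
  have d10 : 0 ≤ d1 := by rw [hd1]; exact H191.fro_nonneg _
  have d20 : 0 ≤ d2 := by rw [hd2]; exact H191.fro_nonneg _
  have nC1 := H191.fro_nonneg C1
  have nC2 := H191.fro_nonneg C2
  have nM1 := H191.fro_nonneg M1
  have nM2 := H191.fro_nonneg M2
  have hfrC2 : fr (Matrix.of C2) ≤ K ^ 2 := by
    rw [← nf_sq]; exact pow_le_pow_left₀ (nf_nonneg _) kc2 2
  -- the size of the scalar weight
  have hP : |P0| ≤ 2 * K ^ 2 / e ^ 2 := by
    refine (Psi_abs hκ he _ _).trans ?_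
    calc 2 / e ^ 2 * fr (Matrix.of C2) ≤ 2 / e ^ 2 * K ^ 2 :=
          mul_le_mul_of_nonneg_left hfrC2 (by positivity)
      _ = _ := by ring
  -- the deep part
  have t1 : |(qf Y C1 C1 - qf Z C1 C1) * P0| ≤ 2 * K ^ 4 / e ^ 2 * y := by
    rw [← qf_sub_form, abs_mul, hy]
    have h1 := qf_le (fun i j => Y i j - Z i j) C1 C1
    have h2 : H191.fro C1 * H191.fro C1 ≤ K * K := mul_le_mul kc1 kc1 nC1 hK.le
    calc _ ≤ H191.fro (fun i j => Y i j - Z i j) * (K * K) * (2 * K ^ 2 / e ^ 2) :=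
          mul_le_mul (h1.trans (mul_le_mul_of_nonneg_left h2 (H191.fro_nonneg _))) hP
            (abs_nonneg _) (mul_nonneg (H191.fro_nonneg _) (by positivity))
      _ = _ := by ring
  -- the touches
  have t2 := rho_le (M := C1) (C := M1) hZ sZ P0 P1
  have q1 : qf Z (fun i l => C1 i l - M1 i l) (fun i l => C1 i l - M1 i l) ≤ z * d1 ^ 2 := by
    refine (le_abs_self _).trans ((qf_le _ _ _).trans (le_of_eq ?_))
    rw [hz, hd1]; ring
  have q2 : qf Z C1 C1 ≤ z * K ^ 2 := by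
    refine (le_abs_self _).trans ((qf_le _ _ _).trans ?_)
    rw [← hz]
    refine mul_le_mul_of_nonneg_left ?_ z0
    calc _ ≤ K * K := mul_le_mul kc1 kc1 nC1 hK.le
      _ = _ := by ring
  have q3 : qf Z M1 M1 ≤ z * H191.fro M1 ^ 2 := by
    refine (le_abs_self _).trans ((qf_le _ _ _).trans (le_of_eq ?_))
    rw [← hz]; ring
  have q3' : qf Z M1 M1 ≤ z * K ^ 2 :=
    q3.trans (mul_le_mul_of_nonneg_left (pow_le_pow_left₀ nM1 km1 2) z0)
  have q30 : 0 ≤ qf Z M1 M1 := qf_nonneg hZ M1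
  have sq1 : √(qf Z (fun i l => C1 i l - M1 i l) (fun i l => C1 i l - M1 i l)) ≤ √z * d1 := by
    refine Real.sqrt_le_iff.2 ⟨by positivity, q1.trans (le_of_eq ?_)⟩
    rw [mul_pow, Real.sq_sqrt z0]
  have sq2 : √(qf Z C1 C1) ≤ √z * K := by
    refine Real.sqrt_le_iff.2 ⟨by positivity, q2.trans (le_of_eq ?_)⟩
    rw [mul_pow, Real.sq_sqrt z0]
  have sq3 : √(qf Z M1 M1) ≤ √z * K := by
    refine Real.sqrt_le_iff.2 ⟨by positivity, q3'.trans (le_of_eq ?_)⟩
    rw [mul_pow, Real.sq_sqrt z0]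
  have u1 : |P0| * (√(qf Z (fun i l => C1 i l - M1 i l) (fun i l => C1 i l - M1 i l)) *
      (√(qf Z C1 C1) + √(qf Z M1 M1))) ≤ 4 * K ^ 3 / e ^ 2 * (z * d1) := by
    calc _ ≤ 2 * K ^ 2 / e ^ 2 * (√z * d1 * (√z * K + √z * K)) :=
          mul_le_mul hP (mul_le_mul sq1 (add_le_add sq2 sq3) (by positivity) (by positivity))
            (by positivity) (by positivity)
      _ = 4 * K ^ 3 / e ^ 2 * (√z ^ 2 * d1) := by ring
      _ = _ := by rw [Real.sq_sqrt z0]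
  have lip := Psi_lip (A := Matrix.of M1) (C := Matrix.of M2) (A' := Matrix.of C1)
    (C' := Matrix.of C2) hκ he m1 m2 c1 c2
  rw [← hP0, ← hP1, ← fro_sub_of, ← fro_sub_of, ← hd1, ← hd2, ← fro_of, ← fro_of, ← fro_of,
    ← nf_sq (Matrix.of M2), ← fro_of] at lip
  have pM1 : 0 < H191.fro M1 := by linarith
  have pM2 : 0 < H191.fro M2 := by linarith
  have u2 : |P0 - P1| * qf Z M1 M1 ≤
      4 * K ^ 4 / (e ^ 2 * √e) * (z * d1) + 4 * K ^ 3 / e ^ 2 * (z * d2) +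
        8 * K ^ 3 / (κ * e ^ 2) * (z * d1 + z * d2) := by
    refine (mul_le_mul_of_nonneg_right lip q30).trans ?_
    rw [add_mul, add_mul]
    have v1 : 4 / (e ^ 2 * √e) * (d1 * fr (Matrix.of C2)) * qf Z M1 M1 ≤
        4 * K ^ 4 / (e ^ 2 * √e) * (z * d1) := by
      calc _ ≤ 4 / (e ^ 2 * √e) * (d1 * K ^ 2) * (z * K ^ 2) := by
            refine mul_le_mul (mul_le_mul_of_nonneg_left
              (mul_le_mul_of_nonneg_left hfrC2 d10) (by positivity)) q3' q30 (by positivity)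
        _ = _ := by ring
    have v2 : 2 / e ^ 2 * (d2 * (H191.fro C2 + H191.fro M2)) * qf Z M1 M1 ≤
        4 * K ^ 3 / e ^ 2 * (z * d2) := by
      calc _ ≤ 2 / e ^ 2 * (d2 * (K + K)) * (z * K ^ 2) := by
            refine mul_le_mul (mul_le_mul_of_nonneg_left
              (mul_le_mul_of_nonneg_left (add_le_add kc2 km2) d20) (by positivity)) q3' q30
              (by positivity)
        _ = _ := by ring
    have v3 : 8 / (κ * e ^ 2) * (H191.fro M2 ^ 2 * (d1 / H191.fro M1 + d2 / H191.fro M2)) *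
        qf Z M1 M1 ≤ 8 * K ^ 3 / (κ * e ^ 2) * (z * d1 + z * d2) := by
      have w1 : H191.fro M2 ^ 2 * (d1 / H191.fro M1) * (z * H191.fro M1 ^ 2) ≤
          K ^ 3 * (z * d1) := by
        have e1 : H191.fro M2 ^ 2 * (d1 / H191.fro M1) * (z * H191.fro M1 ^ 2) =
            H191.fro M2 ^ 2 * H191.fro M1 * (z * d1) := by field_simp
        rw [e1]
        refine mul_le_mul_of_nonneg_right ?_ (by positivity)
        calc _ ≤ K ^ 2 * K := mul_le_mul (pow_le_pow_left₀ nM2 km2 2) km1 nM1 (by positivity)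
          _ = _ := by ring
      have w2 : H191.fro M2 ^ 2 * (d2 / H191.fro M2) * (z * H191.fro M1 ^ 2) ≤
          K ^ 3 * (z * d2) := by
        have e1 : H191.fro M2 ^ 2 * (d2 / H191.fro M2) * (z * H191.fro M1 ^ 2) =
            H191.fro M2 * H191.fro M1 ^ 2 * (z * d2) := by field_simp
        rw [e1]
        refine mul_le_mul_of_nonneg_right ?_ (by positivity)
        calc _ ≤ K * K ^ 2 := mul_le_mul km2 (pow_le_pow_left₀ nM1 km1 2) (by positivity) hK.le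
          _ = _ := by ring
      calc _ ≤ 8 / (κ * e ^ 2) * (H191.fro M2 ^ 2 * (d1 / H191.fro M1 + d2 / H191.fro M2)) *
            (z * H191.fro M1 ^ 2) := mul_le_mul_of_nonneg_left q3 (by positivity)
        _ = 8 / (κ * e ^ 2) * (H191.fro M2 ^ 2 * (d1 / H191.fro M1) * (z * H191.fro M1 ^ 2) +
            H191.fro M2 ^ 2 * (d2 / H191.fro M2) * (z * H191.fro M1 ^ 2)) := by ring
        _ ≤ 8 / (κ * e ^ 2) * (K ^ 3 * (z * d1) + K ^ 3 * (z * d2)) :=
            mul_le_mul_of_nonneg_left (add_le_add w1 w2) (by positivity)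
        _ = _ := by ring
    exact add_le_add (add_le_add v1 v2) v3
  -- the constants
  have k1 := cLt_le (X := z * d1) hκ hκ1 he heK (by positivity)
  have k2 := cLt_le (X := z * d2) hκ hκ1 he heK (by positivity)
  have k3 : 0 ≤ 4 * K ^ 4 / (e ^ 2 * √e) * (z * d2) := by positivity
  have dec : qf Y C1 C1 * P0 - qf Z M1 M1 * P1 =
      (qf Y C1 C1 - qf Z C1 C1) * P0 + (qf Z C1 C1 * P0 - qf Z M1 M1 * P1) := by ring
  rw [dec, ← hy, ← hz, ← hd1, ← hd2]
  refine (abs_add_le _ _).trans ?_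
  have e5 : cLt K κ e * (z * (d1 + d2)) = cLt K κ e * (z * d1) + cLt K κ e * (z * d2) := by ring
  have e6 : 8 * K ^ 3 / (κ * e ^ 2) * (z * d1 + z * d2) =
      8 * K ^ 3 / (κ * e ^ 2) * (z * d1) + 8 * K ^ 3 / (κ * e ^ 2) * (z * d2) := by ring
  rw [e5]
  rw [e6] at u2
  refine add_le_add t1 (t2.trans ?_)
  exact ((add_le_add u1 u2).trans (by linarith))

end Vale.Agent.P146.H45
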