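import Vale.Agent.P146.H45.Lt2

/-!
P146, plan R2, row F2: **the unfreezing of the left side**, in the law `φ`: the weight with the
frozen matrices against the weight with the true matrices, for any nonnegative row numbers.
-/

open MeasureTheory ProbabilityTheory

namespace Vale.Agent.P146.H45

open Vale.Agent.P146.H325 hiding qf
open Vale.Agent.P157.Lv Vale.Agent.P146.H425
  Vale.Agent.P146.H712 Vale.Agent.P146.R1 Vale.Agent.P146.R1C Vale.Agent.P146.H706
  Vale.Agent.P146.R1S Vale.Agent.P146.H191 Vale.Agent.P146.H522 Vale.Agent.P146.H561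
  Vale.Agent.P146.H508.Rho Matrix
open Vale.Agent.P146.H332

set_option linter.unusedSectionVars false

variable {n : ℕ} {φ : (K4 (Pair n) → ℝ) → ℝ}

lemma eg_fro {X : MF n} (h : ∀ i j, EG fun w => X w i j) : EG fun w => H191.fro (X w) := by
  have := eg_nf (A := fun w => Matrix.of (X w)) h
  exact this

lemma eg_pp {κ : ℝ} (hκ : 0 < κ) {A C : (K4 (Pair n) → ℝ) → Matrix (Fin n) (Fin n) ℝ}
    (hA : ∀ i j, EG fun w => A w i j) (hC : ∀ i j, EG fun w => C w i j) :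
    EG fun w => pp κ (aa (A w) (C w)) := by
  have h1 := eg_gk hκ hA hC
  have h2 := eg_aa hA hC
  exact h1.mul (h2.mul ((EG.const 1).sub (h2.pow 2)))

lemma eg_Psi {κ e : ℝ} (hκ : 0 < κ) (he : 0 < e)
    {A C : (K4 (Pair n) → ℝ) → Matrix (Fin n) (Fin n) ℝ}
    (hA : ∀ i j, EG fun w => A w i j) (hC : ∀ i j, EG fun w => C w i j) :
    EG fun w => Psi κ e (A w) (C w) :=
  (eg_hh he hA).mul ((eg_frm hC).mul (eg_pp hκ hA hC))

/-- **[F2-LT], general form.** -/
theorem lt_num (h : EG φ) (h0 : ∀ w, 0 ≤ φ w) {κ e K KN Z : ℝ} (hκ : 0 < κ) (hκ1 : κ ≤ 1)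
    (he : 0 < e) (heK : √e ≤ K) (hZ0 : 0 ≤ Z) (hKN : 0 ≤ KN)
    {Y C1 C2 : MF n} {Yb M1 M2 : Fin n → MF n} {Nb r : Fin n → (K4 (Pair n) → ℝ) → ℝ}
    (eY : ∀ i j, EG fun w => Y w i j) (eYb : ∀ b i j, EG fun w => Yb b w i j)
    (eC1 : ∀ i j, EG fun w => C1 w i j) (eC2 : ∀ i j, EG fun w => C2 w i j)
    (eM1 : ∀ b i j, EG fun w => M1 b w i j) (eM2 : ∀ b i j, EG fun w => M2 b w i j)
    (eN : ∀ b, EG (Nb b)) (er : ∀ b, EG (r b))
    (pYb : ∀ b w, Ps (Yb b w)) (sYb : ∀ b w i j, Yb b w i j = Yb b w j i)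
    (gC1 : ∀ w, 1 ≤ H191.fro (C1 w)) (gC2 : ∀ w, 1 ≤ H191.fro (C2 w))
    (gM1 : ∀ b w, 1 ≤ H191.fro (M1 b w)) (gM2 : ∀ b w, 1 ≤ H191.fro (M2 b w))
    (aM : ∀ b w, 0 ≤ aa (Matrix.of (M1 b w)) (Matrix.of (M2 b w)))
    (N0 : ∀ b w, 0 ≤ Nb b w) (r0 : ∀ b w, 0 ≤ r b w)
    (hr : ∀ b w, (H191.fro (C1 w) ≤ K ∧ H191.fro (C2 w) ≤ K ∧ H191.fro (M1 b w) ≤ K ∧
      H191.fro (M2 b w) ≤ K ∧ Nb b w ≤ KN) ∨ 1 ≤ r b w)
    (hZ : ∀ b w, qf (Y w) (C1 w) (C1 w) * Psi κ e (Matrix.of (C1 w)) (Matrix.of (C2 w)) *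
      Nb b w ≤ Z) :
    Im φ (fun w => ∑ b, qf (Y w) (C1 w) (C1 w) *
        Psi κ e (Matrix.of (C1 w)) (Matrix.of (C2 w)) * Nb b w) ≤
      ∑ b, Im φ (fun w => qf (Yb b w) (M1 b w) (M1 b w) *
        Psi κ e (Matrix.of (M1 b w)) (Matrix.of (M2 b w)) * Nb b w) +
      (KN * (2 * K ^ 4 / e ^ 2 * ∑ b, Im φ (fun w => H191.fro fun i j => Y w i j - Yb b w i j) +
        cLt K κ e * ∑ b, Im φ (fun w => H191.fro (Yb b w) *
          (H191.fro (fun i j => C1 w i j - M1 b w i j) +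
            H191.fro (fun i j => C2 w i j - M2 b w i j)))) +
        Z * ∑ b, Im φ (r b)) := by
  have hse : 0 < √e := Real.sqrt_pos.2 he
  have hK : 0 < K := hse.trans_le heK
  have hc : 0 ≤ cLt K κ e := by unfold cLt; positivity
  -- growth
  have g0 : EG fun w => qf (Y w) (C1 w) (C1 w) *
      Psi κ e (Matrix.of (C1 w)) (Matrix.of (C2 w)) :=
    (eg_qf eY eC1 eC1).mul (eg_Psi hκ he eC1 eC2)
  have g1 : ∀ b, EG fun w => qf (Yb b w) (M1 b w) (M1 b w) *
      Psi κ e (Matrix.of (M1 b w)) (Matrix.of (M2 b w)) := fun b =>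
    (eg_qf (eYb b) (eM1 b) (eM1 b)).mul (eg_Psi hκ he (eM1 b) (eM2 b))
  have gy : ∀ b, EG fun w => H191.fro fun i j => Y w i j - Yb b w i j := fun b =>
    eg_fro (X := fun w i j => Y w i j - Yb b w i j) fun i j => (eY i j).sub (eYb b i j)
  have gd : ∀ b, EG fun w => H191.fro (Yb b w) *
      (H191.fro (fun i j => C1 w i j - M1 b w i j) +
        H191.fro (fun i j => C2 w i j - M2 b w i j)) := fun b =>
    (eg_fro (eYb b)).mul ((eg_fro (X := fun w i j => C1 w i j - M1 b w i j)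
      fun i j => (eC1 i j).sub (eM1 b i j)).add
      (eg_fro (X := fun w i j => C2 w i j - M2 b w i j) fun i j => (eC2 i j).sub (eM2 b i j)))
  -- the point
  have pt : ∀ b w, qf (Y w) (C1 w) (C1 w) * Psi κ e (Matrix.of (C1 w)) (Matrix.of (C2 w)) *
      Nb b w ≤ qf (Yb b w) (M1 b w) (M1 b w) *
        Psi κ e (Matrix.of (M1 b w)) (Matrix.of (M2 b w)) * Nb b w +
      (KN * (2 * K ^ 4 / e ^ 2 * H191.fro (fun i j => Y w i j - Yb b w i j) +
        cLt K κ e * (H191.fro (Yb b w) * (H191.fro (fun i j => C1 w i j - M1 b w i j) +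
            H191.fro (fun i j => C2 w i j - M2 b w i j)))) + Z * r b w) := by
    intro b w
    have nn1 : 0 ≤ H191.fro (fun i j => Y w i j - Yb b w i j) := H191.fro_nonneg _
    have nn2 : 0 ≤ H191.fro (Yb b w) * (H191.fro (fun i j => C1 w i j - M1 b w i j) +
        H191.fro (fun i j => C2 w i j - M2 b w i j)) :=
      mul_nonneg (H191.fro_nonneg _) (add_nonneg (H191.fro_nonneg _) (H191.fro_nonneg _))
    have nn3 : 0 ≤ 2 * K ^ 4 / e ^ 2 * H191.fro (fun i j => Y w i j - Yb b w i j) +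
        cLt K κ e * (H191.fro (Yb b w) * (H191.fro (fun i j => C1 w i j - M1 b w i j) +
            H191.fro (fun i j => C2 w i j - M2 b w i j))) :=
      add_nonneg (mul_nonneg (by positivity) nn1) (mul_nonneg hc nn2)
    have nn4 : 0 ≤ Z * r b w := mul_nonneg hZ0 (r0 b w)
    rcases hr b w with ⟨k1, k2, k3, k4, k5⟩ | hb
    · have key := lt_pt (Y := Y w) hκ hκ1 he heK (pYb b w) (sYb b w) (gC1 w) (gC2 w) (gM1 b w)
        (gM2 b w) k1 k2 k3 k4
      have key' := (le_abs_self _).trans key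
      have m1 := mul_le_mul_of_nonneg_right key' (N0 b w)
      have m2 := mul_le_mul_of_nonneg_left k5 nn3
      rw [sub_mul] at m1
      linarith
    · have w1 : 0 ≤ qf (Yb b w) (M1 b w) (M1 b w) *
          Psi κ e (Matrix.of (M1 b w)) (Matrix.of (M2 b w)) * Nb b w :=
        mul_nonneg (mul_nonneg (qf_nonneg (pYb b w) _) (Psi_nonneg hκ (aM b w))) (N0 b w)
      have w2 := hZ b w
      have w3 : Z * 1 ≤ Z * r b w := mul_le_mul_of_nonneg_left hb hZ0
      have w4 := mul_nonneg hKN nn3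
      linarith
  -- the sum
  have e1 : Im φ (fun w => ∑ b, qf (Y w) (C1 w) (C1 w) *
        Psi κ e (Matrix.of (C1 w)) (Matrix.of (C2 w)) * Nb b w) =
      ∑ b, Im φ (fun w => qf (Y w) (C1 w) (C1 w) *
        Psi κ e (Matrix.of (C1 w)) (Matrix.of (C2 w)) * Nb b w) :=
    Im_sum h _ fun b _ => g0.mul (eN b)
  rw [e1]
  have e2 : ∀ b, Im φ (fun w => qf (Y w) (C1 w) (C1 w) *
      Psi κ e (Matrix.of (C1 w)) (Matrix.of (C2 w)) * Nb b w) ≤
      Im φ (fun w => qf (Yb b w) (M1 b w) (M1 b w) *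
        Psi κ e (Matrix.of (M1 b w)) (Matrix.of (M2 b w)) * Nb b w) +
      (KN * (2 * K ^ 4 / e ^ 2 * Im φ (fun w => H191.fro fun i j => Y w i j - Yb b w i j) +
        cLt K κ e * Im φ (fun w => H191.fro (Yb b w) *
          (H191.fro (fun i j => C1 w i j - M1 b w i j) +
            H191.fro (fun i j => C2 w i j - M2 b w i j)))) + Z * Im φ (r b)) := by
    intro b
    rw [← Im_const_mul (2 * K ^ 4 / e ^ 2), ← Im_const_mul (cLt K κ e),
      ← Im_add h ((gy b).const_mul _) ((gd b).const_mul _), ← Im_const_mul KN,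
      ← Im_const_mul Z, ← Im_add h ((((gy b).const_mul _).add ((gd b).const_mul _)).const_mul _)
        ((er b).const_mul _),
      ← Im_add h ((g1 b).mul (eN b)) (((((gy b).const_mul _).add
        ((gd b).const_mul _)).const_mul _).add ((er b).const_mul _))]
    exact Im_mono' h h0 (g0.mul (eN b)) (((g1 b).mul (eN b)).add (((((gy b).const_mul _).add
        ((gd b).const_mul _)).const_mul _).add ((er b).const_mul _))) (pt b)
  refine (Finset.sum_le_sum fun b _ => e2 b).trans (le_of_eq ?_)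
  rw [Finset.sum_add_distrib, Finset.sum_add_distrib, ← Finset.mul_sum, ← Finset.mul_sum,
    Finset.sum_add_distrib, ← Finset.mul_sum, ← Finset.mul_sum]

end Vale.Agent.P146.H45
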