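import Vale.Agent.P146.H350.Tch

/-!
P146, R2: **frozen averages in the true law.** For `f` with row average `Av R f` and a row-frozen
weight `χ ≥ 0`: `∫ e^Ψ χ (Av R f)² ≤ 8/7 ∫ e^Ψ χ f²`. In particular the row average of the indicator
of a rare event is rare in the true law.
-/

set_option linter.all false

open MeasureTheory ProbabilityTheory Finset Filter Topology

namespace Vale.Agent.P146.H45

open Vale.Agent.P157.Lv Vale.Agent.P146.H712 Vale.Agent.P146.H706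

section base

variable {ρ : Type} [Fintype ρ] [DecidableEq ρ]
variable {ψ : (ρ → ℝ) → ℝ} {ψ' : ρ → (ρ → ℝ) → ℝ} {l : ℝ}

lemma LG.avsq (h : LG ψ ψ' l) (hl : 16 * l ^ 2 ≤ 1) {f : (ρ → ℝ) → ℝ} (hf : EG f) :
    (∫ z, Real.exp (ψ z) ∂(gI ρ)) * (∫ z, f z ∂(gI ρ)) ^ 2 ≤
      8 / 7 * ∫ z, Real.exp (ψ z) * f z ^ 2 ∂(gI ρ) := by
  set m := ∫ w, f w ∂(gI ρ) with hm
  set X := ∫ z, Real.exp (ψ z) * f z ^ 2 ∂(gI ρ) with hX
  have X0 : 0 ≤ X := integral_nonneg fun z => mul_nonneg (Real.exp_pos _).le (sq_nonneg _)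
  obtain ⟨-, k2⟩ := int_mul_le (P := gI ρ) (f := fun z => Real.exp (-(1 / 2) * ψ z))
    (g := fun z => Real.exp (1 / 2 * ψ z) * f z)
    (h.ee _).meas ((h.ee _).mul hf).meas ((h.ee _).pow 2).integrable
    (((h.ee _).mul hf).pow 2).integrable
  have y1 : ∀ z, Real.exp (-(1 / 2) * ψ z) * (Real.exp (1 / 2 * ψ z) * f z) = f z := by
    intro z
    rw [← mul_assoc, ← Real.exp_add]
    have : -(1 / 2) * ψ z + 1 / 2 * ψ z = 0 := by ring
    rw [this, Real.exp_zero, one_mul]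
  have y2 : ∀ z, Real.exp (-(1 / 2) * ψ z) ^ 2 = Real.exp (-1 * ψ z) := by
    intro z; rw [sq, ← Real.exp_add]; congr 1; ring
  have y3 : ∀ z, (Real.exp (1 / 2 * ψ z) * f z) ^ 2 = Real.exp (ψ z) * f z ^ 2 := by
    intro z; rw [mul_pow, sq (Real.exp (1 / 2 * ψ z)), ← Real.exp_add]; congr 2; ring
  simp only [y1, y2, y3] at k2
  rw [← hX, ← hm] at k2
  set J := ∫ z, Real.exp (-1 * ψ z) ∂(gI ρ) with hJ
  have J0 : 0 ≤ J := integral_nonneg fun z => (Real.exp_pos _).le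
  have k3 : m ^ 2 ≤ J * X := by
    rw [← sq_abs, ← Real.sq_sqrt (mul_nonneg J0 X0), Real.sqrt_mul J0]
    exact pow_le_pow_left₀ (abs_nonneg _) k2 2
  set I := ∫ z, Real.exp (ψ z) ∂(gI ρ) with hI
  have I0 : 0 ≤ I := integral_nonneg fun z => (Real.exp_pos _).le
  have cI : I ≤ Real.exp (∫ z, ψ z ∂(gI ρ) + l ^ 2) := by
    have := h.conc (t := 1) (by nlinarith [sq_nonneg l])
    simpa [hI] using this
  have cJ : J ≤ Real.exp (-(∫ z, ψ z ∂(gI ρ)) + l ^ 2) := by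
    have := h.conc (t := -1) (by nlinarith [sq_nonneg l])
    refine this.trans (le_of_eq ?_)
    congr 1
    ring
  have cIJ : I * J ≤ 8 / 7 := by
    have e2 : I * J ≤ Real.exp (2 * l ^ 2) := by
      refine (mul_le_mul cI cJ J0 (Real.exp_pos _).le).trans (le_of_eq ?_)
      rw [← Real.exp_add]; congr 1; ring
    refine e2.trans ?_
    have e3 : 1 - 2 * l ^ 2 ≤ Real.exp (-(2 * l ^ 2)) := by
      have := Real.add_one_le_exp (-(2 * l ^ 2)); linarith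
    have e4 : Real.exp (2 * l ^ 2) * Real.exp (-(2 * l ^ 2)) = 1 := by
      rw [← Real.exp_add]; simp
    have e5 : 7 / 8 ≤ 1 - 2 * l ^ 2 := by linarith
    have e6 : Real.exp (2 * l ^ 2) * (7 / 8) ≤ 1 := by
      rw [← e4]
      exact mul_le_mul_of_nonneg_left (e5.trans e3) (Real.exp_pos _).le
    linarith
  calc I * m ^ 2 ≤ I * (J * X) := mul_le_mul_of_nonneg_left k3 I0
    _ = I * J * X := by ring
    _ ≤ 8 / 7 * X := mul_le_mul_of_nonneg_right cIJ X0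

end base

section fib

variable {ι : Type} [Fintype ι] [DecidableEq ι]
variable {R : Finset ι} {Ψ : (ι → ℝ) → ℝ} {Ψ' : ι → (ι → ℝ) → ℝ} {l : ℝ}

lemma LF.avsq_av (h : LF R Ψ Ψ' l) (hl : 16 * l ^ 2 ≤ 1) {f : (ι → ℝ) → ℝ} (hf : EG f)
    (z : ι → ℝ) :
    Av R (fun z => Real.exp (Ψ z)) z * Av R f z ^ 2 ≤
      8 / 7 * Av R (fun z => Real.exp (Ψ z) * f z ^ 2) z :=
  LG.avsq (h.lg z) hl (f := fun w => f (H712.sw R z w)) (eg_sw hf R z)

/-- **The square of a frozen average in the true law, with a row-frozen weight.** -/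
theorem LF.avsq (h : LF R Ψ Ψ' l) (hl : 16 * l ^ 2 ≤ 1) {f χ : (ι → ℝ) → ℝ} (hf : EG f)
    (hχ : EG χ) (iχ : Ind R χ) (h0 : ∀ z, 0 ≤ χ z) :
    ∫ z, Real.exp (Ψ z) * (χ z * Av R f z ^ 2) ∂(gI ι) ≤
      8 / 7 * ∫ z, Real.exp (Ψ z) * (χ z * f z ^ 2) ∂(gI ι) := by
  have e1 := h.en
  have ea : EG (Av R f) := eg_Av R hf
  have i1 : EG fun z => Real.exp (Ψ z) * (χ z * Av R f z ^ 2) := e1.mul (hχ.mul (ea.pow 2))
  have i2 : EG fun z => Real.exp (Ψ z) * (χ z * f z ^ 2) := e1.mul (hχ.mul (hf.pow 2))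
  rw [← integral_Av R i1, ← integral_Av R i2, ← integral_const_mul]
  refine integral_mono (eg_Av R i1).integrable ((eg_Av R i2).integrable.const_mul _) fun z => ?_
  show Av R (fun z => Real.exp (Ψ z) * (χ z * Av R f z ^ 2)) z ≤
    8 / 7 * Av R (fun z => Real.exp (Ψ z) * (χ z * f z ^ 2)) z
  have iF : Ind R fun z => χ z * Av R f z ^ 2 := fun z w => by
    have h1 := iχ z w
    have h2 := ind_Av R f z w
    simp only
    rw [h1, h2]
  have a1 : Av R (fun z => Real.exp (Ψ z) * (χ z * Av R f z ^ 2)) z =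
      (χ z * Av R f z ^ 2) * Av R (fun z => Real.exp (Ψ z)) z := by
    rw [← Av_mul iF]
    congr 1; funext z; ring
  have a2 : Av R (fun z => Real.exp (Ψ z) * (χ z * f z ^ 2)) z =
      χ z * Av R (fun z => Real.exp (Ψ z) * f z ^ 2) z := by
    rw [← Av_mul iχ]
    congr 1; funext z; ring
  rw [a1, a2]
  have := mul_le_mul_of_nonneg_left (LF.avsq_av h hl hf z) (h0 z)
  nlinarith

/-- the first moment -/
theorem LF.av1 (h : LF R Ψ Ψ' l) (hl : 16 * l ^ 2 ≤ 1) {f χ : (ι → ℝ) → ℝ} (hf : EG f)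
    (hχ : EG χ) (iχ : Ind R χ) (h0 : ∀ z, 0 ≤ χ z) :
    ∫ z, Real.exp (Ψ z) * (χ z * Av R f z) ∂(gI ι) ≤
      √(∫ z, Real.exp (Ψ z) * χ z ∂(gI ι)) *
        √(8 / 7 * ∫ z, Real.exp (Ψ z) * (χ z * f z ^ 2) ∂(gI ι)) := by
  have e1 := h.en
  have ea : EG (Av R f) := eg_Av R hf
  obtain ⟨a, ha⟩ : ∃ a, a = ∫ z, Real.exp (Ψ z) * χ z ∂(gI ι) := ⟨_, rfl⟩
  obtain ⟨b, hb⟩ : ∃ b, b = ∫ z, Real.exp (Ψ z) * (χ z * Av R f z) ∂(gI ι) := ⟨_, rfl⟩
  obtain ⟨c, hc⟩ : ∃ c, c = ∫ z, Real.exp (Ψ z) * (χ z * Av R f z ^ 2) ∂(gI ι) := ⟨_, rfl⟩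
  have i1 : EG fun z => Real.exp (Ψ z) * χ z := e1.mul hχ
  have i2 : EG fun z => Real.exp (Ψ z) * (χ z * Av R f z) := e1.mul (hχ.mul ea)
  have i3 : EG fun z => Real.exp (Ψ z) * (χ z * Av R f z ^ 2) := e1.mul (hχ.mul (ea.pow 2))
  have ha0 : 0 ≤ a := by
    rw [ha]; exact integral_nonneg fun z => mul_nonneg (Real.exp_pos _).le (h0 z)
  have hc0 : 0 ≤ c := by
    rw [hc]
    exact integral_nonneg fun z => mul_nonneg (Real.exp_pos _).le (mul_nonneg (h0 z) (sq_nonneg _))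
  have key : ∀ t : ℝ, 0 ≤ a * (t * t) + (-2 * b) * t + c := by
    intro t
    have h1 : 0 ≤ ∫ z, Real.exp (Ψ z) * (χ z * (Av R f z - t) ^ 2) ∂(gI ι) :=
      integral_nonneg fun z => mul_nonneg (Real.exp_pos _).le (mul_nonneg (h0 z) (sq_nonneg _))
    have h2 : ∫ z, Real.exp (Ψ z) * (χ z * (Av R f z - t) ^ 2) ∂(gI ι) =
        (t * t) * a + (-2 * t) * b + c := by
      rw [ha, hb, hc, ← integral_const_mul, ← integral_const_mul,
        ← integral_add (i1.const_mul _).integrable (i2.const_mul _).integrable,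
        ← integral_add ((i1.const_mul (t * t)).add (i2.const_mul (-2 * t))).integrable
          i3.integrable]
      refine integral_congr_ae (ae_of_all _ fun z => ?_)
      show Real.exp (Ψ z) * (χ z * (Av R f z - t) ^ 2) = t * t * (Real.exp (Ψ z) * χ z) +
        -2 * t * (Real.exp (Ψ z) * (χ z * Av R f z)) + Real.exp (Ψ z) * (χ z * Av R f z ^ 2)
      ring
    have h3 : a * (t * t) + (-2 * b) * t + c = (t * t) * a + (-2 * t) * b + c := by ring
    rw [h3]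
    rw [← h2]; exact h1
  have hd := discrim_le_zero key
  unfold discrim at hd
  have h4 : b ^ 2 ≤ a * c := by nlinarith
  have h5 := LF.avsq h hl hf hχ iχ h0
  rw [← hc] at h5
  rw [← ha, ← hb]
  refine (le_abs_self _).trans ?_
  rw [← Real.sqrt_mul ha0]
  refine Real.abs_le_sqrt (h4.trans (mul_le_mul_of_nonneg_left h5 ha0))

end fib

end Vale.Agent.P146.H45
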