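import Vale.Agent.P146.H45.Lt3
import Vale.Agent.P146.H45.Rare
import Vale.Agent.P146.H706G.F2HLs
import Vale.Agent.P146.H581.ChiH

/-!
P146, plan R2, row F2: **[F2-LT], the instance**: the touch number `hT` of the left side for the
frozen matrices `Cb`, the numbers `Na` and the weight `chh`.
-/

open MeasureTheory ProbabilityTheory

namespace Vale.Agent.P146.H45

open Vale.Agent.P146.H325 hiding qf
open Vale.Agent.P157.Lv Vale.Agent.P146.H425
  Vale.Agent.P146.H712 Vale.Agent.P146.R1 Vale.Agent.P146.R1C Vale.Agent.P146.H706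
  Vale.Agent.P146.R1S Vale.Agent.P146.H191 Vale.Agent.P146.H522 Vale.Agent.P146.H561
  Vale.Agent.P146.H508.Rho Matrix
open Vale.Agent.P146.H364 (Cb Pb Cb_T Cb_self Cb_col eg_Cb ind_Cb Cb_comm psd_Cb)
open Vale.Agent.P146.H332

set_option linter.unusedSectionVars false

variable {n : ℕ} {k : ℝ} {q : Par}

/-! ### the letters -/

lemma wq_qf {Y M : Fin n → Fin n → ℝ} (hM : ∀ i l, M i l = M l i) : H350.wq Y M = qf Y M M := by
  unfold H350.wq qf
  refine Finset.sum_congr rfl fun i _ => Finset.sum_congr rfl fun j _ => ?_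
  congr 1
  exact Finset.sum_congr rfl fun l _ => by rw [hM l j]

lemma aq'_aa (M1 M2 : Matrix (Fin n) (Fin n) ℝ) : aq' M1 M2 = aa M1 M2 := rfl

lemma gq_gk (κ : ℝ) {A C : Fin n → Fin n → ℝ} (hA : 1 ≤ H191.fro A) (hC : 1 ≤ H191.fro C) :
    H350.gq κ A C = gk κ (Matrix.of A) (Matrix.of C) := by
  unfold H350.gq gk
  have := aa_aq (A := Matrix.of A) (C := Matrix.of C) hA hC
  rw [← this]
  rfl

lemma Psi_gk (κ e : ℝ) (A C : Matrix (Fin n) (Fin n) ℝ) :
    Psi κ e A C = hh e A * gk κ A C * (fr C * (aa A C * (1 - aa A C ^ 2))) := by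
  unfold Psi pp gk
  ring

lemma aa_nonneg {A C : Matrix (Fin n) (Fin n) ℝ} (hA : Psd A) (hC : Psd C) : 0 ≤ aa A C :=
  div_nonneg (ip_nonneg hA hC) (mul_nonneg (nf_nonneg _) (nf_nonneg _))

/-- a column of a positive semidefinite matrix with diagonal one -/
lemma col_le {A : Matrix (Fin n) (Fin n) ℝ} (hA : Psd A) {b : Fin n} (hb : A b b = 1) :
    ∑ i, A i b ^ 2 ≤ nf A := by
  obtain ⟨u, hu⟩ : ∃ u : Fin n → ℝ, u = fun i => A i b := ⟨_, rfl⟩
  obtain ⟨δ, hδ⟩ : ∃ δ : Fin n → ℝ, δ = fun i => if i = b then 1 else 0 := ⟨_, rfl⟩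
  obtain ⟨U, hU⟩ : ∃ U, U = ∑ i, A i b ^ 2 := ⟨_, rfl⟩
  have U0 : 0 ≤ U := by rw [hU]; exact Finset.sum_nonneg fun i _ => sq_nonneg _
  have h1 := H364.bf_cs hA u δ
  have e1 : H364.bf A u δ = U := by
    rw [H364.bf_eq, hU, hu, hδ]
    refine Finset.sum_congr rfl fun i _ => ?_
    simp only [mul_ite, mul_one, mul_zero, Finset.sum_ite_eq', Finset.mem_univ, if_true]
    ring
  have e2 : H364.bf A δ δ = 1 := by
    rw [H364.bf_eq, hδ]
    simp only [mul_ite, mul_one, mul_zero, ite_mul, one_mul, zero_mul, Finset.sum_ite_eq',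
      Finset.mem_univ, if_true]
    exact hb
  have e3 : H364.bf A u u ≤ nf A * U := by
    have h2 : H364.bf A u u = ip A (fun i j => u i * u j) := by
      rw [H364.bf_eq]
      unfold ip
      exact Finset.sum_congr rfl fun i _ => Finset.sum_congr rfl fun j _ => by ring
    rw [h2]
    refine (le_abs_self _).trans ((ip_le_nf _ _).trans ?_)
    refine mul_le_mul_of_nonneg_left (le_of_eq ?_) (nf_nonneg _)
    unfold nf fr
    have e4 : ∑ i, ∑ j, (fun i j => u i * u j : Matrix (Fin n) (Fin n) ℝ) i j ^ 2 = U ^ 2 := by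
      have e5 : U = ∑ i, u i ^ 2 := by rw [hU, hu]
      rw [e5, _root_.sq (∑ i, u i ^ 2), Finset.sum_mul_sum]
      exact Finset.sum_congr rfl fun i _ => Finset.sum_congr rfl fun j _ => by ring
    rw [e4, Real.sqrt_sq U0]
  rw [e1, e2, mul_one] at h1
  rw [← hU]
  rcases U0.eq_or_lt with h | h
  · rw [← h]; exact nf_nonneg _
  · nlinarith

section sys

variable (S : CS n k q.x)

lemma nf_A_ge (hn : 0 < n) (s : ℝ) (z : Pair n → ℝ) : 1 ≤ nf (S.A s z) :=
  H350.one_le_fro hn (A := fun i j => S.A s z i j) (S.A_self s z)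

lemma nf_Cb_ge (s : ℝ) (a : Fin 4 → ℝ) (hn : 2 ≤ n) (b : Fin n) (w : K4 (Pair n) → ℝ) :
    1 ≤ nf (Matrix.of (Cb S s a b w)) := Real.one_le_sqrt.2 (fr_Cb_ge S s a hn b w)

/-- the nonlinear part is at most the norm of the matrix, averaged over the row -/
lemma Na_le_nf {s : ℝ} (hs : 0 < s) (b : Fin n) (z : Pair n → ℝ) :
    Na k (S.A s) (S.H s) s b z ≤ AvP s (row b) (fun u => nf (S.A s u)) z := by
  rw [Na_eq S hs b z]
  have e0 : EG fun u => nf (S.A s u) := H191.eg_sqrt (EG.sum _ fun i _ => EG.sum _ fun j _ =>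
    (S.eg_A s i j).pow 2)
  have h1 : 0 ≤ ∑ i, ∑ j, (√s * (k * H329.mhr S s b z i j)) ^ 2 :=
    Finset.sum_nonneg fun i _ => Finset.sum_nonneg fun j _ => sq_nonneg _
  have h2 : AvP s (row b) (fun u => ∑ i, Uz S s b i u ^ 2) z ≤
      AvP s (row b) (fun u => nf (S.A s u)) z := by
    refine AvP_mono (EG.sum _ fun i _ => (eg_Uz S s b i).pow 2) e0 (fun u => ?_) z
    refine le_trans (Finset.sum_le_sum fun i _ => ?_) (col_le (S.psd_A s u) (S.A_self s u b))
    unfold Uz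
    split_ifs
    · nlinarith [sq_nonneg (S.A s u i b)]
    · exact le_rfl
  linarith

end sys

end Vale.Agent.P146.H45
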