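import Vale.Agent.P146.H45.Lt4

/-!
P146, plan R2, row F2: **[F2-LT], the instance**: the touch number `hT` of the left side for the
frozen matrices `Cb`, the numbers `Na` and the weight `chh`, and the rare set.
-/

open MeasureTheory ProbabilityTheory

namespace Vale.Agent.P146.H45

open Vale.Agent.P146.H325 hiding qf
open Vale.Agent.P157.Lv Vale.Agent.P146.H425
  Vale.Agent.P146.H712 Vale.Agent.P146.R1 Vale.Agent.P146.R1C Vale.Agent.P146.H706
  Vale.Agent.P146.R1S Vale.Agent.P146.H191 Vale.Agent.P146.H522 Vale.Agent.P146.H561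
  Vale.Agent.P146.H508.Rho Matrix
open Vale.Agent.P146.H364 (Cb Pb Cb_T Cb_self Cb_col eg_Cb ind_Cb Cb_comm psd_Cb)
open Vale.Agent.P146.H332

set_option linter.unusedSectionVars false

variable {n : ℕ} {k : ℝ} {q : Par} (S : CS n k q.x)

/-- the relative size of the matrix of a position -/
noncomputable def gs (s K : ℝ) (a : Fin 4 → ℝ) (w : K4 (Pair n) → ℝ) : ℝ :=
  fr (S.A s (H712.lp a w)) / K ^ 2

/-- the sum of the powers of the relative sizes of the two matrices -/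
noncomputable def gR (K : ℝ) (p : ℕ) (w : K4 (Pair n) → ℝ) : ℝ :=
  gs S q.s1 K (k2 q) w ^ p + gs S q.s2 K (k3 q) w ^ p

/-- the function which is at least one on the rare set of a row -/
noncomputable def rR (K : ℝ) (p : ℕ) (b : Fin n) (w : K4 (Pair n) → ℝ) : ℝ :=
  gR S K p w ^ 2 + Av (lf (row b)) (gR S K p) w ^ 2

lemma eg_gs (s K : ℝ) (a : Fin 4 → ℝ) : EG (gs S s K a) := by
  have e : gs S s K a = fun w => (K ^ 2)⁻¹ * fr (S.A s (H712.lp a w)) := by
    funext w
    unfold gs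
    rw [div_eq_inv_mul]
  rw [e]
  refine EG.const_mul _ ?_
  unfold fr
  exact EG.sum _ fun i _ => EG.sum _ fun j _ => (eg_lp a (S.eg_A s i j)).pow 2

lemma eg_gR (K : ℝ) (p : ℕ) : EG (gR S K p) :=
  ((eg_gs S q.s1 K (k2 q)).pow p).add ((eg_gs S q.s2 K (k3 q)).pow p)

lemma eg_rR (K : ℝ) (p : ℕ) (b : Fin n) : EG (rR S K p b) :=
  ((eg_gR S K p).pow 2).add ((eg_Av _ (eg_gR S K p)).pow 2)

lemma rR_nonneg (K : ℝ) (p : ℕ) (b : Fin n) (w : K4 (Pair n) → ℝ) : 0 ≤ rR S K p b w :=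
  add_nonneg (sq_nonneg _) (sq_nonneg _)

variable {S}

lemma gs_nonneg {s K : ℝ} {a : Fin 4 → ℝ} (w : K4 (Pair n) → ℝ) : 0 ≤ gs S s K a w :=
  div_nonneg (H332.fr_nonneg _) (sq_nonneg _)

lemma gR_nonneg {K : ℝ} {p : ℕ} (w : K4 (Pair n) → ℝ) : 0 ≤ gR S K p w :=
  add_nonneg (pow_nonneg (gs_nonneg w) p) (pow_nonneg (gs_nonneg w) p)

/-- the true matrices -/
lemma nf_le_of {s K : ℝ} (hK : 0 < K) {a : Fin 4 → ℝ} {w : K4 (Pair n) → ℝ}
    (h : gs S s K a w ≤ 1) : nf (S.A s (H712.lp a w)) ≤ K := by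
  unfold gs at h
  rw [div_le_one (by positivity)] at h
  unfold nf
  exact Real.sqrt_le_iff.2 ⟨hK.le, h⟩

/-- Bernoulli: a row average above one of the size gives a row average above one of its power -/
lemma Av_gs_le {s K : ℝ} {a : Fin 4 → ℝ} {p : ℕ} (hp : 1 ≤ p) {b : Fin n}
    {w : K4 (Pair n) → ℝ} {G : (K4 (Pair n) → ℝ) → ℝ} (hG : EG G)
    (hle : ∀ w, gs S s K a w ^ p ≤ G w) (h : Av (lf (row b)) G w < 1) :
    Av (lf (row b)) (gs S s K a) w ≤ 1 := by
  by_contra hcon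
  push Not at hcon
  have e1 : ∀ w, 1 + (p : ℝ) * (gs S s K a w - 1) ≤ G w := by
    intro w
    refine le_trans ?_ (hle w)
    have h0 := gs_nonneg (S := S) (s := s) (K := K) (a := a) w
    have h2 := one_add_mul_le_pow (a := gs S s K a w - 1) (by linarith) p
    have e : (1 + (gs S s K a w - 1)) = gs S s K a w := by ring
    rwa [e] at h2
  have eg1 : EG fun w => 1 + (p : ℝ) * (gs S s K a w - 1) :=
    (EG.const 1).add (((eg_gs S s K a).sub (EG.const 1)).const_mul _)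
  have h3 := Av_mono (R := lf (row b)) eg1 hG e1 w
  have h4 : Av (lf (row b)) (fun w => 1 + (p : ℝ) * (gs S s K a w - 1)) w =
      1 + (p : ℝ) * (Av (lf (row b)) (gs S s K a) w - 1) := by
    rw [Av_add (EG.const 1) (((eg_gs S s K a).sub (EG.const 1)).const_mul _), Av_const,
      Av_const_mul, Av_sub (eg_gs S s K a) (EG.const 1), Av_const]
  rw [h4] at h3
  have hp' : (1 : ℝ) ≤ p := by exact_mod_cast hp
  nlinarith

/-- the frozen matrices -/
lemma nf_Cb_le {s K : ℝ} (hK : 0 < K) {a : Fin 4 → ℝ} {b : Fin n} {w : K4 (Pair n) → ℝ}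
    (h : Av (lf (row b)) (gs S s K a) w ≤ 1) : nf (Matrix.of (Cb S s a b w)) ≤ K := by
  have e0 : ∀ i j, EG fun w : K4 (Pair n) → ℝ => S.A s (H712.lp a w) i j := fun i j =>
    eg_lp a (S.eg_A s i j)
  have h1 : fr (Matrix.of (Cb S s a b w)) ≤
      Av (lf (row b)) (fun w => fr (S.A s (H712.lp a w))) w := by
    unfold fr
    rw [Av_sum _ fun i _ => EG.sum _ fun j _ => (e0 i j).pow 2]
    refine Finset.sum_le_sum fun i _ => ?_
    rw [Av_sum _ fun j _ => (e0 i j).pow 2]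
    refine Finset.sum_le_sum fun j _ => ?_
    simp only [Matrix.of_apply]
    unfold Cb
    split_ifs
    · rw [zero_pow two_ne_zero]
      exact Av_nonneg (fun z => sq_nonneg _) w
    · exact Av_sq_le (e0 i j) w
  have h2 : Av (lf (row b)) (gs S s K a) w =
      (K ^ 2)⁻¹ * Av (lf (row b)) (fun w => fr (S.A s (H712.lp a w))) w := by
    rw [← Av_const_mul]
    refine Av_congr (fun w => ?_) w
    unfold gs
    rw [div_eq_inv_mul]
  rw [h2, inv_mul_le_iff₀ (by positivity), mul_one] at h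
  unfold nf
  exact Real.sqrt_le_iff.2 ⟨hK.le, h1.trans h⟩

/-- the nonlinear part -/
lemma Na_le_K (hq : q.OkS) (h1 : 0 < q.s1) {K : ℝ} (hK : 0 < K) {b : Fin n}
    {w : K4 (Pair n) → ℝ} (h : Av (lf (row b)) (gs S q.s1 K (k2 q)) w ≤ 1) :
    Na k (S.A q.s1) (S.H q.s1) q.s1 b (P2 q w) ≤ K := by
  refine (Na_le_nf S h1 b (P2 q w)).trans ?_
  have e0 : EG fun u => nf (S.A q.s1 u) := H191.eg_sqrt (EG.sum _ fun i _ => EG.sum _ fun j _ =>
    (S.eg_A q.s1 i j).pow 2)
  rw [← Av_lf_P2_s hq (f := fun u => nf (S.A q.s1 u)) e0 (row b) w]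
  have e1 : EG fun w : K4 (Pair n) → ℝ => nf (S.A q.s1 (P2 q w)) := by
    have := eg_lp (k2 q) e0
    have e : (fun w : K4 (Pair n) → ℝ => nf (S.A q.s1 (P2 q w))) =
        fun w => nf (S.A q.s1 (H712.lp (k2 q) w)) := by
      funext w
      rw [show P2 q w = H712.lp (k2 q) w from P2_lp w]
    rw [e]
    exact this
  have e2 : ∀ w : K4 (Pair n) → ℝ, nf (S.A q.s1 (P2 q w)) ≤
      K / 2 * (gs S q.s1 K (k2 q) w + 1) := by
    intro w
    rw [show P2 q w = H712.lp (k2 q) w from P2_lp w]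
    have h3 := nf_nonneg (S.A q.s1 (H712.lp (k2 q) w))
    have h4 : gs S q.s1 K (k2 q) w = (nf (S.A q.s1 (H712.lp (k2 q) w)) / K) ^ 2 := by
      unfold gs
      rw [div_pow, nf_sq]
    rw [h4]
    obtain ⟨r, hr⟩ : ∃ r, r = nf (S.A q.s1 (H712.lp (k2 q) w)) / K := ⟨_, rfl⟩
    have h5 : nf (S.A q.s1 (H712.lp (k2 q) w)) = K * r := by rw [hr]; field_simp
    rw [← hr, h5]
    nlinarith [mul_nonneg hK.le (sq_nonneg (r - 1))]
  have h3 := Av_mono (R := lf (row b)) e1
    (((eg_gs S q.s1 K (k2 q)).add (EG.const 1)).const_mul (K / 2)) e2 w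
  refine h3.trans ?_
  rw [Av_const_mul, Av_add (eg_gs S q.s1 K (k2 q)) (EG.const 1), Av_const]
  nlinarith

/-- **The dichotomy.** -/
theorem rR_dich (hq : q.OkS) (h1 : 0 < q.s1) {K : ℝ} (hK : 0 < K) {p : ℕ} (hp : 1 ≤ p)
    (b : Fin n) (w : K4 (Pair n) → ℝ) :
    (nf (S.A q.s1 (H712.lp (k2 q) w)) ≤ K ∧ nf (S.A q.s2 (H712.lp (k3 q) w)) ≤ K ∧
      nf (Matrix.of (Cb S q.s1 (k2 q) b w)) ≤ K ∧ nf (Matrix.of (Cb S q.s2 (k3 q) b w)) ≤ K ∧
      Na k (S.A q.s1) (S.H q.s1) q.s1 b (P2 q w) ≤ K) ∨ 1 ≤ rR S K p b w := by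
  by_cases c1 : gR S K p w < 1
  · by_cases c2 : Av (lf (row b)) (gR S K p) w < 1
    · left
      have a1 : gs S q.s1 K (k2 q) w ^ p ≤ gR S K p w := by
        unfold gR
        have := pow_nonneg (gs_nonneg (S := S) (s := q.s2) (K := K) (a := k3 q) w) p
        linarith
      have a2 : gs S q.s2 K (k3 q) w ^ p ≤ gR S K p w := by
        unfold gR
        have := pow_nonneg (gs_nonneg (S := S) (s := q.s1) (K := K) (a := k2 q) w) p
        linarith
      have b1 : gs S q.s1 K (k2 q) w ≤ 1 := by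
        by_contra hcon
        push Not at hcon
        have := one_le_pow₀ (n := p) hcon.le
        linarith
      have b2 : gs S q.s2 K (k3 q) w ≤ 1 := by
        by_contra hcon
        push Not at hcon
        have := one_le_pow₀ (n := p) hcon.le
        linarith
      have d1 : Av (lf (row b)) (gs S q.s1 K (k2 q)) w ≤ 1 :=
        Av_gs_le hp (eg_gR S K p) (fun w => by
          unfold gR
          have := pow_nonneg (gs_nonneg (S := S) (s := q.s2) (K := K) (a := k3 q) w) p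
          linarith) c2
      have d2 : Av (lf (row b)) (gs S q.s2 K (k3 q)) w ≤ 1 :=
        Av_gs_le hp (eg_gR S K p) (fun w => by
          unfold gR
          have := pow_nonneg (gs_nonneg (S := S) (s := q.s1) (K := K) (a := k2 q) w) p
          linarith) c2
      exact ⟨nf_le_of hK b1, nf_le_of hK b2, nf_Cb_le hK d1, nf_Cb_le hK d2,
        Na_le_K hq h1 hK d1⟩
    · right
      push Not at c2
      unfold rR
      nlinarith [sq_nonneg (gR S K p w)]
  · right
    push Not at c1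
    unfold rR
    nlinarith [sq_nonneg (Av (lf (row b)) (gR S K p) w)]

/-- **The rare set is rare in the true law.** -/
theorem rR_rare {G : GD (Pair n)} (hq : q.OkS) (hG : G.Ok) (hr : GRow k q G)
    (hl : 288 * q.x ^ 2 * k ^ 2 * n ≤ 1) (K : ℝ) (p : ℕ) (b : Fin n) :
    Im (densG q G S.F) (rR S K p b) ≤
      15 / 7 * Im (densG q G S.F) (fun w => gR S K p w ^ 2) := by
  have eD : EG (densG q G S.F) := eg_densG S.c11 hq.x0 hG
  have key := LF.avsq (lf_row_SG S hq hG hr b) (hl_row hl) (eg_gR S K p) (EG.const 1)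
    (fun _ _ => rfl) (fun _ => zero_le_one)
  have e1 : Im (densG q G S.F) (rR S K p b) = Im (densG q G S.F) (fun w => gR S K p w ^ 2) +
      Im (densG q G S.F) (fun w => Av (lf (row b)) (gR S K p) w ^ 2) :=
    Im_add eD ((eg_gR S K p).pow 2) ((eg_Av _ (eg_gR S K p)).pow 2)
  have e2 : Im (densG q G S.F) (fun w => Av (lf (row b)) (gR S K p) w ^ 2) ≤
      8 / 7 * Im (densG q G S.F) (fun w => gR S K p w ^ 2) := by
    unfold Im
    simp only [one_mul] at key
    exact key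
  rw [e1]
  linarith

end Vale.Agent.P146.H45
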