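import Vale.Agent.P146.H45.Lt5

/-!
P146, plan R2, row F2: **[F2-LT]**: the touch number `hT` of the left side, literally, and its
error in the numbers `Σ_b |Y - Y_b|²` and `Σ_b |Y_b| |C_i - Cb_i|²`.
-/

open MeasureTheory ProbabilityTheory

namespace Vale.Agent.P146.H45

open Vale.Agent.P146.H325 hiding qf
open Vale.Agent.P157.Lv Vale.Agent.P146.H425
  Vale.Agent.P146.H712 Vale.Agent.P146.R1 Vale.Agent.P146.R1C Vale.Agent.P146.H706
  Vale.Agent.P146.R1S Vale.Agent.P146.H191 Vale.Agent.P146.H522 Vale.Agent.P146.H561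
  Vale.Agent.P146.H508.Rho Matrix
open Vale.Agent.P146.H364 (Cb Pb Cb_T Cb_self Cb_col eg_Cb ind_Cb Cb_comm psd_Cb)
open Vale.Agent.P146.H332

set_option linter.unusedSectionVars false

variable {n : ℕ} {k : ℝ} {q : Par} (S : CS n k q.x)

/-- the matrix of the first late position -/
noncomputable def Aw1 (w : K4 (Pair n) → ℝ) (i j : Fin n) : ℝ :=
  S.A q.s1 (H712.lp (k2 q) w) i j

/-- the matrix of the second late position -/
noncomputable def Aw2 (w : K4 (Pair n) → ℝ) (i j : Fin n) : ℝ :=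
  S.A q.s2 (H712.lp (k3 q) w) i j

/-- the error of [F2-LT] -/
noncomputable def eLT (φ : (K4 (Pair n) → ℝ) → ℝ) (κ e K ZY : ℝ) (p : ℕ) (Y : MF n)
    (Yb : Fin n → MF n) : ℝ :=
  K * (2 * K ^ 4 / e ^ 2 * ∑ b, Im φ (fun w => H191.fro fun i j => Y w i j - Yb b w i j) +
      cLt K κ e * ∑ b, Im φ (fun w => H191.fro (Yb b w) *
        (H191.fro (fun i j => Aw1 S w i j - Cb S q.s1 (k2 q) b w i j) +
          H191.fro (fun i j => Aw2 S w i j - Cb S q.s2 (k3 q) b w i j)))) +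
    2 * ZY * (n : ℝ) ^ 5 / e ^ 2 * ∑ b, Im φ (rR S K p b)

variable {S}

lemma Na_le_n (hq : q.OkS) (h1 : 0 < q.s1) (b : Fin n) (z : Pair n → ℝ) :
    Na k (S.A q.s1) (S.H q.s1) q.s1 b z ≤ n := by
  refine (Na_le_nf S h1 b z).trans ?_
  have e0 : EG fun u => nf (S.A q.s1 u) := H191.eg_sqrt (EG.sum _ fun i _ => EG.sum _ fun j _ =>
    (S.eg_A q.s1 i j).pow 2)
  refine (AvP_mono e0 (EG.const (n : ℝ)) (fun u => ?_) z).trans (le_of_eq (by rw [AvP_const]))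
  unfold nf
  refine Real.sqrt_le_iff.2 ⟨by positivity, ?_⟩
  exact S.fr_A_le q.s1 u

/-- **[F2-LT]: the number `hT` of `hL0`.** -/
theorem lt_hT {G : GD (Pair n)} (hq : q.OkS) (hG : G.Ok) (hn : 2 ≤ n) (h1 : 0 < q.s1)
    {κ e K ZY : ℝ} (hκ : 0 < κ) (hκ1 : κ ≤ 1) (he : 0 < e) (heK : √e ≤ K) {p : ℕ} (hp : 1 ≤ p)
    {Y : MF n} {Yb : Fin n → MF n} (eY : ∀ i j, EG fun w => Y w i j)
    (eYb : ∀ b i j, EG fun w => Yb b w i j)
    (pYb : ∀ b w, ∀ v : Fin n → ℝ, 0 ≤ ∑ i, ∑ j, Yb b w i j * (v i * v j))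
    (sYb : ∀ b w i j, Yb b w i j = Yb b w j i) (hY : ∀ w, H191.fro (Y w) ≤ ZY) :
    Im (densG q G S.F) (fun w => ∑ b,
        (H350.wq (Y w) (Aw1 S w) * hh e (S.A q.s1 (P2 q w))) *
          gk κ (S.A q.s1 (P2 q w)) (S.A q.s2 (P3 q w)) *
        (fr (S.A q.s2 (P3 q w)) *
          (aa (S.A q.s1 (P2 q w)) (S.A q.s2 (P3 q w)) *
            (1 - aa (S.A q.s1 (P2 q w)) (S.A q.s2 (P3 q w)) ^ 2)) *
          Na k (S.A q.s1) (S.H q.s1) q.s1 b (P2 q w))) ≤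
      ∑ b, Im (densG q G S.F) (fun w => H581.CH.chh κ e (Yb b) (Cb S q.s1 (k2 q) b)
        (Cb S q.s2 (k3 q) b) w * mnb S q b w) + eLT S (densG q G S.F) κ e K ZY p Y Yb := by
  have h2 : 0 < q.s2 := h1.trans_le hq.h12
  have hn0 : 0 < n := by omega
  have hse : 0 < √e := Real.sqrt_pos.2 he
  have hK : 0 < K := hse.trans_le heK
  have hZY : 0 ≤ ZY := (H191.fro_nonneg _).trans (hY fun _ => 0)
  have eD : EG (densG q G S.F) := eg_densG S.c11 hq.x0 hG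
  have eP2 : ∀ w : K4 (Pair n) → ℝ, P2 q w = H712.lp (k2 q) w := fun w => P2_lp w
  have eP3 : ∀ w : K4 (Pair n) → ℝ, P3 q w = H712.lp (k3 q) w := fun w => P3_lp w
  have eA1 : ∀ w : K4 (Pair n) → ℝ, S.A q.s1 (P2 q w) = Matrix.of (Aw1 S w) := fun w => by
    rw [eP2]; rfl
  have eA2 : ∀ w : K4 (Pair n) → ℝ, S.A q.s2 (P3 q w) = Matrix.of (Aw2 S w) := fun w => by
    rw [eP3]; rfl
  have sA1 : ∀ w i l, Aw1 S w i l = Aw1 S w l i := fun w i l => S.A_comm _ _ i l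
  have g1 : ∀ w, 1 ≤ H191.fro (Aw1 S w) := fun w => nf_A_ge S hn0 _ _
  have g2 : ∀ w, 1 ≤ H191.fro (Aw2 S w) := fun w => nf_A_ge S hn0 _ _
  have m1 : ∀ b w, 1 ≤ H191.fro (Cb S q.s1 (k2 q) b w) := fun b w => nf_Cb_ge S _ _ hn b w
  have m2 : ∀ b w, 1 ≤ H191.fro (Cb S q.s2 (k3 q) b w) := fun b w => nf_Cb_ge S _ _ hn b w
  have eNa : ∀ b, EG fun w : K4 (Pair n) → ℝ => Na k (S.A q.s1) (S.H q.s1) q.s1 b (P2 q w) := by
    intro b
    have := eg_lp (k2 q) (eg_Na S h1 b)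
    have e : (fun w : K4 (Pair n) → ℝ => Na k (S.A q.s1) (S.H q.s1) q.s1 b (P2 q w)) =
        fun w => Na k (S.A q.s1) (S.H q.s1) q.s1 b (H712.lp (k2 q) w) := by
      funext w; rw [eP2]
    rw [e]; exact this
  have key := lt_num (φ := densG q G S.F) (K := K) (KN := K) (Z := 2 * ZY * (n : ℝ) ^ 5 / e ^ 2)
    (C1 := Aw1 S) (C2 := Aw2 S) (Yb := Yb) (Y := Y)
    (M1 := fun b => Cb S q.s1 (k2 q) b) (M2 := fun b => Cb S q.s2 (k3 q) b)
    (Nb := fun b w => Na k (S.A q.s1) (S.H q.s1) q.s1 b (P2 q w)) (r := rR S K p)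
    eD (fun w => densG_nonneg w) hκ hκ1 he heK (by positivity) hK.le eY eYb
    (fun i j => eg_lp (k2 q) (S.eg_A q.s1 i j)) (fun i j => eg_lp (k3 q) (S.eg_A q.s2 i j))
    (fun b i j => eg_Cb i j) (fun b i j => eg_Cb i j) eNa (eg_rR S K p)
    (fun b w => pYb b w) sYb g1 g2 m1 m2
    (fun b w => aa_nonneg (psd_Cb h1 w) (psd_Cb h2 w)) (fun b w => Na_nonneg _ _ _)
    (fun b w => rR_nonneg S K p b w) (fun b w => rR_dich hq h1 hK hp b w) ?_
  · have e1 : ∀ w, (∑ b, (H350.wq (Y w) (Aw1 S w) * hh e (S.A q.s1 (P2 q w))) *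
          gk κ (S.A q.s1 (P2 q w)) (S.A q.s2 (P3 q w)) *
        (fr (S.A q.s2 (P3 q w)) *
          (aa (S.A q.s1 (P2 q w)) (S.A q.s2 (P3 q w)) *
            (1 - aa (S.A q.s1 (P2 q w)) (S.A q.s2 (P3 q w)) ^ 2)) *
          Na k (S.A q.s1) (S.H q.s1) q.s1 b (P2 q w))) =
        ∑ b, qf (Y w) (Aw1 S w) (Aw1 S w) *
          Psi κ e (Matrix.of (Aw1 S w)) (Matrix.of (Aw2 S w)) *
            Na k (S.A q.s1) (S.H q.s1) q.s1 b (P2 q w) := by
      intro w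
      refine Finset.sum_congr rfl fun b _ => ?_
      rw [wq_qf (sA1 w), eA1, eA2, Psi_gk]
      ring
    have e2 : ∀ b w, H581.CH.chh κ e (Yb b) (Cb S q.s1 (k2 q) b) (Cb S q.s2 (k3 q) b) w *
        mnb S q b w = qf (Yb b w) (Cb S q.s1 (k2 q) b w) (Cb S q.s1 (k2 q) b w) *
          Psi κ e (Matrix.of (Cb S q.s1 (k2 q) b w)) (Matrix.of (Cb S q.s2 (k3 q) b w)) *
            Na k (S.A q.s1) (S.H q.s1) q.s1 b (P2 q w) := by
      intro b w
      unfold H581.CH.chh H581.CH.gh mnb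
      rw [wq_qf (fun i l => Cb_comm w i l), gq_gk κ (m1 b w) (m2 b w), H581.CH.hq_eq, Psi_gk,
        aq'_aa]
      ring
    simp only [e1, e2]
    unfold eLT
    exact key
  · intro b w
    have c1 : |qf (Y w) (Aw1 S w) (Aw1 S w)| ≤ ZY * ((n : ℝ) * n) := by
      refine (qf_le _ _ _).trans (mul_le_mul (hY w) ?_ (mul_nonneg (H191.fro_nonneg _) (H191.fro_nonneg _)) hZY)
      have c2 : H191.fro (Aw1 S w) ≤ n := by
        show nf (S.A q.s1 (H712.lp (k2 q) w)) ≤ n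
        unfold nf
        exact Real.sqrt_le_iff.2 ⟨by positivity, S.fr_A_le q.s1 _⟩
      exact mul_le_mul c2 c2 (H191.fro_nonneg _) (by positivity)
    have c3 : |Psi κ e (Matrix.of (Aw1 S w)) (Matrix.of (Aw2 S w))| ≤
        2 / e ^ 2 * (n : ℝ) ^ 2 := by
      refine (Psi_abs hκ he _ _).trans (mul_le_mul_of_nonneg_left ?_ (by positivity))
      exact S.fr_A_le q.s2 _
    have c4 := Na_le_n (S := S) hq h1 b (P2 q w)
    have c5 := Na_nonneg (k := k) (A := S.A q.s1) (H := S.H q.s1) q.s1 b (P2 q w)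
    refine (le_abs_self _).trans ?_
    rw [abs_mul, abs_mul, abs_of_nonneg c5]
    calc _ ≤ ZY * ((n : ℝ) * n) * (2 / e ^ 2 * (n : ℝ) ^ 2) * n :=
          mul_le_mul (mul_le_mul c1 c3 (abs_nonneg _) (by positivity)) c4 c5 (by positivity)
      _ = _ := by ring

/-! ### Cauchy-Schwarz for the numbers -/

section cs

variable {φ : (K4 (Pair n) → ℝ) → ℝ}

/-- Cauchy-Schwarz over the rows and the law, with a nonnegative weight -/
lemma cs_w (h : EG φ) (h0 : ∀ w, 0 ≤ φ w) {χ f : Fin n → (K4 (Pair n) → ℝ) → ℝ}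
    (eχ : ∀ b, EG (χ b)) (ef : ∀ b, EG (f b)) (χ0 : ∀ b w, 0 ≤ χ b w) :
    ∑ b, Im φ (fun w => χ b w * f b w) ≤
      √(∑ b, Im φ (χ b)) * √(∑ b, Im φ (fun w => χ b w * f b w ^ 2)) := by
  obtain ⟨a, ha⟩ : ∃ a, a = ∑ b, Im φ (χ b) := ⟨_, rfl⟩
  obtain ⟨m, hm⟩ : ∃ m, m = ∑ b, Im φ (fun w => χ b w * f b w) := ⟨_, rfl⟩
  obtain ⟨c, hc⟩ : ∃ c, c = ∑ b, Im φ (fun w => χ b w * f b w ^ 2) := ⟨_, rfl⟩
  have ha0 : 0 ≤ a := by
    rw [ha]; exact Finset.sum_nonneg fun b _ => Im_nonneg' h0 (χ0 b)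
  have key : ∀ t : ℝ, 0 ≤ a * (t * t) + (-2 * m) * t + c := by
    intro t
    have h1 : ∀ b, Im φ (fun w => χ b w * (f b w - t) ^ 2) =
        (t * t) * Im φ (χ b) + (-2 * t) * Im φ (fun w => χ b w * f b w) +
          Im φ (fun w => χ b w * f b w ^ 2) := by
      intro b
      rw [← Im_const_mul, ← Im_const_mul, ← Im_add h ((eχ b).const_mul _)
        (((eχ b).mul (ef b)).const_mul _), ← Im_add h (((eχ b).const_mul _).add
        (((eχ b).mul (ef b)).const_mul _)) ((eχ b).mul ((ef b).pow 2))]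
      refine Im_congr fun w => ?_
      ring
    have h2 : 0 ≤ ∑ b, Im φ (fun w => χ b w * (f b w - t) ^ 2) :=
      Finset.sum_nonneg fun b _ => Im_nonneg' h0 fun w => mul_nonneg (χ0 b w) (sq_nonneg _)
    simp only [h1, Finset.sum_add_distrib, ← Finset.mul_sum] at h2
    rw [← ha, ← hm, ← hc] at h2
    linarith
  have hd := discrim_le_zero key
  unfold discrim at hd
  rw [← ha, ← hm, ← hc, ← Real.sqrt_mul ha0]
  refine (le_abs_self _).trans (Real.abs_le_sqrt ?_)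
  nlinarith

end cs

end Vale.Agent.P146.H45
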