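import Vale.Agent.P146.H45.LtN

/-!
P146, plan R2, row F2: **the number of [F2-LT]**: the error `eLT` in the numbers.
-/

open MeasureTheory ProbabilityTheory

namespace Vale.Agent.P146.H45

open Vale.Agent.P146.H325 hiding qf
open Vale.Agent.P157.Lv Vale.Agent.P146.H425
  Vale.Agent.P146.H712 Vale.Agent.P146.R1 Vale.Agent.P146.R1C Vale.Agent.P146.H706
  Vale.Agent.P146.R1S Vale.Agent.P146.H191 Vale.Agent.P146.H522 Vale.Agent.P146.H561
  Vale.Agent.P146.H508.Rho Matrix Vale.Agent.P146.Cum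
open Vale.Agent.P146.H364 (Cb Pb Cb_T Cb_self Cb_col eg_Cb ind_Cb Cb_comm psd_Cb)
open Vale.Agent.P146.H332

set_option linter.unusedSectionVars false

variable {n : ℕ} {k : ℝ} {q : Par} {S : CS n k q.x} {G : GD (Pair n)}

/-- **[F2-LT] in numbers.** -/
theorem eLT_num (hq : q.OkS) (hG : G.Ok) (hr : GRow k q G)
    (hl : 288 * q.x ^ 2 * k ^ 2 * n ≤ 1) {κ e K ZY : ℝ} (hκ : 0 < κ) (he : 0 < e) (hK : 0 < K)
    (hZY : 0 ≤ ZY) {p : ℕ} {Y : MF n} {Yb : Fin n → MF n} (eY : ∀ i j, EG fun w => Y w i j)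
    (eYb : ∀ b i j, EG fun w => Yb b w i j) {I1 SY DD T1 T2 δ : ℝ}
    (hI1 : Im (densG q G S.F) (fun _ => 1) ≤ I1)
    (hSY : Im (densG q G S.F) (fun w => H191.fro (Y w)) ≤ SY)
    (hDD : ∑ b, Im (densG q G S.F) (fun w => (H191.fro fun i j => Y w i j - Yb b w i j) ^ 2) ≤
      DD)
    (hT1 : ∑ b, Im (densG q G S.F) (fun w => H191.fro (Yb b w) *
      (H191.fro fun i j => Aw1 S w i j - Cb S q.s1 (k2 q) b w i j) ^ 2) ≤ T1)
    (hT2 : ∑ b, Im (densG q G S.F) (fun w => H191.fro (Yb b w) *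
      (H191.fro fun i j => Aw2 S w i j - Cb S q.s2 (k3 q) b w i j) ^ 2) ≤ T2)
    (hδ : Im (densG q G S.F) (fun w => gR S K p w ^ 2) ≤ δ) :
    eLT S (densG q G S.F) κ e K ZY p Y Yb ≤
      K * (2 * K ^ 4 / e ^ 2 * (√(n * I1) * √DD) +
        cLt K κ e * (√(n * SY + √(n * I1) * √DD) * (√T1 + √T2))) +
      2 * ZY * (n : ℝ) ^ 5 / e ^ 2 * (n * (15 / 7 * δ)) := by
  have eD : EG (densG q G S.F) := eg_densG S.c11 hq.x0 hG
  have D0 : ∀ w, 0 ≤ densG q G S.F w := fun w => densG_nonneg w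
  have hse : 0 < √e := Real.sqrt_pos.2 he
  have hc : 0 ≤ cLt K κ e := by unfold cLt; positivity
  have ed : ∀ b, EG fun w => H191.fro fun i j => Y w i j - Yb b w i j := fun b =>
    eg_fro (X := fun w i j => Y w i j - Yb b w i j) fun i j => (eY i j).sub (eYb b i j)
  have eA1 : ∀ i j, EG fun w => Aw1 S w i j := fun i j => eg_lp (k2 q) (S.eg_A q.s1 i j)
  have eA2 : ∀ i j, EG fun w => Aw2 S w i j := fun i j => eg_lp (k3 q) (S.eg_A q.s2 i j)
  have e1 : ∀ b, EG fun w => H191.fro fun i j => Aw1 S w i j - Cb S q.s1 (k2 q) b w i j :=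
    fun b => eg_fro (X := fun w i j => Aw1 S w i j - Cb S q.s1 (k2 q) b w i j)
      fun i j => (eA1 i j).sub (eg_Cb i j)
  have e2 : ∀ b, EG fun w => H191.fro fun i j => Aw2 S w i j - Cb S q.s2 (k3 q) b w i j :=
    fun b => eg_fro (X := fun w i j => Aw2 S w i j - Cb S q.s2 (k3 q) b w i j)
      fun i j => (eA2 i j).sub (eg_Cb i j)
  have eYf : ∀ b, EG fun w => H191.fro (Yb b w) := fun b => eg_fro (eYb b)
  -- the constant one over the rows
  have hI : ∑ _b : Fin n, Im (densG q G S.F) (fun _ => 1) ≤ n * I1 := by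
    rw [Finset.sum_const, Finset.card_univ, Fintype.card_fin, nsmul_eq_mul]
    exact mul_le_mul_of_nonneg_left hI1 (Nat.cast_nonneg n)
  -- the deep part
  have a0 : ∑ b, Im (densG q G S.F) (fun w => H191.fro fun i j => Y w i j - Yb b w i j) ≤
      √(n * I1) * √DD := by
    have h1 := cs_w (φ := densG q G S.F) eD D0 (χ := fun _ _ => 1)
      (f := fun b w => H191.fro fun i j => Y w i j - Yb b w i j) (fun _ => EG.const 1) ed
      (fun _ _ => zero_le_one)
    simp only [one_mul] at h1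
    exact h1.trans (mul_le_mul (Real.sqrt_le_sqrt hI) (Real.sqrt_le_sqrt hDD)
      (Real.sqrt_nonneg _) (Real.sqrt_nonneg _))
  -- the norm of the frozen matrices
  have a1 : ∑ b, Im (densG q G S.F) (fun w => H191.fro (Yb b w)) ≤
      n * SY + √(n * I1) * √DD := by
    have h1 := fro_unf (φ := densG q G S.F) eD D0 eY eYb (X := fun _ _ => 1)
      (fun _ => EG.const 1) (fun _ _ => zero_le_one)
    simp only [mul_one, one_pow] at h1
    refine h1.trans (add_le_add ?_ ?_)
    · rw [Finset.sum_const, Finset.card_univ, Fintype.card_fin, nsmul_eq_mul]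
      exact mul_le_mul_of_nonneg_left hSY (Nat.cast_nonneg n)
    · rw [mul_comm]
      exact mul_le_mul (Real.sqrt_le_sqrt hI) (Real.sqrt_le_sqrt hDD)
        (Real.sqrt_nonneg _) (Real.sqrt_nonneg _)
  have b1 := cs_w (φ := densG q G S.F) eD D0 (χ := fun b w => H191.fro (Yb b w))
    (f := fun b w => H191.fro fun i j => Aw1 S w i j - Cb S q.s1 (k2 q) b w i j) eYf e1
    (fun b w => H191.fro_nonneg _)
  have b2 := cs_w (φ := densG q G S.F) eD D0 (χ := fun b w => H191.fro (Yb b w))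
    (f := fun b w => H191.fro fun i j => Aw2 S w i j - Cb S q.s2 (k3 q) b w i j) eYf e2
    (fun b w => H191.fro_nonneg _)
  have a2 : ∑ b, Im (densG q G S.F) (fun w => H191.fro (Yb b w) *
        (H191.fro (fun i j => Aw1 S w i j - Cb S q.s1 (k2 q) b w i j) +
          H191.fro (fun i j => Aw2 S w i j - Cb S q.s2 (k3 q) b w i j))) ≤
      √(n * SY + √(n * I1) * √DD) * (√T1 + √T2) := by
    have h1 : ∀ b, Im (densG q G S.F) (fun w => H191.fro (Yb b w) *
        (H191.fro (fun i j => Aw1 S w i j - Cb S q.s1 (k2 q) b w i j) +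
          H191.fro (fun i j => Aw2 S w i j - Cb S q.s2 (k3 q) b w i j))) =
        Im (densG q G S.F) (fun w => H191.fro (Yb b w) *
          H191.fro (fun i j => Aw1 S w i j - Cb S q.s1 (k2 q) b w i j)) +
        Im (densG q G S.F) (fun w => H191.fro (Yb b w) *
          H191.fro (fun i j => Aw2 S w i j - Cb S q.s2 (k3 q) b w i j)) := by
      intro b
      rw [← Im_add eD ((eYf b).mul (e1 b)) ((eYf b).mul (e2 b))]
      exact Im_congr fun w => by ring
    simp only [h1, Finset.sum_add_distrib]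
    rw [mul_add]
    refine add_le_add (b1.trans ?_) (b2.trans ?_)
    · exact mul_le_mul (Real.sqrt_le_sqrt a1) (Real.sqrt_le_sqrt hT1) (Real.sqrt_nonneg _)
        (Real.sqrt_nonneg _)
    · exact mul_le_mul (Real.sqrt_le_sqrt a1) (Real.sqrt_le_sqrt hT2) (Real.sqrt_nonneg _)
        (Real.sqrt_nonneg _)
  -- the rare set
  have a3 : ∑ b, Im (densG q G S.F) (rR S K p b) ≤ n * (15 / 7 * δ) := by
    refine (Finset.sum_le_sum fun b _ => rR_rare hq hG hr hl K p b).trans ?_
    rw [Finset.sum_const, Finset.card_univ, Fintype.card_fin, nsmul_eq_mul]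
    exact mul_le_mul_of_nonneg_left (mul_le_mul_of_nonneg_left hδ (by norm_num))
      (Nat.cast_nonneg n)
  unfold eLT
  refine add_le_add (mul_le_mul_of_nonneg_left (add_le_add
    (mul_le_mul_of_nonneg_left a0 (by positivity)) (mul_le_mul_of_nonneg_left a2 hc)) hK.le)
    (mul_le_mul_of_nonneg_left a3 (by positivity))

end Vale.Agent.P146.H45
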