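import Vale.Agent.P146.H45.Lt6
import Vale.Agent.P146.H350.TchK
import Vale.Agent.P146.H508.Xb

/-!
P146, plan R2, row F2: **the number of [F2-LT]**: the touches with the weight `|Y_b|` in terms of
the rates with the weight `|Y|`, and the error `eLT`.
-/

open MeasureTheory ProbabilityTheory

namespace Vale.Agent.P146.H45

open Vale.Agent.P146.H325 hiding qf
open Vale.Agent.P157.Lv Vale.Agent.P146.H425
  Vale.Agent.P146.H712 Vale.Agent.P146.R1 Vale.Agent.P146.R1C Vale.Agent.P146.H706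
  Vale.Agent.P146.R1S Vale.Agent.P146.H191 Vale.Agent.P146.H522 Vale.Agent.P146.H561
  Vale.Agent.P146.H508.Rho Matrix Vale.Agent.P146.Cum
open Vale.Agent.P146.H364 (Cb Pb Cb_T Cb_self Cb_col eg_Cb ind_Cb Cb_comm psd_Cb)
open Vale.Agent.P146.H332

set_option linter.unusedSectionVars false

variable {n : ℕ} {k : ℝ} {q : Par}

section gen

variable {φ : (K4 (Pair n) → ℝ) → ℝ}

/-- Cauchy-Schwarz over the rows and the law -/
lemma cs_2 (h : EG φ) (h0 : ∀ w, 0 ≤ φ w) {f g : Fin n → (K4 (Pair n) → ℝ) → ℝ}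
    (ef : ∀ b, EG (f b)) (eg : ∀ b, EG (g b)) :
    ∑ b, Im φ (fun w => f b w * g b w) ≤
      √(∑ b, Im φ (fun w => f b w ^ 2)) * √(∑ b, Im φ (fun w => g b w ^ 2)) := by
  obtain ⟨a, ha⟩ : ∃ a, a = ∑ b, Im φ (fun w => f b w ^ 2) := ⟨_, rfl⟩
  obtain ⟨m, hm⟩ : ∃ m, m = ∑ b, Im φ (fun w => f b w * g b w) := ⟨_, rfl⟩
  obtain ⟨c, hc⟩ : ∃ c, c = ∑ b, Im φ (fun w => g b w ^ 2) := ⟨_, rfl⟩
  have ha0 : 0 ≤ a := by
    rw [ha]; exact Finset.sum_nonneg fun b _ => Im_nonneg' h0 fun w => sq_nonneg _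
  have key : ∀ t : ℝ, 0 ≤ a * (t * t) + (-2 * m) * t + c := by
    intro t
    have h1 : ∀ b, Im φ (fun w => (g b w - t * f b w) ^ 2) =
        (t * t) * Im φ (fun w => f b w ^ 2) + (-2 * t) * Im φ (fun w => f b w * g b w) +
          Im φ (fun w => g b w ^ 2) := by
      intro b
      rw [← Im_const_mul, ← Im_const_mul, ← Im_add h (((ef b).pow 2).const_mul _)
        (((ef b).mul (eg b)).const_mul _), ← Im_add h ((((ef b).pow 2).const_mul _).add
        (((ef b).mul (eg b)).const_mul _)) ((eg b).pow 2)]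
      refine Im_congr fun w => ?_
      ring
    have h2 : 0 ≤ ∑ b, Im φ (fun w => (g b w - t * f b w) ^ 2) :=
      Finset.sum_nonneg fun b _ => Im_nonneg' h0 fun w => sq_nonneg _
    simp only [h1, Finset.sum_add_distrib, ← Finset.mul_sum] at h2
    rw [← ha, ← hm, ← hc] at h2
    linarith
  have hd := discrim_le_zero key
  unfold discrim at hd
  rw [← ha, ← hm, ← hc, ← Real.sqrt_mul ha0]
  refine (le_abs_self _).trans (Real.abs_le_sqrt ?_)
  nlinarith

/-- replacing the frozen norm by the true one -/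
lemma fro_unf (h : EG φ) (h0 : ∀ w, 0 ≤ φ w) {Y : MF n} {Yb : Fin n → MF n}
    (eY : ∀ i j, EG fun w => Y w i j) (eYb : ∀ b i j, EG fun w => Yb b w i j)
    {X : Fin n → (K4 (Pair n) → ℝ) → ℝ} (eX : ∀ b, EG (X b)) (X0 : ∀ b w, 0 ≤ X b w) :
    ∑ b, Im φ (fun w => H191.fro (Yb b w) * X b w) ≤
      ∑ b, Im φ (fun w => H191.fro (Y w) * X b w) +
        √(∑ b, Im φ (fun w => (H191.fro fun i j => Y w i j - Yb b w i j) ^ 2)) *
          √(∑ b, Im φ (fun w => X b w ^ 2)) := by
  have ed : ∀ b, EG fun w => H191.fro fun i j => Y w i j - Yb b w i j := fun b =>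
    eg_fro (X := fun w i j => Y w i j - Yb b w i j) fun i j => (eY i j).sub (eYb b i j)
  have h1 : ∀ b, Im φ (fun w => H191.fro (Yb b w) * X b w) ≤
      Im φ (fun w => H191.fro (Y w) * X b w) +
        Im φ (fun w => (H191.fro fun i j => Y w i j - Yb b w i j) * X b w) := by
    intro b
    rw [← Im_add h ((eg_fro eY).mul (eX b)) ((ed b).mul (eX b))]
    refine Im_mono' h h0 ((eg_fro (eYb b)).mul (eX b)) (((eg_fro eY).mul (eX b)).add
      ((ed b).mul (eX b))) fun w => ?_
    rw [← add_mul]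
    refine mul_le_mul_of_nonneg_right ?_ (X0 b w)
    have h2 := abs_le.1 (nf_sub_le (Matrix.of (Y w)) (Matrix.of (Yb b w)))
    have h3 : nf (Matrix.of (Yb b w)) ≤ nf (Matrix.of (Y w)) +
      nf (Matrix.of (Y w) - Matrix.of (Yb b w)) := by linarith [h2.1]
    exact h3
  refine (Finset.sum_le_sum fun b _ => h1 b).trans ?_
  rw [Finset.sum_add_distrib]
  exact add_le_add le_rfl (cs_2 h h0 ed eX)

end gen

variable {S : CS n k q.x} {G : GD (Pair n)}

/-- **The touches with the weight `|Y_b|`.** -/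
theorem T_num (hq : q.OkS) (hG : G.Ok) (hr : GRow k q G) (hl : 288 * q.x ^ 2 * k ^ 2 * n ≤ 1)
    {Y : MF n} {Yb : Fin n → MF n} (eY : ∀ i j, EG fun w => Y w i j)
    (eYb : ∀ b i j, EG fun w => Yb b w i j)
    (iYb : ∀ b i j, Ind (lf (row b)) fun w => Yb b w i j) (s : ℝ) (a : Fin 4 → ℝ) :
    ∑ b, Im (densG q G S.F) (fun w => H191.fro (Yb b w) *
        (H191.fro fun i j => S.A s (H712.lp a w) i j - Cb S s a b w i j) ^ 2) ≤
      9 * vr a * (2 * Im (densG q G S.F) (fun w => H191.fro (Y w) *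
          ∑ e, fr (S.DA s e (H712.lp a w))) +
        √(∑ b, Im (densG q G S.F) (fun w => (H191.fro fun i j => Y w i j - Yb b w i j) ^ 2)) *
          √(∑ b, Im (densG q G S.F) (fun w => (∑ e ∈ row b, fr (S.DA s e (H712.lp a w))) ^ 2))) +
      2 * (Im (densG q G S.F) (fun w => H191.fro (Y w) * fr (S.A s (H712.lp a w))) +
        √(∑ b, Im (densG q G S.F) (fun w => (H191.fro fun i j => Y w i j - Yb b w i j) ^ 2)) *
          √(Im (densG q G S.F) (fun w => nf (S.A s (H712.lp a w)) ^ 3))) := by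
  have eD : EG (densG q G S.F) := eg_densG S.c11 hq.x0 hG
  have D0 : ∀ w, 0 ≤ densG q G S.F w := fun w => densG_nonneg w
  have eX : ∀ b, EG fun w : K4 (Pair n) → ℝ => ∑ e ∈ row b, fr (S.DA s e (H712.lp a w)) :=
    fun b => EG.sum _ fun e _ => EG.sum _ fun i _ => EG.sum _ fun j _ =>
      (eg_lp a (S.eg_DA s e i j)).pow 2
  have X0 : ∀ b (w : K4 (Pair n) → ℝ), 0 ≤ ∑ e ∈ row b, fr (S.DA s e (H712.lp a w)) :=
    fun b w => Finset.sum_nonneg fun e _ => H332.fr_nonneg _
  have eU : ∀ b, EG fun w : K4 (Pair n) → ℝ => ∑ i, S.A s (H712.lp a w) i b ^ 2 := fun b =>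
    EG.sum _ fun i _ => (eg_lp a (S.eg_A s i b)).pow 2
  have U0 : ∀ b (w : K4 (Pair n) → ℝ), 0 ≤ ∑ i, S.A s (H712.lp a w) i b ^ 2 := fun b w =>
    Finset.sum_nonneg fun i _ => sq_nonneg _
  have iF : ∀ b, Ind (lf (row b)) fun w => H191.fro (Yb b w) := fun b z w => by
    have e : Yb b (H712.sw (lf (row b)) z w) = Yb b z := by
      funext i j; exact iYb b i j z w
    simp only [e]
  have enf : EG fun w : K4 (Pair n) → ℝ => nf (S.A s (H712.lp a w)) :=
    H191.eg_sqrt (EG.sum _ fun i _ => EG.sum _ fun j _ => (eg_lp a (S.eg_A s i j)).pow 2)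
  -- the touch of one row
  have h1 : ∀ b, Im (densG q G S.F) (fun w => H191.fro (Yb b w) *
        (H191.fro fun i j => S.A s (H712.lp a w) i j - Cb S s a b w i j) ^ 2) ≤
      9 * vr a * Im (densG q G S.F) (fun w => H191.fro (Yb b w) *
          ∑ e ∈ row b, fr (S.DA s e (H712.lp a w))) +
        2 * Im (densG q G S.F) (fun w => H191.fro (Yb b w) *
          ∑ i, S.A s (H712.lp a w) i b ^ 2) := by
    intro b
    have key := H350.tch_Cb (S := S) (s := s) (a := a) (lf_row_SG S hq hG hr b) (hl_row hl)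
      (φ := densG q G S.F) (fun w => rfl) (eg_fro (eYb b)) (iF b)
      (fun w => H191.fro_nonneg _)
    refine le_trans (le_of_eq (Im_congr fun w => ?_)) key
    rw [H191.fro_sq]
  refine (Finset.sum_le_sum fun b _ => h1 b).trans ?_
  rw [Finset.sum_add_distrib, ← Finset.mul_sum, ← Finset.mul_sum]
  have hva : 0 ≤ vr a := vr_nonneg a
  -- the rates
  have h2 : ∑ b, Im (densG q G S.F) (fun w => H191.fro (Yb b w) *
      ∑ e ∈ row b, fr (S.DA s e (H712.lp a w))) ≤
      2 * Im (densG q G S.F) (fun w => H191.fro (Y w) * ∑ e, fr (S.DA s e (H712.lp a w))) +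
      √(∑ b, Im (densG q G S.F) (fun w => (H191.fro fun i j => Y w i j - Yb b w i j) ^ 2)) *
        √(∑ b, Im (densG q G S.F)
          (fun w => (∑ e ∈ row b, fr (S.DA s e (H712.lp a w))) ^ 2)) := by
    refine (fro_unf eD D0 eY eYb eX X0).trans (add_le_add (le_of_eq ?_) le_rfl)
    rw [← Im_sum eD Finset.univ fun b _ => (eg_fro eY).mul (eX b), ← Im_const_mul]
    refine Im_congr fun w => ?_
    rw [← Finset.mul_sum, H325.sum_rows]
    ring
  -- the columns
  have h3 : ∑ b, Im (densG q G S.F) (fun w => H191.fro (Yb b w) *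
      ∑ i, S.A s (H712.lp a w) i b ^ 2) ≤
      Im (densG q G S.F) (fun w => H191.fro (Y w) * fr (S.A s (H712.lp a w))) +
      √(∑ b, Im (densG q G S.F) (fun w => (H191.fro fun i j => Y w i j - Yb b w i j) ^ 2)) *
        √(Im (densG q G S.F) (fun w => nf (S.A s (H712.lp a w)) ^ 3)) := by
    refine (fro_unf eD D0 eY eYb eU U0).trans (add_le_add (le_of_eq ?_)
      (mul_le_mul_of_nonneg_left (Real.sqrt_le_sqrt ?_) (Real.sqrt_nonneg _)))
    · rw [← Im_sum eD Finset.univ fun b _ => (eg_fro eY).mul (eU b)]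
      refine Im_congr fun w => ?_
      rw [← Finset.mul_sum]
      congr 1
      unfold fr
      exact Finset.sum_comm
    · rw [← Im_sum eD Finset.univ fun b _ => (eU b).pow 2]
      refine Im_mono' eD D0 (EG.sum _ fun b _ => (eU b).pow 2) (enf.pow 3) fun w => ?_
      have hc : ∀ b, ∑ i, S.A s (H712.lp a w) i b ^ 2 ≤ nf (S.A s (H712.lp a w)) := fun b =>
        col_le (S.psd_A s _) (S.A_self s _ b)
      calc ∑ b, (∑ i, S.A s (H712.lp a w) i b ^ 2) ^ 2 ≤
            ∑ b, nf (S.A s (H712.lp a w)) * ∑ i, S.A s (H712.lp a w) i b ^ 2 := by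
            refine Finset.sum_le_sum fun b _ => ?_
            rw [_root_.sq]
            exact mul_le_mul_of_nonneg_right (hc b) (U0 b w)
        _ = nf (S.A s (H712.lp a w)) * fr (S.A s (H712.lp a w)) := by
            rw [← Finset.mul_sum]
            congr 1
            unfold fr
            exact Finset.sum_comm
        _ = nf (S.A s (H712.lp a w)) ^ 3 := by rw [← nf_sq]; ring
  refine add_le_add (mul_le_mul_of_nonneg_left h2 (by positivity))
    (mul_le_mul_of_nonneg_left h3 (by norm_num))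

end Vale.Agent.P146.H45
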