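import Vale.Agent.P146.H391.Meh3
import Vale.Agent.P146.H329.Fb3

/-!
P146, plan R2, row F2: the Mehler inequality with the cube for two unit linear forms of a Gaussian
vector, and the two-time point `ρ w_l + σ w_r`.
-/

open MeasureTheory ProbabilityTheory Filter Topology Finset

namespace Vale.Agent.P146.H45

open Vale.Agent.P157.Lv Vale.Agent.P146.H329 Vale.Agent.P146.H391

set_option linter.unusedSectionVars false

section forms

variable {κ κ' : Type} [Fintype κ] [DecidableEq κ] [Fintype κ'] [DecidableEq κ']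

/-- A linear image of a standard Gaussian vector is standard if the matrix is coisometric. -/
theorem map_std (T : (κ → ℝ) →L[ℝ] (κ' → ℝ))
    (hT : ∀ L : StrongDual ℝ (κ' → ℝ), ∑ k, (L (T (Pi.single k 1))) ^ 2 =
      ∑ i, (L (Pi.single i 1)) ^ 2) : (gI κ).map T = gI κ' := by
  refine Measure.ext_of_charFunDual ?_
  ext L
  rw [charFunDual_map, Vale.Agent.P146.H605.charFunDual_std_pi,
    Vale.Agent.P146.H605.charFunDual_std_pi]
  congr 1
  have key' : (∑ k, (((L.comp T) (Pi.single k 1) : ℝ) : ℂ) ^ 2) =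
      ∑ i, ((L (Pi.single i 1) : ℝ) : ℂ) ^ 2 := by
    have := hT L
    exact_mod_cast congrArg (fun x : ℝ => (x : ℂ)) this
  rw [key']

/-- two linear forms -/
noncomputable def T2 (u w : κ → ℝ) : (κ → ℝ) →L[ℝ] ℝ × ℝ := (lv u).prod (lv w)

lemma T2_apply (u w z : κ → ℝ) : T2 u w z = (dv u z, dv w z) := by
  simp only [T2, ContinuousLinearMap.prod_apply, lv_apply]

lemma dv_single' (u : κ → ℝ) (k : κ) : dv u (Pi.single k 1) = u k := by
  simp [dv, Pi.single_apply]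

/-- The joint law of two linear forms depends on the Gram matrix only. -/
theorem map_T2 {u w : κ → ℝ} {u' w' : κ' → ℝ} (h1 : ∑ i, u i ^ 2 = ∑ i, u' i ^ 2)
    (h2 : ∑ i, w i ^ 2 = ∑ i, w' i ^ 2) (h3 : ∑ i, u i * w i = ∑ i, u' i * w' i) :
    (gI κ).map (T2 u w) = (gI κ').map (T2 u' w') := by
  refine Measure.ext_of_charFunDual ?_
  ext L
  rw [charFunDual_map, charFunDual_map, Vale.Agent.P146.H605.charFunDual_std_pi,
    Vale.Agent.P146.H605.charFunDual_std_pi]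
  congr 1
  have q : ∀ a b : ℝ, L (a, b) = a * L (1, 0) + b * L (0, 1) := by
    intro a b
    have : ((a, b) : ℝ × ℝ) = a • ((1 : ℝ), (0 : ℝ)) + b • ((0 : ℝ), (1 : ℝ)) := by
      simp
    rw [this, map_add, map_smul, map_smul, smul_eq_mul, smul_eq_mul]
  have e : ∀ {κ : Type} [Fintype κ] [DecidableEq κ] (u w : κ → ℝ),
      (∑ k, ((L.comp (T2 u w)) (Pi.single k 1)) ^ 2) =
        L (1, 0) ^ 2 * (∑ i, u i ^ 2) + 2 * L (1, 0) * L (0, 1) * (∑ i, u i * w i) +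
          L (0, 1) ^ 2 * ∑ i, w i ^ 2 := by
    intro κ _ _ u w
    rw [mul_sum, mul_sum, mul_sum, ← sum_add_distrib, ← sum_add_distrib]
    refine sum_congr rfl fun k _ => ?_
    rw [ContinuousLinearMap.comp_apply, T2_apply, dv_single', dv_single', q]
    ring
  have key : (∑ k, ((L.comp (T2 u w)) (Pi.single k 1)) ^ 2) =
      ∑ k, ((L.comp (T2 u' w')) (Pi.single k 1)) ^ 2 := by
    rw [e, e, h1, h2, h3]
  have key' : (∑ k, (((L.comp (T2 u w)) (Pi.single k 1) : ℝ) : ℂ) ^ 2) =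
      ∑ k, (((L.comp (T2 u' w')) (Pi.single k 1) : ℝ) : ℂ) ^ 2 := by
    exact_mod_cast congrArg (fun x : ℝ => (x : ℂ)) key
  rw [key']

lemma int_forms {u w : κ → ℝ} {u' w' : κ' → ℝ} (h1 : ∑ i, u i ^ 2 = ∑ i, u' i ^ 2)
    (h2 : ∑ i, w i ^ 2 = ∑ i, w' i ^ 2) (h3 : ∑ i, u i * w i = ∑ i, u' i * w' i)
    {F : ℝ × ℝ → ℝ} (hF : Measurable F) :
    ∫ z, F (dv u z, dv w z) ∂(gI κ) = ∫ z, F (dv u' z, dv w' z) ∂(gI κ') := by
  have a1 : ∫ z, F (dv u z, dv w z) ∂(gI κ) = ∫ p, F p ∂((gI κ).map (T2 u w)) := by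
    rw [integral_map (T2 u w).continuous.aemeasurable hF.aestronglyMeasurable]
    simp only [T2_apply]
  have a2 : ∫ z, F (dv u' z, dv w' z) ∂(gI κ') = ∫ p, F p ∂((gI κ').map (T2 u' w')) := by
    rw [integral_map (T2 u' w').continuous.aemeasurable hF.aestronglyMeasurable]
    simp only [T2_apply]
  rw [a1, a2, map_T2 h1 h2 h3]

/-- one unit linear form -/
lemma int_form1 {u : κ → ℝ} (hu : ∑ i, u i ^ 2 = 1) {f : ℝ → ℝ} (hf : Measurable f) :
    ∫ z, f (dv u z) ∂(gI κ) = ∫ x, f x ∂(gaussianReal 0 1) := by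
  have h := int_forms (κ := κ) (κ' := Fin 2) (u := u) (w := u) (u' := ![1, 0]) (w' := ![1, 0])
    (by simp [hu]) (by simp [hu]) (by
      have : ∑ i, u i * u i = 1 := by rw [← hu]; exact sum_congr rfl fun i _ => by ring
      simp [this]) (F := fun p => f p.1) (hf.comp measurable_fst)
  refine h.trans ?_
  have e : ∀ z : Fin 2 → ℝ, dv (![1, 0] : Fin 2 → ℝ) z = z 0 := by
    intro z
    simp [dv, Fin.sum_univ_two]
  simp only [e]
  exact int_x2 hf

/-- **The Mehler inequality for two unit linear forms.** -/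
theorem meh_forms {u w : κ → ℝ} (hu : ∑ i, u i ^ 2 = 1) (hw : ∑ i, w i ^ 2 = 1) {r : ℝ}
    (hr : ∑ i, u i * w i = r) {A B : ℝ → ℝ} (hA : OE A) (hB : OE B)
    (ha : ∫ z, dv u z * A (dv u z) ∂(gI κ) = 0) (hb : ∫ z, dv w z * B (dv w z) ∂(gI κ) = 0) :
    |∫ z, A (dv u z) * B (dv w z) ∂(gI κ)| ≤
      |r| ^ 3 * (√(∫ z, A (dv u z) ^ 2 ∂(gI κ)) * √(∫ z, B (dv w z) ^ 2 ∂(gI κ))) := by
  have hr1 : r ^ 2 ≤ 1 := by
    have h := Finset.sum_mul_sq_le_sq_mul_sq univ u w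
    rw [hr, hu, hw] at h
    simpa using h
  set s := √(1 - r ^ 2) with hs
  have hrs : r ^ 2 + s ^ 2 = 1 := by
    rw [hs, Real.sq_sqrt (by linarith)]; ring
  have mA : Measurable A := hA.cont.measurable
  have mB : Measurable B := hB.cont.measurable
  have e0 : ∀ z : Fin 2 → ℝ, dv (![1, 0] : Fin 2 → ℝ) z = z 0 := by
    intro z; simp [dv, Fin.sum_univ_two]
  have e1 : ∀ z : Fin 2 → ℝ, dv (![r, s] : Fin 2 → ℝ) z = ys r s z := by
    intro z; simp [dv, Fin.sum_univ_two, ys]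
  have h := int_forms (κ := κ) (κ' := Fin 2) (u := u) (w := w) (u' := ![1, 0]) (w' := ![r, s])
    (by simp [hu]) (by simp [hw, Fin.sum_univ_two, hrs]) (by simp [hr, Fin.sum_univ_two])
    (F := fun p => A p.1 * B p.2) ((mA.comp measurable_fst).mul (mB.comp measurable_snd))
  simp only [e0, e1] at h
  rw [h]
  have a1 := int_form1 hu (f := fun x => A x ^ 2) (by fun_prop)
  have a2 := int_form1 hw (f := fun x => B x ^ 2) (by fun_prop)
  have a3 := int_form1 hu (f := fun x => x * A x) (by fun_prop)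
  have a4 := int_form1 hw (f := fun x => x * B x) (by fun_prop)
  have b := cr_cube (c := r) (s := s) hA hB (a3.symm.trans ha) (a4.symm.trans hb) hrs
  have n1 : nm A = ∫ z, A (dv u z) ^ 2 ∂(gI κ) := by
    rw [a1]; rfl
  have n2 : nm B = ∫ z, B (dv w z) ^ 2 ∂(gI κ) := by
    rw [a2]; rfl
  rw [← n1, ← n2]
  exact b

end forms

section two

variable {ι : Type} [Fintype ι] [DecidableEq ι] {ρ σ : ℝ}

/-- the second position -/
noncomputable def yq (ρ σ : ℝ) : (ι ⊕ ι → ℝ) →L[ℝ] (ι → ℝ) :=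
  ContinuousLinearMap.pi fun i => ρ • (ContinuousLinearMap.proj (Sum.inl i) :
    (ι ⊕ ι → ℝ) →L[ℝ] ℝ) + σ • ContinuousLinearMap.proj (Sum.inr i)

lemma yq_apply (ρ σ : ℝ) (w : ι ⊕ ι → ℝ) (i : ι) :
    yq ρ σ w i = ρ * w (Sum.inl i) + σ * w (Sum.inr i) := by
  simp [yq]

lemma yq_inl (ρ σ : ℝ) (i : ι) :
    yq ρ σ (Pi.single (Sum.inl i) 1) = ρ • (Pi.single i 1 : ι → ℝ) := by
  funext j
  rw [yq_apply]
  by_cases h : j = i
  · subst h; simp
  · have h1 : (Sum.inl j : ι ⊕ ι) ≠ Sum.inl i := fun h2 => h (Sum.inl_injective h2)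
    simp [Pi.single_eq_of_ne h1, Pi.single_eq_of_ne h]

lemma yq_inr (ρ σ : ℝ) (i : ι) :
    yq ρ σ (Pi.single (Sum.inr i) 1) = σ • (Pi.single i 1 : ι → ℝ) := by
  funext j
  rw [yq_apply]
  by_cases h : j = i
  · subst h; simp
  · have h1 : (Sum.inr j : ι ⊕ ι) ≠ Sum.inr i := fun h2 => h (Sum.inr_injective h2)
    simp [Pi.single_eq_of_ne h1, Pi.single_eq_of_ne h]

theorem map_yq (h : ρ ^ 2 + σ ^ 2 = 1) : (gI (ι ⊕ ι)).map (yq ρ σ) = gI ι := by
  refine map_std _ fun L => ?_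
  rw [Fintype.sum_sum_type]
  simp only [yq_inl, yq_inr, map_smul, smul_eq_mul, mul_pow, ← mul_sum]
  rw [← add_mul, h, one_mul]

lemma int_yq (h : ρ ^ 2 + σ ^ 2 = 1) {F : (ι → ℝ) → ℝ} (hF : Measurable F) :
    ∫ w, F (yq ρ σ w) ∂(gI (ι ⊕ ι)) = ∫ y, F y ∂(gI ι) := by
  conv_rhs => rw [← map_yq h]
  rw [integral_map (yq ρ σ).continuous.aemeasurable hF.aestronglyMeasurable]

lemma norm_yq_le (ρ σ : ℝ) (w : ι ⊕ ι → ℝ) : ‖yq ρ σ w‖ ≤ (|ρ| + |σ|) * ‖w‖ := by
  refine (pi_norm_le_iff_of_nonneg (by positivity)).2 fun i => ?_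
  rw [yq_apply, Real.norm_eq_abs, add_mul]
  refine (abs_add_le _ _).trans (add_le_add ?_ ?_)
  · rw [abs_mul]
    exact mul_le_mul_of_nonneg_left (norm_le_pi_norm w (Sum.inl i)) (abs_nonneg _)
  · rw [abs_mul]
    exact mul_le_mul_of_nonneg_left (norm_le_pi_norm w (Sum.inr i)) (abs_nonneg _)

lemma eg_yq {F : (ι → ℝ) → ℝ} (hF : EG F) (ρ σ : ℝ) : EG fun w => F (yq ρ σ w) := by
  obtain ⟨C, a, hC, ha, hb⟩ := hF.bdd
  refine ⟨hF.meas.comp (yq ρ σ).continuous.measurable, C, a * (|ρ| + |σ|), hC, by positivity,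
    fun w => ?_⟩
  refine (hb _).trans (mul_le_mul_of_nonneg_left (Real.exp_le_exp.2 ?_) hC)
  rw [mul_assoc]
  exact mul_le_mul_of_nonneg_left (norm_yq_le ρ σ w) ha

lemma dv_yq (v : ι → ℝ) (ρ σ : ℝ) (w : ι ⊕ ι → ℝ) :
    dv v (yq ρ σ w) = dv (Sum.elim (fun i => ρ * v i) fun i => σ * v i) w := by
  simp only [dv, yq_apply, Fintype.sum_sum_type, Sum.elim_inl, Sum.elim_inr]
  rw [← sum_add_distrib]
  exact sum_congr rfl fun i _ => by ring

lemma unit_yq (h : ρ ^ 2 + σ ^ 2 = 1) {v : ι → ℝ} (hv : ∑ i, v i ^ 2 = 1) :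
    ∑ k, (Sum.elim (fun i => ρ * v i) (fun i => σ * v i) : ι ⊕ ι → ℝ) k ^ 2 = 1 := by
  simp only [Fintype.sum_sum_type, Sum.elim_inl, Sum.elim_inr, mul_pow, ← mul_sum, hv]
  linarith

/-- chain rule along the second position -/
lemma pd_yq {F : (ι → ℝ) → ℝ} {F' : ι → (ι → ℝ) → ℝ} (h : FD F F') (ρ σ : ℝ) (i : ι) :
    PD (Sum.inl i) (fun w => F (yq ρ σ w)) (fun w => ρ * F' i (yq ρ σ w)) := by
  have h2 : FD (fun w => F (yq ρ σ w))
      (fun k w => Sum.elim (fun i => ρ * F' i (yq ρ σ w)) (fun i => σ * F' i (yq ρ σ w)) k) := by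
    intro w
    refine ((h (yq ρ σ w)).comp w (yq ρ σ).hasFDerivAt).congr_fderiv ?_
    refine clm_ext fun k => ?_
    rw [sum_proj_single, ContinuousLinearMap.comp_apply]
    rcases k with k | k
    · rw [yq_inl, map_smul, sum_proj_single, smul_eq_mul]
      rfl
    · rw [yq_inr, map_smul, sum_proj_single, smul_eq_mul]
      rfl
  exact h2.pd (Sum.inl i)

lemma int_coord' {κ : Type} [Fintype κ] [DecidableEq κ] (i j : κ) :
    ∫ z : κ → ℝ, z i * z j ∂(gI κ) = if j = i then 1 else 0 := int_zz j i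

/-- correlations of the coordinates of the two positions -/
lemma int_yy (i j : ι) : ∫ w, (w (Sum.inl i)) * (yq ρ σ w j) ∂(gI (ι ⊕ ι)) =
    if i = j then ρ else 0 := by
  have e : ∀ w : ι ⊕ ι → ℝ, w (Sum.inl i) * yq ρ σ w j =
      ρ * (w (Sum.inl i) * w (Sum.inl j)) + σ * (w (Sum.inl i) * w (Sum.inr j)) := by
    intro w; rw [yq_apply]; ring
  simp only [e]
  rw [integral_add (((EG.coord _).mul (EG.coord _)).const_mul ρ).integrable
    (((EG.coord _).mul (EG.coord _)).const_mul σ).integrable, integral_const_mul,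
    integral_const_mul, int_coord', int_coord']
  by_cases h : i = j
  · subst h; simp
  · have h1 : (Sum.inl j : ι ⊕ ι) ≠ Sum.inl i := fun h2 => h (Sum.inl_injective h2).symm
    simp [h, h1]

end two

end Vale.Agent.P146.H45
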