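import Vale.Agent.P146.H546.Fa

/-!
P146, plan R2, row F2: the left side of (F2*), abstract form. For two fields `N1`, `N2`, two
symmetric matrices and `κ = ρ²` the form `|M2 N1|² + κ |M1 N2|² - 2 <M1 N1, M2 N2>` is bounded below.
-/

open Finset Matrix

set_option linter.unusedSectionVars false

namespace Vale.Agent.P146.H45

open Vale.Agent.P146.H546

section
variable {ι : Type} [Fintype ι] [DecidableEq ι]
variable {L : Type*} [NormedAddCommGroup L] [InnerProductSpace ℝ L]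

/-- the left side of (F2*), coefficient `κ` at the second time -/
noncomputable def QL (κ : ℝ) (M1 M2 : Matrix ι ι ℝ) (N1 N2 : ι → L) : ℝ :=
  n2 (mv M2 N1) + κ * n2 (mv M1 N2) - 2 * ip (mv M1 N1) (mv M2 N2)

lemma mv_smul_vec (M : Matrix ι ι ℝ) (v : ι → ℝ) (p : L) (k : ι) :
    mv M (fun i => v i • p) k = (M *ᵥ v) k • p := by
  simp only [mv, smul_smul, ← sum_smul]
  rfl

lemma n2_smul_vec (u : ι → ℝ) (p : L) : n2 (fun i => u i • p) = (∑ i, u i ^ 2) * ‖p‖ ^ 2 := by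
  simp only [n2, norm_smul, mul_pow, Real.norm_eq_abs, sq_abs, ← sum_mul]

lemma ip_smul_vec (u w : ι → ℝ) (p q : L) :
    ip (fun i => u i • p) (fun i => w i • q) = (∑ i, u i * w i) * inner ℝ p q := by
  simp only [ip, real_inner_smul_left, real_inner_smul_right, sum_mul]
  exact sum_congr rfl fun i _ => by ring

/-- **Mehler part**: the locked fields. -/
theorem ql_main {M1 M2 : Matrix ι ι ℝ} (h1 : M1ᵀ = M1) (h2 : M2ᵀ = M2) {v1 v2 : ι → ℝ}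
    (u1 : ∑ i, v1 i ^ 2 = 1) (u2 : ∑ i, v2 i ^ 2 = 1) {l1 l2 c ρ : ℝ} (e1 : M1 *ᵥ v1 = l1 • v1)
    (e2 : M2 *ᵥ v2 = l2 • v2) (hc : ∑ i, v1 i * v2 i = c) {p q : L}
    (hpq : |inner ℝ p q| ≤ |ρ * c| ^ 3 * (‖p‖ * ‖q‖)) :
    c ^ 2 * (1 - ρ ^ 4 * c ^ 4) * l2 ^ 2 * ‖p‖ ^ 2 ≤
      QL (ρ ^ 2) M1 M2 (fun i => v1 i • p) (fun i => v2 i • q) := by
  have f1 : mv M2 (fun i => v1 i • p) = fun k => (M2 *ᵥ v1) k • p := funext fun k =>
    mv_smul_vec M2 v1 p k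
  have f2 : mv M1 (fun i => v2 i • q) = fun k => (M1 *ᵥ v2) k • q := funext fun k =>
    mv_smul_vec M1 v2 q k
  have f3 : mv M1 (fun i => v1 i • p) = fun k => (M1 *ᵥ v1) k • p := funext fun k =>
    mv_smul_vec M1 v1 p k
  have f4 : mv M2 (fun i => v2 i • q) = fun k => (M2 *ᵥ v2) k • q := funext fun k =>
    mv_smul_vec M2 v2 q k
  have g1 : (l2 * c) ^ 2 ≤ ∑ k, (M2 *ᵥ v1) k ^ 2 := by
    have h := Finset.sum_mul_sq_le_sq_mul_sq univ v2 (M2 *ᵥ v1)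
    have h3 : ∑ i, v2 i * (M2 *ᵥ v1) i = l2 * c := by
      have : v2 ⬝ᵥ (M2 *ᵥ v1) = (M2 *ᵥ v2) ⬝ᵥ v1 := by
        rw [Matrix.dotProduct_mulVec, ← Matrix.mulVec_transpose, h2]
      have h4 : ∑ i, v2 i * (M2 *ᵥ v1) i = v2 ⬝ᵥ (M2 *ᵥ v1) := rfl
      rw [h4, this, e2, smul_dotProduct, smul_eq_mul, ← hc]
      congr 1
      exact sum_congr rfl fun i _ => mul_comm _ _
    rw [h3, u2, one_mul] at h
    exact h
  have g2 : (l1 * c) ^ 2 ≤ ∑ k, (M1 *ᵥ v2) k ^ 2 := by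
    have h := Finset.sum_mul_sq_le_sq_mul_sq univ v1 (M1 *ᵥ v2)
    have h3 : ∑ i, v1 i * (M1 *ᵥ v2) i = l1 * c := by
      have : v1 ⬝ᵥ (M1 *ᵥ v2) = (M1 *ᵥ v1) ⬝ᵥ v2 := by
        rw [Matrix.dotProduct_mulVec, ← Matrix.mulVec_transpose, h1]
      have h4 : ∑ i, v1 i * (M1 *ᵥ v2) i = v1 ⬝ᵥ (M1 *ᵥ v2) := rfl
      rw [h4, this, e1, smul_dotProduct, smul_eq_mul, ← hc]
      rfl
    rw [h3, u1, one_mul] at h
    exact h
  have g3 : ∑ i, (M1 *ᵥ v1) i * (M2 *ᵥ v2) i = l1 * l2 * c := by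
    rw [e1, e2]
    simp only [Pi.smul_apply, smul_eq_mul]
    rw [← hc, mul_sum]
    exact sum_congr rfl fun i _ => by ring
  unfold QL
  rw [f1, f2, f3, f4, n2_smul_vec, n2_smul_vec, ip_smul_vec, g3]
  set P := ‖p‖
  set Q := ‖q‖
  have hP : 0 ≤ P := norm_nonneg _
  have hQ : 0 ≤ Q := norm_nonneg _
  have k1 : (l2 * c) ^ 2 * P ^ 2 ≤ (∑ k, (M2 *ᵥ v1) k ^ 2) * P ^ 2 :=
    mul_le_mul_of_nonneg_right g1 (sq_nonneg _)
  have k2 : (l1 * c) ^ 2 * Q ^ 2 ≤ (∑ k, (M1 *ᵥ v2) k ^ 2) * Q ^ 2 :=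
    mul_le_mul_of_nonneg_right g2 (sq_nonneg _)
  have k3 : l1 * l2 * c * inner ℝ p q ≤ |l1| * |l2| * (|ρ| ^ 3 * c ^ 4) * (P * Q) := by
    refine (le_abs_self _).trans ?_
    rw [abs_mul, abs_mul, abs_mul]
    refine (mul_le_mul_of_nonneg_left hpq (by positivity)).trans (le_of_eq ?_)
    have : |c| ^ 4 = c ^ 4 := by
      rw [← abs_pow]
      exact abs_of_nonneg (by positivity)
    rw [← this, abs_mul]
    ring
  have k4 : 0 ≤ c ^ 2 * (|ρ| ^ 2 * c ^ 2 * (|l2| * P) - |ρ| * (|l1| * Q)) ^ 2 := by positivity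
  have k5 : |l1| ^ 2 = l1 ^ 2 := sq_abs _
  have k6 : |l2| ^ 2 = l2 ^ 2 := sq_abs _
  have k7 : c ^ 2 * (|ρ| ^ 2 * c ^ 2 * (|l2| * P) - |ρ| * (|l1| * Q)) ^ 2 =
      (|ρ| ^ 2) ^ 2 * c ^ 6 * |l2| ^ 2 * P ^ 2 + |ρ| ^ 2 * (c ^ 2 * |l1| ^ 2 * Q ^ 2) -
        2 * (|l1| * |l2| * (|ρ| ^ 3 * c ^ 4) * (P * Q)) := by ring
  rw [k7, k5, k6, sq_abs] at k4
  have k8 := mul_le_mul_of_nonneg_left k2 (sq_nonneg ρ)
  nlinarith [k1, k8, k3, k4]

/-- **replacement**: the price of the defects -/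
theorem ql_repl {M1 M2 : Matrix ι ι ℝ} {N1 N2 m1 m2 : ι → L} {κ t1 t2 d1 d2 : ℝ} (hκ : 0 ≤ κ)
    (hN1 : nr N1 ≤ t1) (hN2 : nr N2 ≤ t2) (hm1 : nr m1 ≤ t1) (hm2 : nr m2 ≤ t2)
    (hd1 : nr (fun i => N1 i - m1 i) ≤ d1) (hd2 : nr (fun i => N2 i - m2 i) ≤ d2) :
    |QL κ M1 M2 N1 N2 - QL κ M1 M2 m1 m2| ≤
      2 * (fb M2 ^ 2 * (d1 * t1) + κ * (fb M1 ^ 2 * (d2 * t2)) +
        fb M1 * fb M2 * (d1 * t2 + d2 * t1)) := by
  have ht1 : 0 ≤ t1 := (nr_nonneg _).trans hN1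
  have ht2 : 0 ≤ t2 := (nr_nonneg _).trans hN2
  have hd10 : 0 ≤ d1 := (nr_nonneg _).trans hd1
  have hd20 : 0 ≤ d2 := (nr_nonneg _).trans hd2
  have hf1 := fb_nonneg M1
  have hf2 := fb_nonneg M2
  have q : ∀ (M : Matrix ι ι ℝ) (N m : ι → L) (t d : ℝ), 0 ≤ t → 0 ≤ d → nr N ≤ t → nr m ≤ t →
      nr (fun i => N i - m i) ≤ d → |n2 (mv M N) - n2 (mv M m)| ≤ 2 * (fb M ^ 2 * (d * t)) := by
    intro M N m t d ht hd0 h1 h2 h3
    refine (abs_n2_sub_le _ _).trans ?_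
    rw [← mv_sub_right]
    have a1 := (nr_mv_le M (fun i => N i - m i)).trans
      (mul_le_mul_of_nonneg_left h3 (fb_nonneg M))
    have a2 := (nr_mv_le M N).trans (mul_le_mul_of_nonneg_left h1 (fb_nonneg M))
    have a3 := (nr_mv_le M m).trans (mul_le_mul_of_nonneg_left h2 (fb_nonneg M))
    calc _ ≤ (fb M * d) * (fb M * t + fb M * t) :=
          mul_le_mul a1 (add_le_add a2 a3) (add_nonneg (nr_nonneg _) (nr_nonneg _))
            (mul_nonneg (fb_nonneg M) hd0)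
      _ = _ := by ring
  have q1 := q M2 N1 m1 t1 d1 ht1 hd10 hN1 hm1 hd1
  have q2 := q M1 N2 m2 t2 d2 ht2 hd20 hN2 hm2 hd2
  have q3 : |ip (mv M1 N1) (mv M2 N2) - ip (mv M1 m1) (mv M2 m2)| ≤
      fb M1 * fb M2 * (d1 * t2 + d2 * t1) := by
    have e : ip (mv M1 N1) (mv M2 N2) - ip (mv M1 m1) (mv M2 m2) =
        ip (mv M1 fun i => N1 i - m1 i) (mv M2 N2) +
          ip (mv M1 m1) (mv M2 fun i => N2 i - m2 i) := by
      rw [mv_sub_right, mv_sub_right]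
      simp only [ip, inner_sub_left, inner_sub_right, sum_sub_distrib]
      ring
    rw [e]
    refine (abs_add_le _ _).trans ?_
    have a1 := (abs_ip_le (mv M1 fun i => N1 i - m1 i) (mv M2 N2)).trans
      (mul_le_mul ((nr_mv_le M1 _).trans (mul_le_mul_of_nonneg_left hd1 hf1))
        ((nr_mv_le M2 N2).trans (mul_le_mul_of_nonneg_left hN2 hf2)) (nr_nonneg _)
        (mul_nonneg hf1 hd10))
    have a2 := (abs_ip_le (mv M1 m1) (mv M2 fun i => N2 i - m2 i)).trans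
      (mul_le_mul ((nr_mv_le M1 _).trans (mul_le_mul_of_nonneg_left hm1 hf1))
        ((nr_mv_le M2 _).trans (mul_le_mul_of_nonneg_left hd2 hf2)) (nr_nonneg _)
        (mul_nonneg hf1 ht1))
    calc _ ≤ (fb M1 * d1) * (fb M2 * t2) + (fb M1 * t1) * (fb M2 * d2) := add_le_add a1 a2
      _ = _ := by ring
  have e : QL κ M1 M2 N1 N2 - QL κ M1 M2 m1 m2 = (n2 (mv M2 N1) - n2 (mv M2 m1)) +
      κ * (n2 (mv M1 N2) - n2 (mv M1 m2)) -
      2 * (ip (mv M1 N1) (mv M2 N2) - ip (mv M1 m1) (mv M2 m2)) := by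
    unfold QL
    ring
  rw [e]
  have b1 := abs_le.1 q1
  have b2 : |κ * (n2 (mv M1 N2) - n2 (mv M1 m2))| ≤ 2 * (κ * (fb M1 ^ 2 * (d2 * t2))) := by
    rw [abs_mul, abs_of_nonneg hκ]
    refine (mul_le_mul_of_nonneg_left q2 hκ).trans (le_of_eq ?_)
    ring
  have b2 := abs_le.1 b2
  have b3 := abs_le.1 q3
  exact abs_le.2 ⟨by linarith, by linarith⟩

lemma mv_add_right (M : Matrix ι ι ℝ) (x y : ι → L) :
    mv M (fun i => x i + y i) = fun k => mv M x k + mv M y k := by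
  funext k
  simp only [mv, smul_add, sum_add_distrib]

lemma mv_mv (M Λ : Matrix ι ι ℝ) (y : ι → L) : mv M (mv Λ y) = mv (M * Λ) y := by
  funext k
  simp only [mv, smul_sum, smul_smul, Matrix.mul_apply, sum_smul]
  rw [sum_comm]

lemma ip_mv_on {y y' : ι → L} {ρ : ℝ} (h : ∀ i j, inner ℝ (y i) (y' j) = if i = j then ρ else 0)
    (X Z : Matrix ι ι ℝ) : ip (mv X y) (mv Z y') = ρ * dt X Z := by
  simp only [ip, mv, sum_inner, inner_sum, real_inner_smul_left, real_inner_smul_right, h,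
    mul_ite, mul_zero, sum_ite_eq', mem_univ, if_true, dt, mul_sum]
  exact sum_congr rfl fun i _ => sum_congr rfl fun j _ => by ring

lemma ip_mv_perp {y x : ι → L} (h : ∀ i j, inner ℝ (y i) (x j) = 0) (X Z : Matrix ι ι ℝ) :
    ip (mv X y) (mv Z x) = 0 := by
  simp only [ip, mv, sum_inner, inner_sum, real_inner_smul_left, real_inner_smul_right, h,
    mul_zero, sum_const_zero]

lemma n2_add (x y : ι → L) : n2 (fun i => x i + y i) = n2 x + n2 y + 2 * ip x y := by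
  simp only [n2, ip, norm_add_sq_real, sum_add_distrib, mul_sum]
  ring

/-- **the linear parts split off** -/
theorem ql_split {M1 M2 Λ1 Λ2 : Matrix ι ι ℝ} {y1 y2 n1 n2' : ι → L} {κ ρ : ℝ}
    (h11 : ∀ i j, inner ℝ (y1 i) (y1 j) = if i = j then (1 : ℝ) else 0)
    (h22 : ∀ i j, inner ℝ (y2 i) (y2 j) = if i = j then (1 : ℝ) else 0)
    (h12 : ∀ i j, inner ℝ (y1 i) (y2 j) = if i = j then ρ else 0)
    (p11 : ∀ i j, inner ℝ (y1 i) (n1 j) = 0) (p12 : ∀ i j, inner ℝ (y1 i) (n2' j) = 0)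
    (p21 : ∀ i j, inner ℝ (y2 i) (n1 j) = 0) (p22 : ∀ i j, inner ℝ (y2 i) (n2' j) = 0) :
    QL κ M1 M2 (fun i => mv Λ1 y1 i + n1 i) (fun i => mv Λ2 y2 i + n2' i) =
      dt (M2 * Λ1) (M2 * Λ1) + κ * dt (M1 * Λ2) (M1 * Λ2) -
        2 * (ρ * dt (M1 * Λ1) (M2 * Λ2)) + QL κ M1 M2 n1 n2' := by
  unfold QL
  rw [mv_add_right, mv_add_right, mv_add_right, mv_add_right, n2_add, n2_add, mv_mv, mv_mv,
    mv_mv, mv_mv]
  have e1 : ip (fun k => mv (M1 * Λ1) y1 k + mv M1 n1 k)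
      (fun k => mv (M2 * Λ2) y2 k + mv M2 n2' k) = ip (mv (M1 * Λ1) y1) (mv (M2 * Λ2) y2) +
      ip (mv (M1 * Λ1) y1) (mv M2 n2') + ip (mv (M2 * Λ2) y2) (mv M1 n1) +
      ip (mv M1 n1) (mv M2 n2') := by
    rw [ip_comm (mv (M2 * Λ2) y2) (mv M1 n1)]
    simp only [ip, inner_add_left, inner_add_right, sum_add_distrib]
    ring
  rw [e1, ip_mv_perp p11, ip_mv_perp p22, ip_mv_perp p12, ip_mv_perp p21, ip_mv_on h12,
    ← ip_self (mv (M2 * Λ1) y1), ← ip_self (mv (M1 * Λ2) y2), ip_mv_on h11, ip_mv_on h22]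
  ring

end

end Vale.Agent.P146.H45
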