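import Vale.Agent.P146.H45.QL
import Vale.Agent.P146.H45.Meh2
import Vale.Agent.P146.H546.Fc

/-!
P146, plan R2, row F2: the left side of (F2*) for two gradient fields of one Gaussian row at two
positions `y1 = w_l`, `y2 = ρ w_l + σ w_r` (`ρ² + σ² = 1`), the coefficient at the second position
is `ρ²`. The linear residuals `Λ1`, `Λ2` split off exactly.
-/

open Finset Matrix MeasureTheory ProbabilityTheory

set_option linter.unusedSectionVars false

namespace Vale.Agent.P146.H45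

open Vale.Agent.P157.Lv Vale.Agent.P146.H546

variable {ι : Type} [Fintype ι] [DecidableEq ι]
variable {a d : ι → (ι → ℝ) → ℝ} {H K : ι → ι → (ι → ℝ) → ℝ}

/-- matrix times vector -/
def mw (M : Matrix ι ι ℝ) (f : ι → ℝ) (k : ι) : ℝ := ∑ i, M k i * f i

/-- the form of (F2*), pointwise -/
def qlp (κ : ℝ) (M1 M2 : Matrix ι ι ℝ) (f g : ι → ℝ) : ℝ :=
  (∑ k, mw M2 f k ^ 2) + κ * (∑ k, mw M1 g k ^ 2) - 2 * ∑ k, mw M1 f k * mw M2 g k

/-- the linear residual of (F2*) -/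
def qlin (ρ : ℝ) (M1 M2 Λ1 Λ2 : Matrix ι ι ℝ) : ℝ :=
  dt (M2 * Λ1) (M2 * Λ1) + ρ ^ 2 * dt (M1 * Λ2) (M1 * Λ2) - 2 * (ρ * dt (M1 * Λ1) (M2 * Λ2))

section el

variable {κ : Type} [Fintype κ]

lemma el_mw (M : Matrix ι ι ℝ) {f : ι → (κ → ℝ) → ℝ} (hf : ∀ i, EG (f i)) (k : ι) :
    el (fun w => mw M (fun i => f i w) k) = mv M (fun i => el (f i)) k := by
  unfold mw mv
  rw [el_sum _ fun i _ => (hf i).const_mul _]
  exact sum_congr rfl fun i _ => el_smul _ (hf i)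

lemma eg_mw (M : Matrix ι ι ℝ) {f : ι → (κ → ℝ) → ℝ} (hf : ∀ i, EG (f i)) (k : ι) :
    EG fun w => mw M (fun i => f i w) k := EG.sum _ fun i _ => (hf i).const_mul _

lemma int_qlp (c : ℝ) (M1 M2 : Matrix ι ι ℝ) {f g : ι → (κ → ℝ) → ℝ} (hf : ∀ i, EG (f i))
    (hg : ∀ i, EG (g i)) :
    ∫ w, qlp c M1 M2 (fun i => f i w) (fun i => g i w) ∂(gI κ) =
      QL c M1 M2 (fun i => el (f i)) (fun i => el (g i)) := by
  have e1 : EG fun w => ∑ k, mw M2 (fun i => f i w) k ^ 2 :=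
    EG.sum _ fun k _ => (eg_mw M2 hf k).pow 2
  have e2 : EG fun w => ∑ k, mw M1 (fun i => g i w) k ^ 2 :=
    EG.sum _ fun k _ => (eg_mw M1 hg k).pow 2
  have e3 : EG fun w => ∑ k, mw M1 (fun i => f i w) k * mw M2 (fun i => g i w) k :=
    EG.sum _ fun k _ => (eg_mw M1 hf k).mul (eg_mw M2 hg k)
  have n1 : ∫ w, ∑ k, mw M2 (fun i => f i w) k ^ 2 ∂(gI κ) = n2 (mv M2 fun i => el (f i)) := by
    rw [integral_finsetSum _ fun k _ => ((eg_mw M2 hf k).pow 2).integrable]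
    exact sum_congr rfl fun k _ => by rw [← norm_el_sq (eg_mw M2 hf k), el_mw M2 hf]
  have n2' : ∫ w, ∑ k, mw M1 (fun i => g i w) k ^ 2 ∂(gI κ) = n2 (mv M1 fun i => el (g i)) := by
    rw [integral_finsetSum _ fun k _ => ((eg_mw M1 hg k).pow 2).integrable]
    exact sum_congr rfl fun k _ => by rw [← norm_el_sq (eg_mw M1 hg k), el_mw M1 hg]
  have n3 : ∫ w, ∑ k, mw M1 (fun i => f i w) k * mw M2 (fun i => g i w) k ∂(gI κ) =
      ip (mv M1 fun i => el (f i)) (mv M2 fun i => el (g i)) := by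
    rw [integral_finsetSum _ fun k _ => ((eg_mw M1 hf k).mul (eg_mw M2 hg k)).integrable]
    exact sum_congr rfl fun k _ => by
      rw [← inner_el (eg_mw M1 hf k) (eg_mw M2 hg k), el_mw M1 hf, el_mw M2 hg]
  unfold qlp QL
  rw [← n1, ← n2', ← n3]
  have i1 := e1.integrable
  have i2 := (e2.const_mul c).integrable
  have i3 := (e3.const_mul 2).integrable
  have h1 : ∫ w, ((∑ k, mw M2 (fun i => f i w) k ^ 2) + c * (∑ k, mw M1 (fun i => g i w) k ^ 2) -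
      2 * ∑ k, mw M1 (fun i => f i w) k * mw M2 (fun i => g i w) k) ∂(gI κ) =
      ∫ w, ((∑ k, mw M2 (fun i => f i w) k ^ 2) +
        c * (∑ k, mw M1 (fun i => g i w) k ^ 2)) ∂(gI κ) -
      ∫ w, 2 * ∑ k, mw M1 (fun i => f i w) k * mw M2 (fun i => g i w) k ∂(gI κ) :=
    integral_sub (i1.add i2) i3
  have h2 : ∫ w, ((∑ k, mw M2 (fun i => f i w) k ^ 2) +
        c * (∑ k, mw M1 (fun i => g i w) k ^ 2)) ∂(gI κ) =
      ∫ w, ∑ k, mw M2 (fun i => f i w) k ^ 2 ∂(gI κ) +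
        ∫ w, c * (∑ k, mw M1 (fun i => g i w) k ^ 2) ∂(gI κ) := integral_add i1 i2
  rw [h1, h2, integral_const_mul, integral_const_mul]

end el

/-! ### the profile without its linear part -/

/-- the one-dimensional profile -/
noncomputable def ap (v : ι → ℝ) (a : ι → (ι → ℝ) → ℝ) (H : ι → ι → (ι → ℝ) → ℝ) (t : ℝ) : ℝ :=
  H329.prof v a t - H329.mv v H * t

lemma al_ap (v : ι → ℝ) (y : ι → ℝ) : H329.al v a H y = ap v a H (H329.dv v y) := rfl

lemma oe_ap (ha : H329.GF a H) (v : ι → ℝ) : H329.OE (ap v a H) := by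
  have h := ha.oe v
  obtain ⟨C, c, hC, hc, hb⟩ := h.bdd
  refine ⟨?_, fun t => ?_, C + |H329.mv v H|, c + 1, by positivity, by positivity, fun t => ?_⟩
  · have := h.cont
    unfold ap
    fun_prop
  · unfold ap
    rw [h.odd]
    ring
  · unfold ap
    refine (abs_sub _ _).trans ?_
    rw [abs_mul, add_mul]
    have e1 : |t| ≤ Real.exp ((c + 1) * |t|) := by
      have h1 := Real.add_one_le_exp (|t|)
      have h2 : Real.exp |t| ≤ Real.exp ((c + 1) * |t|) := by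
        refine Real.exp_le_exp.2 ?_
        have := mul_nonneg hc (abs_nonneg t)
        linarith
      linarith
    have e2 : Real.exp (c * |t|) ≤ Real.exp ((c + 1) * |t|) := by
      refine Real.exp_le_exp.2 ?_
      have := abs_nonneg t
      linarith
    exact add_le_add ((hb t).trans (mul_le_mul_of_nonneg_left e2 hC))
      (mul_le_mul_of_nonneg_left e1 (abs_nonneg _))

lemma int_dv_ap (ha : H329.GF a H) {v : ι → ℝ} (hv : ∑ i, v i ^ 2 = 1) :
    ∫ y, H329.dv v y * ap v a H (H329.dv v y) ∂(gI ι) = 0 := by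
  have h1 := H329.prof_mean ha hv
  have eP : EG fun y => H329.prof v a (H329.dv v y) := H329.eg_comp_dv (ha.cce v) v
  have e1 : EG (H329.dv v) := H329.eg_dv v
  have h2 : ∫ y, H329.dv v y * H329.dv v y ∂(gI ι) = 1 := by
    have hm : Measurable fun x : ℝ => x ^ 2 := by fun_prop
    have h3 := int_form1 hv (f := fun x => x ^ 2) hm
    have h4 : ∫ x, x ^ 2 ∂(gaussianReal 0 1) = 1 := by
      have h5 := int_form1 (κ := Fin 1) (u := fun _ => 1) (by simp) (f := fun x => x ^ 2) hm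
      rw [← h5]
      have h6 := H329.int_zz (ι := Fin 1) 0 0
      simp only [if_true] at h6
      refine Eq.trans ?_ h6
      refine integral_congr_ae (Filter.Eventually.of_forall fun z => ?_)
      simp [H329.dv, sq]
    rw [← h4, ← h3]
    refine integral_congr_ae (Filter.Eventually.of_forall fun z => ?_)
    simp only
    ring
  have e : ∀ y, H329.dv v y * ap v a H (H329.dv v y) =
      H329.dv v y * H329.prof v a (H329.dv v y) -
        H329.mv v H * (H329.dv v y * H329.dv v y) := fun y => by unfold ap; ring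
  simp only [e]
  rw [integral_sub (e1.mul eP).integrable ((e1.mul e1).const_mul _).integrable,
    integral_const_mul, h1, h2]
  ring

/-! ### the theorem -/

/-- the residual field at one position: `a(y) - L y` -/
def res (a : ι → (ι → ℝ) → ℝ) (L : Matrix ι ι ℝ) (i : ι) (y : ι → ℝ) : ℝ :=
  a i y - ∑ j, L i j * y j

lemma eg_res (h : ∀ i, EG (a i)) (L : Matrix ι ι ℝ) (i : ι) : EG (res a L i) :=
  (h i).sub (H329.eg_lin _)

lemma res_nl (L : Matrix ι ι ℝ) (i : ι) (y : ι → ℝ) :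
    res a L i y = mw (Matrix.of (H329.MH H) - L) y i + H329.nl a H i y := by
  unfold res mw H329.nl
  simp only [Matrix.sub_apply, Matrix.of_apply, sub_mul, sum_sub_distrib]
  ring

lemma pd_nl (ha : H329.GF a H) (i : ι) :
    H329.FD (H329.nl a H i) (fun j y => H i j y - H329.MH H i j) := by
  intro y
  have h1 := ha.fd i y
  have h2 : HasFDerivAt (fun y : ι → ℝ => ∑ j, H329.MH H i j * y j)
      (∑ j, H329.MH H i j • (ContinuousLinearMap.proj j : (ι → ℝ) →L[ℝ] ℝ)) y :=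
    H329.fd_dv (fun j => H329.MH H i j) y
  refine (h1.sub h2).congr_fderiv ?_
  refine H329.clm_ext fun k => ?_
  rw [_root_.sub_apply, H329.sum_proj_single, H329.sum_proj_single, H329.sum_proj_single]

variable {ρ σ : ℝ}

/-- the nonlinear part at one position is orthogonal to the coordinates of the other one -/
lemma perp12 (hd : H329.GF d K) (h : ρ ^ 2 + σ ^ 2 = 1) (i j : ι) :
    ∫ w : ι ⊕ ι → ℝ, w (Sum.inl i) * H329.nl d K j (yq ρ σ w) ∂(gI (ι ⊕ ι)) = 0 := by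
  have e1 := eg_yq (hd.eg_nl j) ρ σ
  have e2 := (eg_yq ((hd.egH j i).sub (EG.const (H329.MH K j i))) ρ σ).const_mul ρ
  rw [(pd_yq (pd_nl hd j) ρ σ i).stein e1 e2, integral_const_mul,
    int_yq h (F := fun y => K j i y - H329.MH K j i)
      ((hd.egH j i).sub (EG.const (H329.MH K j i))).meas,
    integral_sub (hd.egH j i).integrable (EG.const (ι := ι) (H329.MH K j i)).integrable,
    integral_const, probReal_univ, one_smul]
  unfold H329.MH
  rw [sub_self, mul_zero]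

/-- and conversely -/
lemma perp21 (ha : H329.GF a H) (i j : ι) :
    ∫ w : ι ⊕ ι → ℝ, yq ρ σ w i * H329.nl a H j (yq 1 0 w) ∂(gI (ι ⊕ ι)) = 0 := by
  have e1 := eg_yq (ha.eg_nl j) 1 0
  have c1 : EG fun w : ι ⊕ ι → ℝ => w (Sum.inl i) * H329.nl a H j (yq 1 0 w) :=
    (EG.coord _).mul e1
  have c2 : EG fun w : ι ⊕ ι → ℝ => w (Sum.inr i) * H329.nl a H j (yq 1 0 w) :=
    (EG.coord _).mul e1
  have e : ∀ w : ι ⊕ ι → ℝ, yq ρ σ w i * H329.nl a H j (yq 1 0 w) =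
      ρ * (w (Sum.inl i) * H329.nl a H j (yq 1 0 w)) +
        σ * (w (Sum.inr i) * H329.nl a H j (yq 1 0 w)) := fun w => by rw [yq_apply]; ring
  simp only [e]
  rw [integral_add (c1.const_mul ρ).integrable (c2.const_mul σ).integrable, integral_const_mul,
    integral_const_mul, perp12 ha (by norm_num) i j]
  have h2 : PD (Sum.inr i) (fun w : ι ⊕ ι → ℝ => H329.nl a H j (yq 1 0 w)) (fun _ => 0) := by
    refine PD.of_indep fun w t => ?_
    congr 1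
    funext l
    rw [yq_apply, yq_apply]
    have : (Sum.inl l : ι ⊕ ι) ≠ Sum.inr i := by simp
    rw [Function.update_of_ne this]
    ring
  rw [h2.stein e1 (EG.const 0)]
  simp

/-- **The left side of (F2*)**, two gradient fields of one Gaussian row. -/
theorem ql_int (ha : H329.GF a H) (hd : H329.GF d K) (hρ : ρ ^ 2 + σ ^ 2 = 1)
    {M1 M2 L1 L2 : Matrix ι ι ℝ} (h1 : M1ᵀ = M1) (h2 : M2ᵀ = M2) {v1 v2 : ι → ℝ}
    (u1 : ∑ i, v1 i ^ 2 = 1) (u2 : ∑ i, v2 i ^ 2 = 1) {l1 l2 c : ℝ} (e1 : M1 *ᵥ v1 = l1 • v1)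
    (e2 : M2 *ᵥ v2 = l2 • v2) (hc : ∑ i, v1 i * v2 i = c) {t1 t2 d1 d2 : ℝ}
    (ht1 : 0 ≤ t1) (ht2 : 0 ≤ t2) (hd1 : 0 ≤ d1) (hd2 : 0 ≤ d2)
    (n1 : ∫ y, ∑ i, H329.nl a H i y ^ 2 ∂(gI ι) ≤ t1 ^ 2)
    (n2' : ∫ y, ∑ i, H329.nl d K i y ^ 2 ∂(gI ι) ≤ t2 ^ 2)
    (s1 : ∫ y, ∑ i, (H329.nl a H i y - v1 i * H329.al v1 a H y) ^ 2 ∂(gI ι) ≤ d1 ^ 2)
    (s2 : ∫ y, ∑ i, (H329.nl d K i y - v2 i * H329.al v2 d K y) ^ 2 ∂(gI ι) ≤ d2 ^ 2)
    (m1 : ∫ y, H329.al v1 a H y ^ 2 ∂(gI ι) ≤ t1 ^ 2)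
    (m2 : ∫ y, H329.al v2 d K y ^ 2 ∂(gI ι) ≤ t2 ^ 2) :
    c ^ 2 * (1 - ρ ^ 4 * c ^ 4) * l2 ^ 2 * (∫ y, H329.al v1 a H y ^ 2 ∂(gI ι)) +
        qlin ρ M1 M2 (Matrix.of (H329.MH H) - L1) (Matrix.of (H329.MH K) - L2) -
        2 * (fb M2 ^ 2 * (d1 * t1) + ρ ^ 2 * (fb M1 ^ 2 * (d2 * t2)) +
          fb M1 * fb M2 * (d1 * t2 + d2 * t1)) ≤
      ∫ w : ι ⊕ ι → ℝ, qlp (ρ ^ 2) M1 M2 (fun i => res a L1 i (yq 1 0 w))
        (fun i => res d L2 i (yq ρ σ w)) ∂(gI (ι ⊕ ι)) := by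
  have h10 : (1 : ℝ) ^ 2 + (0 : ℝ) ^ 2 = 1 := by norm_num
  -- the fields as elements
  have ea : ∀ i, EG fun w : ι ⊕ ι → ℝ => res a L1 i (yq 1 0 w) := fun i =>
    eg_yq (eg_res ha.eg L1 i) 1 0
  have ed : ∀ i, EG fun w : ι ⊕ ι → ℝ => res d L2 i (yq ρ σ w) := fun i =>
    eg_yq (eg_res hd.eg L2 i) ρ σ
  have na : ∀ i, EG fun w : ι ⊕ ι → ℝ => H329.nl a H i (yq 1 0 w) := fun i =>
    eg_yq (ha.eg_nl i) 1 0
  have nd : ∀ i, EG fun w : ι ⊕ ι → ℝ => H329.nl d K i (yq ρ σ w) := fun i =>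
    eg_yq (hd.eg_nl i) ρ σ
  have c1 : ∀ i, EG fun w : ι ⊕ ι → ℝ => yq 1 0 w i := fun i => eg_yq (EG.coord i) 1 0
  have c2 : ∀ i, EG fun w : ι ⊕ ι → ℝ => yq ρ σ w i := fun i => eg_yq (EG.coord i) ρ σ
  have ela : EG (H329.al v1 a H) := by
    have := H329.eg_comp_dv (H329.cce_of (oe_ap ha v1).cont (oe_ap ha v1).bdd) v1
    exact this
  have eld : EG (H329.al v2 d K) := by
    have := H329.eg_comp_dv (H329.cce_of (oe_ap hd v2).cont (oe_ap hd v2).bdd) v2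
    exact this
  have la : EG fun w : ι ⊕ ι → ℝ => H329.al v1 a H (yq 1 0 w) := eg_yq ela 1 0
  have ld : EG fun w : ι ⊕ ι → ℝ => H329.al v2 d K (yq ρ σ w) := eg_yq eld ρ σ
  rw [int_qlp (ρ ^ 2) M1 M2 ea ed]
  -- the linear parts
  have r1 : (fun i => el (fun w : ι ⊕ ι → ℝ => res a L1 i (yq 1 0 w))) =
      fun i => mv (Matrix.of (H329.MH H) - L1) (fun j => el fun w : ι ⊕ ι → ℝ => yq 1 0 w j) i +
        el (fun w : ι ⊕ ι → ℝ => H329.nl a H i (yq 1 0 w)) := by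
    funext i
    rw [← el_mw _ c1, ← el_add (eg_mw _ c1 i) (na i)]
    congr 1
    funext w
    exact res_nl L1 i (yq 1 0 w)
  have r2 : (fun i => el (fun w : ι ⊕ ι → ℝ => res d L2 i (yq ρ σ w))) =
      fun i => mv (Matrix.of (H329.MH K) - L2) (fun j => el fun w : ι ⊕ ι → ℝ => yq ρ σ w j) i +
        el (fun w : ι ⊕ ι → ℝ => H329.nl d K i (yq ρ σ w)) := by
    funext i
    rw [← el_mw _ c2, ← el_add (eg_mw _ c2 i) (nd i)]
    congr 1
    funext w
    exact res_nl L2 i (yq ρ σ w)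
  have y11 : ∀ i j, inner ℝ (el fun w : ι ⊕ ι → ℝ => yq 1 0 w i)
      (el fun w : ι ⊕ ι → ℝ => yq 1 0 w j) = if i = j then (1 : ℝ) else 0 := fun i j => by
    rw [inner_el (c1 i) (c1 j), int_yq h10 (F := fun y : ι → ℝ => y i * y j)
      ((EG.coord i).mul (EG.coord j)).meas, int_coord' i j]
    by_cases h : i = j
    · simp [h]
    · simp [h, Ne.symm h]
  have y22 : ∀ i j, inner ℝ (el fun w : ι ⊕ ι → ℝ => yq ρ σ w i)
      (el fun w : ι ⊕ ι → ℝ => yq ρ σ w j) = if i = j then (1 : ℝ) else 0 := fun i j => by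
    rw [inner_el (c2 i) (c2 j), int_yq hρ (F := fun y : ι → ℝ => y i * y j)
      ((EG.coord i).mul (EG.coord j)).meas, int_coord' i j]
    by_cases h : i = j
    · simp [h]
    · simp [h, Ne.symm h]
  have z1 : ∀ (w : ι ⊕ ι → ℝ) i, yq 1 0 w i = w (Sum.inl i) := fun w i => by
    rw [yq_apply]; ring
  have y12 : ∀ i j, inner ℝ (el fun w : ι ⊕ ι → ℝ => yq 1 0 w i)
      (el fun w : ι ⊕ ι → ℝ => yq ρ σ w j) = if i = j then ρ else 0 := fun i j => by
    rw [inner_el (c1 i) (c2 j)]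
    simp only [z1]
    exact int_yy i j
  have p11 : ∀ i j, inner ℝ (el fun w : ι ⊕ ι → ℝ => yq 1 0 w i)
      (el fun w : ι ⊕ ι → ℝ => H329.nl a H j (yq 1 0 w)) = 0 := fun i j => by
    rw [inner_el (c1 i) (na j)]
    simp only [z1]
    exact perp12 ha h10 i j
  have p12 : ∀ i j, inner ℝ (el fun w : ι ⊕ ι → ℝ => yq 1 0 w i)
      (el fun w : ι ⊕ ι → ℝ => H329.nl d K j (yq ρ σ w)) = 0 := fun i j => by
    rw [inner_el (c1 i) (nd j)]
    simp only [z1]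
    exact perp12 hd hρ i j
  have p21 : ∀ i j, inner ℝ (el fun w : ι ⊕ ι → ℝ => yq ρ σ w i)
      (el fun w : ι ⊕ ι → ℝ => H329.nl a H j (yq 1 0 w)) = 0 := fun i j => by
    rw [inner_el (c2 i) (na j)]
    exact perp21 ha i j
  have p22 : ∀ i j, inner ℝ (el fun w : ι ⊕ ι → ℝ => yq ρ σ w i)
      (el fun w : ι ⊕ ι → ℝ => H329.nl d K j (yq ρ σ w)) = 0 := fun i j => by
    rw [inner_el (c2 i) (nd j), int_yq hρ (F := fun y : ι → ℝ => y i * H329.nl d K j y)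
      ((EG.coord i).mul (hd.eg_nl j)).meas]
    exact H329.stein_nl hd j i
  rw [r1, r2, ql_split y11 y22 y12 p11 p12 p21 p22]
  -- the nonlinear parts
  set N1 : ι → Lp ℝ 2 (gI (ι ⊕ ι)) := fun i =>
    el (fun w : ι ⊕ ι → ℝ => H329.nl a H i (yq 1 0 w)) with hN1
  set N2 : ι → Lp ℝ 2 (gI (ι ⊕ ι)) := fun i =>
    el (fun w : ι ⊕ ι → ℝ => H329.nl d K i (yq ρ σ w)) with hN2
  set p : Lp ℝ 2 (gI (ι ⊕ ι)) := el (fun w : ι ⊕ ι → ℝ => H329.al v1 a H (yq 1 0 w)) with hp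
  set q : Lp ℝ 2 (gI (ι ⊕ ι)) := el (fun w : ι ⊕ ι → ℝ => H329.al v2 d K (yq ρ σ w)) with hq
  have hpn : ‖p‖ ^ 2 = ∫ y, H329.al v1 a H y ^ 2 ∂(gI ι) := by
    rw [hp, norm_el_sq la, int_yq h10 (F := fun y => H329.al v1 a H y ^ 2) (ela.pow 2).meas]
  have hqn : ‖q‖ ^ 2 = ∫ y, H329.al v2 d K y ^ 2 ∂(gI ι) := by
    rw [hq, norm_el_sq ld, int_yq hρ (F := fun y => H329.al v2 d K y ^ 2) (eld.pow 2).meas]
  have hN1n : n2 N1 = ∫ y, ∑ i, H329.nl a H i y ^ 2 ∂(gI ι) := by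
    have h := n2_el na
    rw [hN1, h, int_yq h10 (F := fun y => ∑ i, H329.nl a H i y ^ 2)
      (EG.sum _ fun i _ => (ha.eg_nl i).pow 2).meas]
  have hN2n : n2 N2 = ∫ y, ∑ i, H329.nl d K i y ^ 2 ∂(gI ι) := by
    have h := n2_el nd
    rw [hN2, h, int_yq hρ (F := fun y => ∑ i, H329.nl d K i y ^ 2)
      (EG.sum _ fun i _ => (hd.eg_nl i).pow 2).meas]
  have hD1 : n2 (fun i => N1 i - v1 i • p) =
      ∫ y, ∑ i, (H329.nl a H i y - v1 i * H329.al v1 a H y) ^ 2 ∂(gI ι) := by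
    have e : ∀ i, N1 i - v1 i • p = el (fun w : ι ⊕ ι → ℝ =>
        H329.nl a H i (yq 1 0 w) - v1 i * H329.al v1 a H (yq 1 0 w)) := fun i => by
      rw [el_sub (na i) (la.const_mul _), el_smul _ la]
    have e' : (fun i => N1 i - v1 i • p) = fun i => el (fun w : ι ⊕ ι → ℝ =>
        H329.nl a H i (yq 1 0 w) - v1 i * H329.al v1 a H (yq 1 0 w)) := funext e
    rw [e', n2_el fun i => (na i).sub (la.const_mul _),
      int_yq h10 (F := fun y => ∑ i, (H329.nl a H i y - v1 i * H329.al v1 a H y) ^ 2)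
        (EG.sum _ fun i _ => ((ha.eg_nl i).sub (ela.const_mul _)).pow 2).meas]
  have hD2 : n2 (fun i => N2 i - v2 i • q) =
      ∫ y, ∑ i, (H329.nl d K i y - v2 i * H329.al v2 d K y) ^ 2 ∂(gI ι) := by
    have e : ∀ i, N2 i - v2 i • q = el (fun w : ι ⊕ ι → ℝ =>
        H329.nl d K i (yq ρ σ w) - v2 i * H329.al v2 d K (yq ρ σ w)) := fun i => by
      rw [el_sub (nd i) (ld.const_mul _), el_smul _ ld]
    have e' : (fun i => N2 i - v2 i • q) = fun i => el (fun w : ι ⊕ ι → ℝ =>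
        H329.nl d K i (yq ρ σ w) - v2 i * H329.al v2 d K (yq ρ σ w)) := funext e
    rw [e', n2_el fun i => (nd i).sub (ld.const_mul _),
      int_yq hρ (F := fun y => ∑ i, (H329.nl d K i y - v2 i * H329.al v2 d K y) ^ 2)
        (EG.sum _ fun i _ => ((hd.eg_nl i).sub (eld.const_mul _)).pow 2).meas]
  -- Mehler
  have hpq : |inner ℝ p q| ≤ |ρ * c| ^ 3 * (‖p‖ * ‖q‖) := by
    have g1 : ∀ w : ι ⊕ ι → ℝ, H329.al v1 a H (yq 1 0 w) = ap v1 a H
        (H329.dv (Sum.elim (fun i => 1 * v1 i) fun i => 0 * v1 i) w) := fun w => by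
      rw [al_ap, dv_yq]
    have g2 : ∀ w : ι ⊕ ι → ℝ, H329.al v2 d K (yq ρ σ w) = ap v2 d K
        (H329.dv (Sum.elim (fun i => ρ * v2 i) fun i => σ * v2 i) w) := fun w => by
      rw [al_ap, dv_yq]
    have hr : ∑ k, (Sum.elim (fun i => 1 * v1 i) (fun i => 0 * v1 i) : ι ⊕ ι → ℝ) k *
        (Sum.elim (fun i => ρ * v2 i) (fun i => σ * v2 i) : ι ⊕ ι → ℝ) k = ρ * c := by
      simp only [Fintype.sum_sum_type, Sum.elim_inl, Sum.elim_inr, zero_mul, sum_const_zero,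
        add_zero]
      rw [← hc, mul_sum]
      exact sum_congr rfl fun i _ => by ring
    have b := meh_forms (unit_yq h10 u1) (unit_yq hρ u2) hr (oe_ap ha v1) (oe_ap hd v2)
      (by
        have := int_dv_ap ha u1
        rw [← int_yq h10 (F := fun y => H329.dv v1 y * ap v1 a H (H329.dv v1 y))
          ((H329.eg_dv v1).mul ela).meas] at this
        simpa only [dv_yq] using this)
      (by
        have := int_dv_ap hd u2
        rw [← int_yq hρ (F := fun y => H329.dv v2 y * ap v2 d K (H329.dv v2 y))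
          ((H329.eg_dv v2).mul eld).meas] at this
        simpa only [dv_yq] using this)
    simp only [← g1, ← g2] at b
    rw [hp, hq, inner_el la ld]
    have w1 : √(∫ w : ι ⊕ ι → ℝ, H329.al v1 a H (yq 1 0 w) ^ 2 ∂(gI (ι ⊕ ι))) = ‖p‖ := by
      rw [← norm_el_sq la, Real.sqrt_sq (norm_nonneg _)]
    have w2 : √(∫ w : ι ⊕ ι → ℝ, H329.al v2 d K (yq ρ σ w) ^ 2 ∂(gI (ι ⊕ ι))) = ‖q‖ := by
      rw [← norm_el_sq ld, Real.sqrt_sq (norm_nonneg _)]
    rw [w1, w2, hp, hq] at b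
    exact b
  have main := ql_main h1 h2 u1 u2 e1 e2 hc hpq
  have rep := ql_repl (M1 := M1) (M2 := M2) (κ := ρ ^ 2) (N1 := N1) (N2 := N2)
    (m1 := fun i => v1 i • p) (m2 := fun i => v2 i • q) (t1 := t1) (t2 := t2) (d1 := d1)
    (d2 := d2) (sq_nonneg ρ) (nr_le_of_sq ht1 (by rw [hN1n]; exact n1))
    (nr_le_of_sq ht2 (by rw [hN2n]; exact n2'))
    (nr_le_of_sq ht1 (by rw [n2_smul_vec, u1, one_mul, hpn]; exact m1))
    (nr_le_of_sq ht2 (by rw [n2_smul_vec, u2, one_mul, hqn]; exact m2))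
    (nr_le_of_sq hd1 (by rw [hD1]; exact s1)) (nr_le_of_sq hd2 (by rw [hD2]; exact s2))
  have rep' := (abs_le.1 rep).1
  rw [hpn] at main
  unfold qlin
  linarith

end Vale.Agent.P146.H45
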