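import Vale.Agent.P146.H45.QLI
import Vale.Agent.P146.H332.CRowS
import Vale.Agent.P146.H546.Fe
import Vale.Agent.P146.H797.H826_LawP
import Vale.Agent.P146.H350.F2Mat

/-!
P146, plan R2, row F2: the column of one site as an odd gradient field of its own row (no second
site), and **the left side of (F2*) at a fixed bulk** for a position system.
-/

open MeasureTheory ProbabilityTheory

namespace Vale.Agent.P146.H45

open Vale.Agent.P157.Lv Vale.Agent.P146.H425 Vale.Agent.P146.H325 Vale.Agent.P146.H332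
  Vale.Agent.P146.H712 Vale.Agent.P146.R1 Vale.Agent.P146.R1C Vale.Agent.P146.H816 Matrix

set_option linter.unusedSectionVars false

variable {n : ℕ} {k s : ℝ} {A : (Pair n → ℝ) → Matrix (Fin n) (Fin n) ℝ}
  {DA : Pair n → (Pair n → ℝ) → Matrix (Fin n) (Fin n) ℝ}
  {H : Fin n → (Pair n → ℝ) → Matrix (Fin n) (Fin n) ℝ}

/-- the column of `b` without the diagonal element -/
noncomputable def cz (A : (Pair n → ℝ) → Matrix (Fin n) (Fin n) ℝ) (b : Fin n)
    (z : Pair n → ℝ) (i : Fin n) : ℝ := if i = b then 0 else A z i b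

/-- its gradient in the row of `b` -/
noncomputable def hz (k : ℝ) (H : Fin n → (Pair n → ℝ) → Matrix (Fin n) (Fin n) ℝ)
    (b : Fin n) (z : Pair n → ℝ) (i j : Fin n) : ℝ :=
  if i = b ∨ j = b then 0 else k * H b z i j

/-- the column as a function of the row, the rest of `z` is the bulk -/
noncomputable def g1 (A : (Pair n → ℝ) → Matrix (Fin n) (Fin n) ℝ) (b : Fin n)
    (z : Pair n → ℝ) (i : Fin n) (v : Fin n → ℝ) : ℝ := cz A b (put b v z) i

/-- the Jacobian -/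
noncomputable def j1 (k : ℝ) (H : Fin n → (Pair n → ℝ) → Matrix (Fin n) (Fin n) ℝ)
    (b : Fin n) (z : Pair n → ℝ) (i j : Fin n) (v : Fin n → ℝ) : ℝ := hz k H b (put b v z) i j

lemma eg_cz (hA : ∀ i j, EG fun z => A z i j) (b i : Fin n) : EG fun z => cz A b z i := by
  unfold cz
  by_cases h : i = b
  · simp only [if_pos h]; exact EG.const 0
  · simp only [if_neg h]; exact hA i b

lemma eg_hz (hH : ∀ b i j, EG fun z => H b z i j) (k : ℝ) (b i j : Fin n) :
    EG fun z => hz k H b z i j := by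
  unfold hz
  by_cases h : i = b ∨ j = b
  · simp only [if_pos h]; exact EG.const 0
  · simp only [if_neg h]; exact (hH b i j).const_mul k

/-- **The column is an odd gradient field of its row.** -/
theorem gf1 (h : RowIn k A DA H) (b : Fin n) (z : Pair n → ℝ) :
    H329.GF (g1 A b z) (j1 k H b z) where
  fd i v := by
    have key : HasFDerivAt (g1 A b z i) (H785.lf fun j => j1 k H b z i j v) v := by
      by_cases h1 : i = b
      · have e1 : g1 A b z i = fun _ => 0 := by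
          funext v; unfold g1 cz; rw [if_pos h1]
        have e2 : (H785.lf fun j => j1 k H b z i j v) = 0 := by
          ext w
          rw [H785.lf_apply]
          unfold j1 hz
          simp [h1]
        rw [e1, e2]
        exact hasFDerivAt_const _ _
      · have e1 : g1 A b z i = fun v => A (put b v z) i b := by
          funext v; unfold g1 cz; rw [if_neg h1]
        rw [e1]
        refine fd_row (G := fun z => A z i b) (G' := fun e z => DA e z i b)
          (fun y => h.fdA i b y) (K := fun j z => hz k H b z i j) (fun z => ?_)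
          (fun e he z => ?_) z v
        · unfold hz
          simp
        · unfold hz
          have h3 : oth b e ≠ b := oth_ne he
          rw [if_neg (by tauto)]
          exact h.rowD b e he z i
    exact key
  eg i := eg_put (eg_cz h.egA b i) b z
  egH i j := eg_put (eg_hz h.egH k b i j) b z
  cH i j := by
    have e : Continuous fun z => hz k H b z i j := by
      unfold hz
      by_cases h1 : i = b ∨ j = b
      · simp only [if_pos h1]; exact continuous_const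
      · simp only [if_neg h1]; exact (h.cH b i j).const_mul k
    exact e.comp (cont_put b z)
  sym i j v := by
    unfold j1 hz
    rw [h.symH]
    congr 1
    exact propext or_comm
  odd i v := by
    unfold g1
    rw [put_neg]
    unfold cz
    by_cases h1 : i = b
    · simp [h1]
    rw [if_neg h1, if_neg h1]
    exact h.flA b i _ h1

/-- the column as a field of the standard Gaussian row -/
noncomputable def fa1 (A : (Pair n → ℝ) → Matrix (Fin n) (Fin n) ℝ) (s : ℝ) (b : Fin n)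
    (z : Pair n → ℝ) (i : Fin n) (y : Fin n → ℝ) : ℝ := g1 A b z i (√s • y)

/-- its Jacobian -/
noncomputable def fh1 (k : ℝ) (H : Fin n → (Pair n → ℝ) → Matrix (Fin n) (Fin n) ℝ) (s : ℝ)
    (b : Fin n) (z : Pair n → ℝ) (i j : Fin n) (y : Fin n → ℝ) : ℝ :=
  √s * j1 k H b z i j (√s • y)

lemma gf_a1 (h : RowIn k A DA H) (s : ℝ) (b : Fin n) (z : Pair n → ℝ) :
    H329.GF (fa1 A s b z) (fh1 k H s b z) := H546.GF_scale (gf1 h b z) (√s)

/-- `E |N|²`, the nonlinear part -/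
noncomputable def Na (k : ℝ) (A : (Pair n → ℝ) → Matrix (Fin n) (Fin n) ℝ)
    (H : Fin n → (Pair n → ℝ) → Matrix (Fin n) (Fin n) ℝ) (s : ℝ) (b : Fin n)
    (z : Pair n → ℝ) : ℝ :=
  ∫ y, ∑ i, H329.nl (fa1 A s b z) (fh1 k H s b z) i y ^ 2 ∂(gI (Fin n))

/-- the nonlinear part of the profile in the direction `v` -/
noncomputable def Nt (k : ℝ) (A : (Pair n → ℝ) → Matrix (Fin n) (Fin n) ℝ)
    (H : Fin n → (Pair n → ℝ) → Matrix (Fin n) (Fin n) ℝ) (s : ℝ) (b : Fin n)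
    (v : Fin n → ℝ) (z : Pair n → ℝ) : ℝ :=
  ∫ y, H329.al v (fa1 A s b z) (fh1 k H s b z) y ^ 2 ∂(gI (Fin n))

/-- the nonlinear part off the profile -/
noncomputable def Nd (k : ℝ) (A : (Pair n → ℝ) → Matrix (Fin n) (Fin n) ℝ)
    (H : Fin n → (Pair n → ℝ) → Matrix (Fin n) (Fin n) ℝ) (s : ℝ) (b : Fin n)
    (v : Fin n → ℝ) (z : Pair n → ℝ) : ℝ :=
  ∫ y, ∑ i, (H329.nl (fa1 A s b z) (fh1 k H s b z) i y -
    v i * H329.al v (fa1 A s b z) (fh1 k H s b z) y) ^ 2 ∂(gI (Fin n))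

lemma Na_nonneg (s : ℝ) (b : Fin n) (z : Pair n → ℝ) : 0 ≤ Na k A H s b z :=
  integral_nonneg fun _ => Finset.sum_nonneg fun _ _ => sq_nonneg _

lemma Nt_nonneg (s : ℝ) (b : Fin n) (v : Fin n → ℝ) (z : Pair n → ℝ) : 0 ≤ Nt k A H s b v z :=
  integral_nonneg fun _ => sq_nonneg _

lemma Nd_nonneg (s : ℝ) (b : Fin n) (v : Fin n → ℝ) (z : Pair n → ℝ) : 0 ≤ Nd k A H s b v z :=
  integral_nonneg fun _ => Finset.sum_nonneg fun _ _ => sq_nonneg _

lemma Nt_le (h : RowIn k A DA H) (s : ℝ) (b : Fin n) {v : Fin n → ℝ} (hv : ∑ i, v i ^ 2 = 1)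
    (z : Pair n → ℝ) : Nt k A H s b v z ≤ Na k A H s b z := by
  have g := gf_a1 h s b z
  exact (H329.eta_le g hv).trans (H546.dir_sq_le hv fun i => (H546.GF_decI g).egn i)

/-- the mean Jacobian, standard row -/
noncomputable def MJ (k : ℝ) (H : Fin n → (Pair n → ℝ) → Matrix (Fin n) (Fin n) ℝ) (s : ℝ)
    (b : Fin n) (z : Pair n → ℝ) : Matrix (Fin n) (Fin n) ℝ :=
  Matrix.of (H329.MH (fh1 k H s b z))

/-- **The left side of (F2*), one row, fixed bulk, model free.** -/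
theorem ql_row {A1 A2 : (Pair n → ℝ) → Matrix (Fin n) (Fin n) ℝ}
    {DA1 DA2 : Pair n → (Pair n → ℝ) → Matrix (Fin n) (Fin n) ℝ}
    {H1 H2 : Fin n → (Pair n → ℝ) → Matrix (Fin n) (Fin n) ℝ} (h1 : RowIn k A1 DA1 H1)
    (h2 : RowIn k A2 DA2 H2) {s1 s2 ρ σ : ℝ} (hρ : ρ ^ 2 + σ ^ 2 = 1) (b : Fin n)
    (z1 z2 : Pair n → ℝ) {M1 M2 : Matrix (Fin n) (Fin n) ℝ} (L1 L2 : Matrix (Fin n) (Fin n) ℝ)
    (t1 : M1ᵀ = M1) (t2 : M2ᵀ = M2) {v1 v2 : Fin n → ℝ}
    (u1 : ∑ i, v1 i ^ 2 = 1) (u2 : ∑ i, v2 i ^ 2 = 1) {l1 l2 c : ℝ} (e1 : M1 *ᵥ v1 = l1 • v1)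
    (e2 : M2 *ᵥ v2 = l2 • v2) (hc : ∑ i, v1 i * v2 i = c) :
    c ^ 2 * (1 - ρ ^ 4 * c ^ 4) * l2 ^ 2 * Nt k A1 H1 s1 b v1 z1 +
        qlin ρ M1 M2 (MJ k H1 s1 b z1 - L1) (MJ k H2 s2 b z2 - L2) -
        2 * (H546.fb M2 ^ 2 * (√(Nd k A1 H1 s1 b v1 z1) * √(Na k A1 H1 s1 b z1)) +
          ρ ^ 2 * (H546.fb M1 ^ 2 * (√(Nd k A2 H2 s2 b v2 z2) * √(Na k A2 H2 s2 b z2))) +
          H546.fb M1 * H546.fb M2 * (√(Nd k A1 H1 s1 b v1 z1) * √(Na k A2 H2 s2 b z2) +
            √(Nd k A2 H2 s2 b v2 z2) * √(Na k A1 H1 s1 b z1))) ≤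
      ∫ w : Fin n ⊕ Fin n → ℝ, qlp (ρ ^ 2) M1 M2
        (fun i => res (fa1 A1 s1 b z1) L1 i (yq 1 0 w))
        (fun i => res (fa1 A2 s2 b z2) L2 i (yq ρ σ w)) ∂(gI (Fin n ⊕ Fin n)) := by
  have g1 := gf_a1 h1 s1 b z1
  have g2 := gf_a1 h2 s2 b z2
  exact ql_int g1 g2 hρ t1 t2 u1 u2 e1 e2 hc (Real.sqrt_nonneg _) (Real.sqrt_nonneg _)
    (Real.sqrt_nonneg _) (Real.sqrt_nonneg _)
    (by rw [Real.sq_sqrt (Na_nonneg s1 b z1)]; exact le_rfl)
    (by rw [Real.sq_sqrt (Na_nonneg s2 b z2)]; exact le_rfl)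
    (by rw [Real.sq_sqrt (Nd_nonneg s1 b v1 z1)]; exact le_rfl)
    (by rw [Real.sq_sqrt (Nd_nonneg s2 b v2 z2)]; exact le_rfl)
    (by rw [Real.sq_sqrt (Na_nonneg s1 b z1)]; exact Nt_le h1 s1 b u1 z1)
    (by rw [Real.sq_sqrt (Na_nonneg s2 b z2)]; exact Nt_le h2 s2 b u2 z2)

end Vale.Agent.P146.H45
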