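import Vale.Agent.P146.H816.CleanS

/-!
Plan R2, row [F2d]: the two-site sum for the clean columns under any law.

`p` is the density of the law (any weight included), `A`, `D` the symmetric matrices at the two times,
`a b b'`, `d b b'` the clean columns `b` (the row `b'` averaged out).  The sum over the ordered pairs of
`(a · d')² - (a · a')(d · d')` is at most the diagonal term plus the touches.
-/

open MeasureTheory ProbabilityTheory

namespace Vale.Agent.P146.H45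

open Vale.Agent.P157.Lv Vale.Agent.P146.H712 Vale.Agent.P146.H332 Vale.Agent.P146.H325
  Vale.Agent.P146.H816

set_option linter.unusedSectionVars false

variable {ι : Type} [Fintype ι] [DecidableEq ι] {q : Type} [Fintype q] [DecidableEq q]

/-- the pair functional of four columns -/
def Xp (a d a' d' : q → ℝ) : ℝ :=
  H706.dp a d' * H706.dp a d' - H706.dp a a' * H706.dp d d'

lemma eg_dpp {u v : (ι → ℝ) → q → ℝ} (hu : ∀ i, EG fun z => u z i) (hv : ∀ i, EG fun z => v z i) :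
    EG fun z => H706.dp (u z) (v z) := by
  unfold H706.dp
  exact EG.sum _ fun i _ => (hu i).mul (hv i)

lemma eg_Xp {a d a' d' : (ι → ℝ) → q → ℝ} (ha : ∀ i, EG fun z => a z i)
    (hd : ∀ i, EG fun z => d z i) (ha' : ∀ i, EG fun z => a' z i) (hd' : ∀ i, EG fun z => d' z i) :
    EG fun z => Xp (a z) (d z) (a' z) (d' z) :=
  ((eg_dpp ha hd').mul (eg_dpp ha hd')).sub ((eg_dpp ha ha').mul (eg_dpp hd hd'))

/-- **One pair**: the columns may be replaced by the clean columns. -/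
theorem one_pair {φ : (ι → ℝ) → ℝ} {A D A' D' a d a' d' : (ι → ℝ) → q → ℝ} {M δ : ℝ}
    (ea : ∀ i, EG fun z => a z i) (ed : ∀ i, EG fun z => d z i)
    (hP : Pr φ A D A' D' a d a' d' M δ) :
    |(∫ z, φ z * Xp (A z) (D z) (A' z) (D' z) ∂(gI ι)) -
      ∫ z, φ z * Xp (a z) (d z) (a' z) (d' z) ∂(gI ι)| ≤ 8 * (δ * √M) := by
  haveI := finite_dm hP.eφ
  have sA := s6_of hP.eφ hP.φ0 hP.eA hP.mA
  have sD := s6_of hP.eφ hP.φ0 hP.eD hP.mD
  have sA' := s6_of hP.eφ hP.φ0 hP.eA' hP.mA'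
  have sD' := s6_of hP.eφ hP.φ0 hP.eD' hP.mD'
  have sa := s6_of hP.eφ hP.φ0 ea hP.ma
  have sd := s6_of hP.eφ hP.φ0 ed hP.md
  have sa' := s6_of hP.eφ hP.φ0 hP.ea' hP.ma'
  have sd' := s6_of hP.eφ hP.φ0 hP.ed' hP.md'
  have lA := l2d_of hP.eφ hP.φ0 hP.eA ea hP.hδ hP.dA
  have lD := l2d_of hP.eφ hP.φ0 hP.eD ed hP.hδ hP.dD
  have lA' := l2d_of hP.eφ hP.φ0 hP.eA' hP.ea' hP.hδ hP.dA'
  have lD' := l2d_of hP.eφ hP.φ0 hP.eD' hP.ed' hP.hδ hP.dD'
  have e : ∀ f : (ι → ℝ) → ℝ, ∫ z, f z ∂(dm φ) = ∫ z, φ z * f z ∂(gI ι) :=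
    integral_dm hP.eφ hP.φ0
  have h1 := (H706.repl sA sD' sA sD' sa sd' sa sd' lA lD' lA lD').2.2
  have h2 := (H706.repl sA sA' sD sD' sa sa' sd sd' lA lA' lD lD').2.2
  rw [e, e] at h1 h2
  have s1 : ∫ z, φ z * Xp (A z) (D z) (A' z) (D' z) ∂(gI ι) =
      (∫ z, φ z * (H706.dp (A z) (D' z) * H706.dp (A z) (D' z)) ∂(gI ι)) -
      ∫ z, φ z * (H706.dp (A z) (A' z) * H706.dp (D z) (D' z)) ∂(gI ι) := by
    rw [← integral_sub (hP.eφ.mul ((eg_dpp hP.eA hP.eD').mul (eg_dpp hP.eA hP.eD'))).integrable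
      (hP.eφ.mul ((eg_dpp hP.eA hP.eA').mul (eg_dpp hP.eD hP.eD'))).integrable]
    refine integral_congr_ae (Filter.Eventually.of_forall fun z => ?_)
    simp only [Xp]
    ring
  have s2 : ∫ z, φ z * Xp (a z) (d z) (a' z) (d' z) ∂(gI ι) =
      (∫ z, φ z * (H706.dp (a z) (d' z) * H706.dp (a z) (d' z)) ∂(gI ι)) -
      ∫ z, φ z * (H706.dp (a z) (a' z) * H706.dp (d z) (d' z)) ∂(gI ι) := by
    rw [← integral_sub (hP.eφ.mul ((eg_dpp ea hP.ed').mul (eg_dpp ea hP.ed'))).integrable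
      (hP.eφ.mul ((eg_dpp ea hP.ea').mul (eg_dpp ed hP.ed'))).integrable]
    refine integral_congr_ae (Filter.Eventually.of_forall fun z => ?_)
    simp only [Xp]
    ring
  rw [s1, s2]
  rw [abs_le] at h1 h2 ⊢
  constructor <;> linarith [h1.1, h1.2, h2.1, h2.2]

/-- **[F2d], the sum over the ordered pairs under any law.** -/
theorem two_site {p : (ι → ℝ) → ℝ} {A D : (ι → ℝ) → Matrix q q ℝ}
    {a d : q → q → (ι → ℝ) → q → ℝ} {M δ : q → q → ℝ} (ep : EG p) (p0 : ∀ w, 0 ≤ p w)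
    (eA : ∀ i j, EG fun w => A w i j) (eD : ∀ i j, EG fun w => D w i j)
    (sA : ∀ w, (A w).transpose = A w) (sD : ∀ w, (D w).transpose = D w)
    (ea : ∀ b b' i, EG fun z => a b b' z i) (ed : ∀ b b' i, EG fun z => d b b' z i)
    (hP : ∀ b b', b' ≠ b → Pr p (fun w => col (A w) b) (fun w => col (D w) b)
      (fun w => col (A w) b') (fun w => col (D w) b') (a b b') (d b b') (a b' b) (d b' b)
      (M b b') (δ b b')) :
    |∑ b, ∑ b' ∈ Finset.univ.erase b, ∫ w, p w *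
      Xp (a b b' w) (d b b' w) (a b' b w) (d b' b w) ∂(gI ι)| ≤
      (∫ w, p w * ∑ b, vn (col (A w) b) * vn (col (D w) b) ∂(gI ι)) +
      ∑ b, ∑ b' ∈ Finset.univ.erase b, 8 * (δ b b' * √(M b b')) := by
  have eg1 : EG fun w => ∑ b, vn (col (A w) b) * vn (col (D w) b) :=
    EG.sum _ fun b _ => (eg_vn' (eg_col eA b)).mul (eg_vn' (eg_col eD b))
  have eg2 : ∀ b b', EG fun w => dp (col (A w) b) (col (D w) b') ^ 2 -
      dp (col (A w) b) (col (A w) b') * dp (col (D w) b) (col (D w) b') := fun b b' =>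
    ((eg_dp' (eg_col eA b) (eg_col eD b')).pow 2).sub
    ((eg_dp' (eg_col eA b) (eg_col eA b')).mul (eg_dp' (eg_col eD b) (eg_col eD b')))
  have h1 : |∑ b, ∑ b' ∈ Finset.univ.erase b, ∫ w, p w * (dp (col (A w) b) (col (D w) b') ^ 2 -
      dp (col (A w) b) (col (A w) b') * dp (col (D w) b) (col (D w) b')) ∂(gI ι)| ≤
      ∫ w, p w * ∑ b, vn (col (A w) b) * vn (col (D w) b) ∂(gI ι) := by
    rw [← int_sum_pairs ep eg2, abs_le]
    constructor
    · have h3 : 0 ≤ ∫ w, p w * ∑ b, vn (col (A w) b) * vn (col (D w) b) ∂(gI ι) :=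
        integral_nonneg fun w => mul_nonneg (p0 w)
          (Finset.sum_nonneg fun b _ => mul_nonneg (Finset.sum_nonneg fun i _ => sq_nonneg _)
            (Finset.sum_nonneg fun i _ => sq_nonneg _))
      have h4 : 0 ≤ ∫ w, p w * ∑ b, ∑ b' ∈ Finset.univ.erase b,
          (dp (col (A w) b) (col (D w) b') ^ 2 -
          dp (col (A w) b) (col (A w) b') * dp (col (D w) b) (col (D w) b')) ∂(gI ι) :=
        integral_nonneg fun w => mul_nonneg (p0 w) (pairs_G_bds (sA w) (sD w)).1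
      linarith
    · exact integral_mono (ep.mul (eg_sum_pairs eg2)).integrable (ep.mul eg1).integrable
        fun w => mul_le_mul_of_nonneg_left (pairs_G_bds (sA w) (sD w)).2 (p0 w)
  have h2 : ∀ b b', b' ≠ b → |(∫ w, p w * Xp (a b b' w) (d b b' w) (a b' b w) (d b' b w) ∂(gI ι)) -
      ∫ w, p w * (dp (col (A w) b) (col (D w) b') ^ 2 -
        dp (col (A w) b) (col (A w) b') * dp (col (D w) b) (col (D w) b')) ∂(gI ι)| ≤
        8 * (δ b b' * √(M b b')) := by
    intro b b' hb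
    have h3 := one_pair (ea b b') (ed b b') (hP b b' hb)
    rw [abs_sub_comm]
    refine le_trans (le_of_eq ?_) h3
    congr 2
    refine integral_congr_ae (Filter.Eventually.of_forall fun w => ?_)
    simp only [Xp, dp_eq]
    ring
  have h3 : |(∑ b, ∑ b' ∈ Finset.univ.erase b, ∫ w, p w *
      Xp (a b b' w) (d b b' w) (a b' b w) (d b' b w) ∂(gI ι)) -
      ∑ b, ∑ b' ∈ Finset.univ.erase b, ∫ w, p w * (dp (col (A w) b) (col (D w) b') ^ 2 -
      dp (col (A w) b) (col (A w) b') * dp (col (D w) b) (col (D w) b')) ∂(gI ι)| ≤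
      ∑ b, ∑ b' ∈ Finset.univ.erase b, 8 * (δ b b' * √(M b b')) := by
    rw [← Finset.sum_sub_distrib]
    refine (Finset.abs_sum_le_sum_abs _ _).trans (Finset.sum_le_sum fun b _ => ?_)
    rw [← Finset.sum_sub_distrib]
    exact (Finset.abs_sum_le_sum_abs _ _).trans
      (Finset.sum_le_sum fun b' hb' => h2 b b' (Finset.ne_of_mem_erase hb'))
  rw [abs_le] at h1 h3 ⊢
  constructor <;> linarith [h1.1, h1.2, h3.1, h3.2]

end Vale.Agent.P146.H45
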